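import Vale.Agent.P277Z.R2.Defs

/-!
# P277Z, block R2: the calculus of the star operators
-/

set_option linter.all false

open scoped Manifold ContDiff Topology ComplexConjugate ComplexOrder ENNReal
open Set Filter
open Vale.Agent.P272.K Vale.Agent.P284.H608.K
open Vale.Agent.P284Z.L (dt)

noncomputable section

namespace Vale.Agent.P277Z.R2

namespace Stc

variable {n p : ℕ}

theorem zsm (X : Af n p) : (0 : ℂ) • X = 0 := zero_smul ℂ X

theorem asm (a b : ℂ) (X : Af n p) : (a + b) • X = a • X + b • X := add_smul a b X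

theorem ssm (a b : ℂ) (X : Af n p) : (a - b) • X = a • X - b • X := sub_smul a b X

theorem nsm (a : ℂ) (X : Af n p) : (-a) • X = -(a • X) := neg_smul a X

theorem fsm {ι : Type} (s : Finset ι) (a : ι → ℂ) (X : Af n p) :
    (∑ i ∈ s, a i) • X = ∑ i ∈ s, a i • X := Finset.sum_smul (R := ℂ) (M := Af n p)

theorem smz (a : ℂ) : a • (0 : Af n p) = 0 := smul_zero (A := Af n p) a

theorem msm (a b : ℂ) (X : Af n p) : (a * b) • X = a • b • X := mul_smul a b X

theorem smf {ι : Type} (s : Finset ι) (a : ℂ) (X : ι → Af n p) :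
    a • ∑ i ∈ s, X i = ∑ i ∈ s, a • X i := Finset.smul_sum

theorem lin2 {V : Type} [AddCommGroup V] [Module ℂ V] {X : V} (h : X = -X) : X = 0 := by
  have h2 : (2 : ℂ) • X = 0 := by
    rw [two_smul]
    nth_rewrite 1 [h]
    exact neg_add_cancel _
  exact (smul_eq_zero.1 h2).resolve_left two_ne_zero

theorem lin2' {V : Type} [AddCommGroup V] [Module ℂ V] {X Y : V} (h : X + Y = 0) :
    (2 : ℂ)⁻¹ • (X - Y) = X := by
  rw [eq_neg_of_add_eq_zero_right h]
  module

theorem lin3 {V : Type} [AddCommGroup V] [Module ℂ V] {X : V} (h : X - -X + X = 0) : X = 0 := by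
  have h4 : (3 : ℂ) • X = 0 := by
    rw [← h]; module
  exact (smul_eq_zero.1 h4).resolve_left three_ne_zero

/-- the contraction with `e_a` -/
def io (a : Fin n) : Af n (p + 1) →L[ℂ] Af n p :=
  (ContinuousLinearMap.apply ℂ (Af n p) (Pi.single a 1 : Cm n)).comp
    (ContinuousAlternatingMap.curryLeftLI (𝕜 := ℂ) (E := Cm n) (F := ℂ)
      (n := p)).toContinuousLinearMap

theorem io_apply (a : Fin n) (D : Af n (p + 1)) : io a D = D.curryLeft (Pi.single a 1) := rfl

theorem io_io (a b : Fin n) (D : Af n (p + 2)) : io a (io b D) = - io b (io a D) := by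
  ext v
  simp only [io_apply, ContinuousAlternatingMap.neg_apply,
    ContinuousAlternatingMap.curryLeft_apply_apply]
  have h := D.toAlternatingMap.map_swap
    (Matrix.vecCons (Pi.single a 1 : Cm n) (Matrix.vecCons (Pi.single b 1 : Cm n) v))
    (i := (0 : Fin (p + 2))) (j := 1) (by simp)
  have e : (Matrix.vecCons (Pi.single a 1 : Cm n) (Matrix.vecCons (Pi.single b 1 : Cm n) v)) ∘
      Equiv.swap (0 : Fin (p + 2)) 1 =
      Matrix.vecCons (Pi.single b 1 : Cm n) (Matrix.vecCons (Pi.single a 1 : Cm n) v) := by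
    funext i
    refine Fin.cases ?_ (fun j => Fin.cases ?_ (fun k => ?_) j) i
    · simp
    · simp
    · have h0 : (k.succ.succ : Fin (p + 2)) ≠ 0 := Fin.succ_ne_zero _
      have h1 : (k.succ.succ : Fin (p + 2)) ≠ 1 := Fin.succ_succ_ne_one k
      simp [Equiv.swap_apply_of_ne_of_ne h0 h1]
  rw [e] at h
  exact h

/-- `Vc` as a continuous linear map -/
def VL (w : Matrix (Fin n) (Fin n) ℂ) (c : Fin n) : Af n (p + 1) →L[ℂ] Af n p :=
  ∑ a, w⁻¹ c a • io a

theorem VL_apply (w : Matrix (Fin n) (Fin n) ℂ) (c : Fin n) (D : Af n (p + 1)) :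
    VL w c D = ∑ a, w⁻¹ c a • io a D := by
  simp only [VL, ContinuousLinearMap.sum_apply, ContinuousLinearMap.smul_apply]

theorem Vc_eq (w : Matrix (Fin n) (Fin n) ℂ) (c : Fin n) (D : Af n (p + 1)) :
    Vc w c D = VL w c D := by
  rw [VL_apply]; rfl

theorem VL_VL (w : Matrix (Fin n) (Fin n) ℂ) (b d : Fin n) (D : Af n (p + 2)) :
    VL w b (VL w d D) = - VL w d (VL w b D) := by
  simp only [VL_apply, map_sum, map_smul, Finset.smul_sum, smul_smul]
  rw [Finset.sum_comm, ← Finset.sum_neg_distrib]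
  refine Finset.sum_congr rfl fun x _ => ?_
  rw [← Finset.sum_neg_distrib]
  refine Finset.sum_congr rfl fun y _ => ?_
  rw [io_io, smul_neg, mul_comm]

theorem sym_zero (w : Matrix (Fin n) (Fin n) ℂ) (m : Fin n → Fin n → ℂ) (hm : ∀ b d, m b d = m d b)
    (D : Af n (p + 2)) : ∑ b, ∑ d, m b d • VL w b (VL w d D) = 0 := by
  have h : ∑ b, ∑ d, m b d • VL w b (VL w d D) = - ∑ b, ∑ d, m b d • VL w b (VL w d D) := by
    conv_lhs => rw [Finset.sum_comm]
    rw [← Finset.sum_neg_distrib]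
    refine Finset.sum_congr rfl fun x _ => ?_
    rw [← Finset.sum_neg_distrib]
    refine Finset.sum_congr rfl fun y _ => ?_
    rw [VL_VL, smul_neg, hm]
  exact lin2 h

section calc'

variable {V W : Type} [NormedAddCommGroup V] [NormedSpace ℂ V] [NormedAddCommGroup W]
  [NormedSpace ℂ W] {z : Cm n}

theorem dbV_clm (Λ : V →L[ℂ] W) {η : Cm n → V} (h : DifferentiableAt ℝ η z) (b : Fin n) :
    dbV b (fun y => Λ (η y)) z = Λ (dbV b η z) := by
  have h1 : fderiv ℝ (fun y => Λ (η y)) z = (Λ.restrictScalars ℝ).comp (fderiv ℝ η z) :=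
    ((Λ.restrictScalars ℝ).hasFDerivAt.comp z h.hasFDerivAt).fderiv
  rw [dbV, dbV, h1, map_smul, map_add, map_smul]
  rfl

theorem dbV_sum {ι : Type} (s : Finset ι) {η : ι → Cm n → V}
    (h : ∀ i ∈ s, DifferentiableAt ℝ (η i) z) (b : Fin n) :
    dbV b (fun y => ∑ i ∈ s, η i y) z = ∑ i ∈ s, dbV b (η i) z := by
  simp only [dbV]
  rw [fderiv_fun_sum h]
  simp only [ContinuousLinearMap.sum_apply, Finset.smul_sum, ← Finset.sum_add_distrib]

theorem dbV_const (c : V) (b : Fin n) : dbV b (fun _ : Cm n => c) z = 0 := by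
  simp [dbV]

end calc'

variable {w : Cm n → Matrix (Fin n) (Fin n) ℂ} {z : Cm n} {O : Set (Cm n)}

theorem VL_sm {m : WithTop ℕ∞} (hw : ∀ j k, ContDiffAt ℝ m (fun y => w y j k) z)
    (h0 : (w z).det ≠ 0) {D : Cm n → Af n (p + 1)} (hD : ContDiffAt ℝ m D z) (c : Fin n) :
    ContDiffAt ℝ m (fun y => VL (w y) c (D y)) z := by
  simp only [VL_apply]
  exact ContDiffAt.sum fun a _ => ContDiffAt.fun_smul (contDiffAt_inv hw h0 c a)
    (P284.H205.K.clm_sm (io a) hD)

/-- the derivative of the inverse matrix -/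
theorem dzb_inv (hO : IsOpen O) (hK : KOn O w) (hz : z ∈ O) (b j a : Fin n) :
    dzb b (fun y => (w y)⁻¹ j a) z =
      - ∑ c, ∑ d, (w z)⁻¹ j c * dzb b (fun y => w y c d) z * (w z)⁻¹ d a := by
  have h0 : (w z).det ≠ 0 := (hK.pos z hz).det_pos.ne'
  have hw : ∀ c d, DifferentiableAt ℝ (fun y => w y c d) z := fun c d =>
    (hK.sm z hz c d).differentiableAt (by simp)
  have hg : ∀ c d, DifferentiableAt ℝ (fun y => (w y)⁻¹ c d) z := fun c d =>
    (contDiffAt_inv (hK.sm z hz) h0 c d).differentiableAt (by simp)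
  have key : (w z)⁻¹ * (Matrix.of fun c d => dzb b (fun y => w y c d) z) +
      (Matrix.of fun c d => dzb b (fun y => (w y)⁻¹ c d) z) * w z = 0 := by
    ext c d
    have h1 : (fun y => ∑ k, (w y)⁻¹ c k * w y k d) =ᶠ[𝓝 z]
        fun _ => (1 : Matrix (Fin n) (Fin n) ℂ) c d := by
      filter_upwards [hO.mem_nhds hz] with y hy
      rw [← Matrix.mul_apply, Matrix.nonsing_inv_mul _ (hK.pos y hy).det_pos.ne'.isUnit]
    have h2 := INT.dzb_congr (i := b) h1
    rw [INT.dzb_const, INT.dzb_sum _ fun k _ => (hg c k).fun_mul (hw k d)] at h2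
    simp only [Matrix.add_apply, Matrix.mul_apply, Matrix.of_apply, Matrix.zero_apply]
    rw [← h2, ← Finset.sum_add_distrib]
    refine Finset.sum_congr rfl fun k _ => ?_
    rw [INT.dzb_mul (hg c k) (hw k d), add_comm]
  have k2 : (Matrix.of fun c d => dzb b (fun y => (w y)⁻¹ c d) z) =
      - ((w z)⁻¹ * (Matrix.of fun c d => dzb b (fun y => w y c d) z) * (w z)⁻¹) := by
    have h3 := congrArg (fun M => M * (w z)⁻¹) key
    simp only [Matrix.add_mul, Matrix.zero_mul] at h3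
    rw [Matrix.mul_assoc _ (w z), Matrix.mul_nonsing_inv _ h0.isUnit, Matrix.mul_one] at h3
    exact eq_neg_of_add_eq_zero_right h3
  have k3 := congrFun (congrFun k2 j) a
  simp only [Matrix.of_apply, Matrix.neg_apply, Matrix.mul_apply, Finset.sum_mul] at k3
  rw [k3, Finset.sum_comm]

/-- the Kähler condition for `∂̄` -/
theorem dzb_symm (hO : IsOpen O) (hK : KOn O w) (hz : z ∈ O) (c b d : Fin n) :
    dzb b (fun y => w y c d) z = dzb d (fun y => w y c b) z := by
  have h : ∀ k, (fun y => w y c k) =ᶠ[𝓝 z] fun y => conj (w y k c) := fun k => by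
    filter_upwards [hO.mem_nhds hz] with y hy
    exact ((hK.pos y hy).1.apply c k).symm
  rw [INT.dzb_congr (h d), INT.dzb_congr (h b), INT.dzb_conj, INT.dzb_conj, hK.cl z hz d c b]

/-- minus `SL` -/
def TT (w : Cm n → Matrix (Fin n) (Fin n) ℂ) (η : Cm n → Af n (p + 1)) (z : Cm n) : Af n p :=
  ∑ b, VL (w z) b (dbV b η z)

theorem SL_eq (η : Cm n → Af n (p + 1)) : SL w η z = - TT w η z := by
  unfold SL Lam TT
  rw [Finset.sum_comm]
  simp only [VL_apply, io_apply]

theorem dbV_VL (hO : IsOpen O) (hK : KOn O w) (hz : z ∈ O) {D : Cm n → Af n (p + 1)}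
    (hD : DifferentiableAt ℝ D z) (j b : Fin n) :
    dbV b (fun y => VL (w y) j (D y)) z = VL (w z) j (dbV b D z) -
      ∑ c, ∑ d, ((w z)⁻¹ j c * dzb b (fun y => w y c d) z) • VL (w z) d (D z) := by
  have h0 : (w z).det ≠ 0 := (hK.pos z hz).det_pos.ne'
  have hg : ∀ c d, DifferentiableAt ℝ (fun y => (w y)⁻¹ c d) z := fun c d =>
    (contDiffAt_inv (hK.sm z hz) h0 c d).differentiableAt (by simp)
  have hi : ∀ a, DifferentiableAt ℝ (fun y => io a (D y)) z := fun a =>
    ((io a).restrictScalars ℝ).differentiableAt.comp z hD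
  have h2 : ∀ a, dbV b (fun y => (w y)⁻¹ j a • io a (D y)) z =
      (w z)⁻¹ j a • io a (dbV b D z) - ∑ c, ∑ d,
        ((w z)⁻¹ j c * dzb b (fun y => w y c d) z) • (w z)⁻¹ d a • io a (D z) := by
    intro a
    rw [P284.H419.K.dbV_mul (hg j a) (hi a), dbV_clm _ hD, dzb_inv hO hK hz, nsm,
      ← sub_eq_add_neg, fsm]
    refine congrArg _ (Finset.sum_congr rfl fun c _ => ?_)
    rw [fsm]
    exact Finset.sum_congr rfl fun d _ => msm _ _ _
  have h3 : (fun y => VL (w y) j (D y)) = fun y => ∑ a, (w y)⁻¹ j a • io a (D y) :=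
    funext fun y => VL_apply _ _ _
  rw [h3, dbV_sum _ fun a _ => (hg j a).fun_smul (hi a), Finset.sum_congr rfl fun a _ => h2 a,
    Finset.sum_sub_distrib, ← VL_apply, Finset.sum_comm]
  refine congrArg _ (Finset.sum_congr rfl fun c _ => ?_)
  rw [Finset.sum_comm]
  refine Finset.sum_congr rfl fun d _ => ?_
  rw [VL_apply, smf]

theorem TT_VL (hO : IsOpen O) (hK : KOn O w) (hz : z ∈ O) {D : Cm n → Af n (p + 2)}
    (hD : DifferentiableAt ℝ D z) (j : Fin n) :
    TT w (fun y => VL (w y) j (D y)) z = - VL (w z) j (TT w D z) := by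
  have h3 : ∑ b, ∑ c, ∑ d, ((w z)⁻¹ j c * dzb b (fun y => w y c d) z) •
      VL (w z) b (VL (w z) d (D z)) = 0 := by
    rw [Finset.sum_comm]
    refine Finset.sum_eq_zero fun c _ => ?_
    exact sym_zero (w z) (fun b d => (w z)⁻¹ j c * dzb b (fun y => w y c d) z)
      (fun b d => by rw [dzb_symm hO hK hz c b d]) (D z)
  have h4 : ∀ b, VL (w z) b (dbV b (fun y => VL (w y) j (D y)) z) =
      - VL (w z) j (VL (w z) b (dbV b D z)) -
        ∑ c, ∑ d, ((w z)⁻¹ j c * dzb b (fun y => w y c d) z) • VL (w z) b (VL (w z) d (D z)) := by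
    intro b
    rw [dbV_VL hO hK hz hD, map_sub, VL_VL, map_sum]
    refine congrArg _ (Finset.sum_congr rfl fun c _ => ?_)
    rw [map_sum]
    exact Finset.sum_congr rfl fun d _ => map_smul _ _ _
  unfold TT
  rw [Finset.sum_congr rfl fun b _ => h4 b, Finset.sum_sub_distrib, h3, sub_zero, map_sum,
    Finset.sum_neg_distrib]

theorem TT_sum {ι : Type} (s : Finset ι) {η : ι → Cm n → Af n (p + 1)}
    (h : ∀ i ∈ s, DifferentiableAt ℝ (η i) z) :
    TT w (fun y => ∑ i ∈ s, η i y) z = ∑ i ∈ s, TT w (η i) z := by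
  unfold TT
  simp only [dbV_sum s h, map_sum]
  exact Finset.sum_comm

theorem TT_mul {f : Cm n → ℂ} {η : Cm n → Af n (p + 1)} (hf : DifferentiableAt ℝ f z)
    (h : DifferentiableAt ℝ η z) :
    TT w (fun y => f y • η y) z = f z • TT w η z + ∑ b, dzb b f z • VL (w z) b (η z) := by
  unfold TT
  simp only [P284.H419.K.dbV_mul hf h, map_add, map_smul, Finset.sum_add_distrib, Finset.smul_sum]

theorem TT_const (D : Af n (p + 1)) : TT w (fun _ => D) z = 0 := by
  unfold TT
  simp only [dbV_const, map_zero, Finset.sum_const_zero]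

/-- the coefficients of `∂A` -/
theorem ev_dhL {A : Cm n → Af n p} (hA : DifferentiableAt ℝ A z) (s : Fin (p + 1) → Fin n) :
    ev (dhL (fun _ => 0) A z) s =
      ∑ i : Fin (p + 1), (-1 : ℂ) ^ (i : ℕ) * dz (s i) (fun y => ev (A y) (i.removeNth s)) z := by
  unfold dhL
  rw [ev, ContinuousAlternatingMap.alternatizeUncurryFin_apply]
  refine Finset.sum_congr rfl fun i _ => ?_
  rw [P284.H279.K.ev_dzV hA, zsmul_eq_mul]
  simp only [ContinuousLinearMap.sum_apply, ContinuousLinearMap.smulRight_apply,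
    ContinuousLinearMap.proj_apply, INT.dz_const, zsm, sub_zero]
  rw [Finset.sum_eq_single_of_mem (s i) (Finset.mem_univ _)]
  · simp only [Pi.single_eq_same, one_smul]
    push_cast
    rfl
  · intro b _ hb
    rw [Pi.single_eq_of_ne hb, zsm]

theorem ev_dhL1 {A : Cm n → Af n 1} (hA : DifferentiableAt ℝ A z) (b j : Fin n) :
    ev (dhL (fun _ => 0) A z) ![b, j] =
      dz b (fun y => ev (A y) ![j]) z - dz j (fun y => ev (A y) ![b]) z := by
  rw [ev_dhL hA, Fin.sum_univ_two]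
  have e0 : Fin.removeNth (0 : Fin 2) ![b, j] = ![j] := by
    funext i; fin_cases i; rfl
  have e1 : Fin.removeNth (1 : Fin 2) ![b, j] = ![b] := by
    funext i; fin_cases i; rfl
  rw [e0, e1]
  simp [sub_eq_add_neg]

theorem ev_dhL2 {A : Cm n → Af n 2} (hA : DifferentiableAt ℝ A z) (b i j : Fin n) :
    ev (dhL (fun _ => 0) A z) ![b, i, j] =
      dz b (fun y => ev (A y) ![i, j]) z - dz i (fun y => ev (A y) ![b, j]) z +
        dz j (fun y => ev (A y) ![b, i]) z := by
  rw [ev_dhL hA, Fin.sum_univ_three]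
  have e0 : Fin.removeNth (0 : Fin 3) ![b, i, j] = ![i, j] := by
    funext k; fin_cases k <;> rfl
  have e1 : Fin.removeNth (1 : Fin 3) ![b, i, j] = ![b, j] := by
    funext k; fin_cases k <;> rfl
  have e2 : Fin.removeNth (2 : Fin 3) ![b, i, j] = ![b, i] := by
    funext k; fin_cases k <;> rfl
  rw [e0, e1, e2]
  simp [sub_eq_add_neg]

theorem cev_sm {m : WithTop ℕ∞} {A : Cm n → Af n p} (hA : ContDiffAt ℝ m A z)
    (s : Fin p → Fin n) : ContDiffAt ℝ m (fun y => conj (ev (A y) s)) z :=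
  Complex.conjCLE.contDiff.contDiffAt.comp z (P284.H205.K.ev_sm hA s)

theorem anti2 (w : Matrix (Fin n) (Fin n) ℂ) (c : Fin n → Fin n → ℂ) (D : Af n (p + 2)) :
    (2 : ℂ)⁻¹ • ∑ b, ∑ j, (c b j - c j b) • VL w b (VL w j D) =
      ∑ b, ∑ j, c b j • VL w b (VL w j D) := by
  have h := sym_zero w (fun b j => c b j + c j b) (fun b j => add_comm _ _) D
  simp only [asm, Finset.sum_add_distrib] at h
  simp only [ssm, Finset.sum_sub_distrib]
  exact lin2' h

theorem anti3 (w : Matrix (Fin n) (Fin n) ℂ) (c : Fin n → Fin n → Fin n → ℂ)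
    (hc : ∀ b i j, c b i j - c i b j + c j b i = 0) (D : Af n (p + 3)) :
    ∑ b, ∑ i, ∑ j, c b i j • VL w b (VL w i (VL w j D)) = 0 := by
  have h1 : ∑ b, ∑ i, ∑ j, c i b j • VL w b (VL w i (VL w j D)) =
      - ∑ b, ∑ i, ∑ j, c b i j • VL w b (VL w i (VL w j D)) := by
    rw [Finset.sum_comm]
    simp only [← Finset.sum_neg_distrib]
    refine Finset.sum_congr rfl fun b _ => Finset.sum_congr rfl fun i _ =>
      Finset.sum_congr rfl fun j _ => ?_
    rw [VL_VL, smul_neg]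
  have h2 : ∑ b, ∑ i, ∑ j, c j b i • VL w b (VL w i (VL w j D)) =
      ∑ b, ∑ i, ∑ j, c b i j • VL w b (VL w i (VL w j D)) := by
    rw [Finset.sum_congr rfl fun b _ => Finset.sum_comm, Finset.sum_comm]
    refine Finset.sum_congr rfl fun b _ => Finset.sum_congr rfl fun i _ =>
      Finset.sum_congr rfl fun j _ => ?_
    rw [VL_VL w j b D, map_neg, VL_VL w i b, neg_neg]
  have h3 : ∑ b, ∑ i, ∑ j, (c b i j - c i b j + c j b i) • VL w b (VL w i (VL w j D)) = 0 := by
    simp only [hc, zsm, Finset.sum_const_zero]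
  simp only [asm, ssm, Finset.sum_add_distrib, Finset.sum_sub_distrib] at h3
  rw [h1, h2] at h3
  exact lin3 h3

/-- `s1` in all degrees -/
def G1 (w : Matrix (Fin n) (Fin n) ℂ) (A : Af n 1) (D : Af n (p + 1)) : Af n p :=
  ∑ b, conj (ev A ![b]) • VL w b D

/-- `s2` in all degrees -/
def G2 (w : Matrix (Fin n) (Fin n) ℂ) (A : Af n 2) (D : Af n (p + 2)) : Af n p :=
  (2 : ℂ)⁻¹ • ∑ b, ∑ j, conj (ev A ![b, j]) • VL w b (VL w j D)

theorem s1_eq (w : Matrix (Fin 4) (Fin 4) ℂ) (A : Af 4 1) : s1 w A = G1 (p := 3) w A (dt 4) :=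
  Finset.sum_congr rfl fun b _ => congrArg (fun X : Af 4 3 => conj (ev A ![b]) • X) (Vc_eq _ _ _)

theorem s2_eq (w : Matrix (Fin 4) (Fin 4) ℂ) (A : Af 4 2) : s2 w A = G2 (p := 2) w A (dt 4) :=
  congrArg (fun X : Af 4 2 => (2 : ℂ)⁻¹ • X) (Finset.sum_congr rfl fun b _ =>
    Finset.sum_congr rfl fun j _ => congrArg (fun X : Af 4 2 => conj (ev A ![b, j]) • X)
      ((Vc_eq _ _ _).trans (congrArg (VL (p := 2) w b) (Vc_eq _ _ _))))

theorem sm2 (hw : ∀ j k, ContDiffAt ℝ ∞ (fun y => w y j k) z) (h0 : (w z).det ≠ 0)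
    {A : Cm n → Af n 2} (hA : ContDiffAt ℝ ∞ A z) (D : Af n (p + 2)) :
    ContDiffAt ℝ ∞ (fun y => G2 (w y) (A y) D) z := by
  unfold G2
  refine ContDiffAt.fun_smul contDiffAt_const
    (ContDiffAt.sum fun b _ => ContDiffAt.sum fun j _ => ?_)
  exact ContDiffAt.fun_smul (cev_sm hA _) (VL_sm hw h0 (VL_sm hw h0 contDiffAt_const j) b)

theorem S1 (hO : IsOpen O) (hK : KOn O w) (hz : z ∈ O) {A : Cm n → Af n 1}
    (hA : ContDiffAt ℝ ∞ A z) (D : Af n (p + 2)) :
    SL w (fun y => G1 (w y) (A y) D) z = - G2 (w z) (dhL (fun _ => 0) A z) D := by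
  have hd : (w z).det ≠ 0 := (hK.pos z hz).det_pos.ne'
  have hA' : DifferentiableAt ℝ A z := hA.differentiableAt (by simp)
  have hV : ∀ j, DifferentiableAt ℝ (fun y => VL (w y) j D) z := fun j =>
    (VL_sm (hK.sm z hz) hd contDiffAt_const j).differentiableAt (by simp)
  have hc : ∀ s, DifferentiableAt ℝ (fun y => conj (ev (A y) s)) z := fun s =>
    (cev_sm hA s).differentiableAt (by simp)
  rw [SL_eq]
  refine congrArg _ ?_
  unfold G1 G2
  rw [TT_sum _ fun j _ => (hc ![j]).fun_smul (hV j)]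
  have h1 : ∀ j, TT w (fun y => conj (ev (A y) ![j]) • VL (w y) j D) z =
      ∑ b, conj (dz b (fun y => ev (A y) ![j]) z) • VL (w z) b (VL (w z) j D) := by
    intro j
    rw [TT_mul (hc _) (hV j), TT_VL hO hK hz (differentiableAt_const _), TT_const]
    simp only [map_zero, neg_zero, smz, zero_add, INT.dzb_conj]
  simp only [h1, ev_dhL1 hA', map_sub]
  rw [anti2 (w z) (fun b j => conj (dz b (fun y => ev (A y) ![j]) z)) D, Finset.sum_comm]

theorem S2 (hO : IsOpen O) (hK : KOn O w) (hz : z ∈ O) {A : Cm n → Af n 2}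
    (hA : ContDiffAt ℝ ∞ A z) (h0 : dhL (fun _ => 0) A z = 0) (D : Af n (p + 3)) :
    SL w (fun y => G2 (w y) (A y) D) z = 0 := by
  have hd : (w z).det ≠ 0 := (hK.pos z hz).det_pos.ne'
  have hA' : DifferentiableAt ℝ A z := hA.differentiableAt (by simp)
  have hV : ∀ j, DifferentiableAt ℝ (fun y => VL (w y) j D) z := fun j =>
    (VL_sm (hK.sm z hz) hd contDiffAt_const j).differentiableAt (by simp)
  have hV2 : ∀ i j, DifferentiableAt ℝ (fun y => VL (w y) i (VL (w y) j D)) z := fun i j =>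
    (VL_sm (hK.sm z hz) hd (VL_sm (hK.sm z hz) hd contDiffAt_const j) i).differentiableAt
      (by simp)
  have hc : ∀ s, DifferentiableAt ℝ (fun y => conj (ev (A y) s)) z := fun s =>
    (cev_sm hA s).differentiableAt (by simp)
  have hs : ∀ i, DifferentiableAt ℝ (fun y => ∑ j, conj (ev (A y) ![i, j]) •
      VL (w y) i (VL (w y) j D)) z := fun i =>
    DifferentiableAt.fun_sum fun j _ => (hc ![i, j]).fun_smul (hV2 i j)
  rw [SL_eq, neg_eq_zero]
  unfold G2
  rw [TT_mul (differentiableAt_const _) (DifferentiableAt.fun_sum fun i _ => hs i),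
    TT_sum _ fun i _ => hs i]
  have h1 : ∀ i j, TT w (fun y => conj (ev (A y) ![i, j]) • VL (w y) i (VL (w y) j D)) z =
      ∑ b, conj (dz b (fun y => ev (A y) ![i, j]) z) • VL (w z) b (VL (w z) i (VL (w z) j D)) := by
    intro i j
    rw [TT_mul (hc _) (hV2 i j), TT_VL hO hK hz (hV j),
      TT_VL hO hK hz (differentiableAt_const _), TT_const]
    simp only [map_zero, neg_zero, smz, zero_add, INT.dzb_conj]
  have h2 : ∀ i, TT w (fun y => ∑ j, conj (ev (A y) ![i, j]) • VL (w y) i (VL (w y) j D)) z =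
      ∑ b, ∑ j, conj (dz b (fun y => ev (A y) ![i, j]) z) •
        VL (w z) b (VL (w z) i (VL (w z) j D)) := by
    intro i
    rw [TT_sum _ fun j _ => (hc ![i, j]).fun_smul (hV2 i j)]
    simp only [h1]
    exact Finset.sum_comm
  simp only [h2, INT.dzb_const, zsm, Finset.sum_const_zero, add_zero]
  rw [Finset.sum_comm, anti3 (w z) (fun b i j => conj (dz b (fun y => ev (A y) ![i, j]) z))
    (fun b i j => ?_) D, smz]
  have h3 := ev_dhL2 hA' b i j
  rw [h0] at h3
  rw [← map_sub, ← map_add, ← h3]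
  exact map_zero _

theorem sm1 (hw : ∀ j k, ContDiffAt ℝ ∞ (fun y => w y j k) z) {y : Cm n → Af n p}
    (hy : ContDiffAt ℝ ∞ y z) (s : Fin (p + 1) → Fin n) (B : Fin n → Af n 1) :
    ContDiffAt ℝ ∞ (fun z => ∑ b, conj (∑ k, ev (wdz k (y z)) s * w z k b) • B b) z := by
  refine ContDiffAt.sum fun b _ => ContDiffAt.fun_smul ?_ contDiffAt_const
  exact Complex.conjCLE.contDiff.contDiffAt.comp z (ContDiffAt.sum fun k _ =>
    (P284.H205.K.ev_sm (P284.H205.K.wdz_sm hy k) s).mul (hw k b))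

end Stc

/-- **STC** -/
theorem stc : StStc := by
  refine ⟨fun w y z hw hy => ?_, fun w A z hw hp hA => ?_, fun O w hO hK A z hz hA => ?_,
    fun O w hO hK A z hz hA h0 => ?_⟩
  · have h := Stc.sm1 hw hy id fun b =>
      wdz b (ContinuousAlternatingMap.constOfIsEmpty ℂ (Cm 4) (Fin 0) (1 : ℂ))
    unfold i1
    exact h
  · simp only [Stc.s2_eq]
    exact Stc.sm2 (p := 2) hw hp.det_pos.ne' hA (dt 4)
  · simp only [Stc.s1_eq, Stc.s2_eq]
    exact Stc.S1 (p := 2) hO hK hz hA (dt 4)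
  · simp only [Stc.s2_eq]
    exact Stc.S2 (p := 1) hO hK hz hA h0 (dt 4)

end Vale.Agent.P277Z.R2
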