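import Vale.Agent.P277Z.R2.All
import Vale.Agent.P277Z.R2.Stc

/-!
# P277Z, block R2: the theorem
-/

namespace Vale.Agent.P277Z.R2

/-- **R2** -/
theorem stR2 : StR2' := r2_of stc

end Vale.Agent.P277Z.R2
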