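import Vale.Agent.P277Z.Ln.Defs
import Vale.Agent.P277Z.Van.Core
import Vale.Agent.P277Z.Van.Vol

/-!
# P277Z, block R2: approximate solutions of `∂γ = f` near a fibre. Statements.
-/

set_option linter.all false

open scoped Manifold ContDiff Topology ComplexConjugate ComplexOrder ENNReal
open Set Filter MeasureTheory Metric
open Vale.Agent.P272.K Vale.Agent.P284.H608.K
open Vale.Agent.P301.H599 (Fm ddc)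
open Vale.Agent.P285Z (kc)
open Vale.Agent.P284Z.L (dt)
open Vale.Agent.P284.H650 (gg)
open Vale.Agent.P277Z.Van (SmOn KahOn PSDOn PDOn IsVol)
open Vale.Agent.P277Z.Van.Ka (rat)
open Vale.Agent.P277Z.Ln

noncomputable section

namespace Vale.Agent.P277Z.R2

/-! ### The engine -/

/-- **SOLD**: approximate solutions of `∂_h u = f` -/
def StSolD : Prop :=
  ∀ (n : ℕ) (M : Type) [TopologicalSpace M] [T2Space M] [MeasurableSpace M] [BorelSpace M]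
    (K : KA n M), Nonempty K.Cut → ∀ p : ℕ, Apr K (p + 1) → ∀ f : ℕ → K.Fm (p + 2),
    (∀ k, K.IsForm (f k) ∧ K.Smooth (f k) ∧ K.nl (f k) ≠ ⊤) →
    Tendsto (fun q : ℕ × ℕ => K.nl (f q.1 - f q.2)) atTop (𝓝 0) →
    Tendsto (fun k => K.nl (K.dh (f k))) atTop (𝓝 0) →
    ∃ u : ℕ → K.Fm (p + 1), (∀ k, K.Test (u k)) ∧
      Tendsto (fun q : ℕ × ℕ => K.nl (u q.1 - u q.2)) atTop (𝓝 0) ∧
      Tendsto (fun k => K.nl (K.dh (u k) - f k)) atTop (𝓝 0)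

/-- **SOLS**: approximate solutions of `S u = f` -/
def StSolS : Prop :=
  ∀ (n : ℕ) (M : Type) [TopologicalSpace M] [T2Space M] [MeasurableSpace M] [BorelSpace M]
    (K : KA n M), Nonempty K.Cut → ∀ p : ℕ, Apr K p → ∀ f : ℕ → K.Fm (p + 1),
    (∀ k, K.IsForm (f k) ∧ K.Smooth (f k) ∧ K.nl (f k) ≠ ⊤) →
    Tendsto (fun q : ℕ × ℕ => K.nl (f q.1 - f q.2)) atTop (𝓝 0) →
    Tendsto (fun k => K.nl (K.S (f k))) atTop (𝓝 0) →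
    ∃ u : ℕ → K.Fm (p + 2), (∀ k, K.Test (u k)) ∧
      Tendsto (fun q : ℕ × ℕ => K.nl (u q.1 - u q.2)) atTop (𝓝 0) ∧
      Tendsto (fun k => K.nl (K.S (u k) - f k)) atTop (𝓝 0)

/-! ### The star operators in dimension four -/

/-- the adjoint of `dz_c ∧` -/
def Vc {n p : ℕ} (w : Matrix (Fin n) (Fin n) ℂ) (c : Fin n) (D : Af n (p + 1)) : Af n p :=
  ∑ a, w⁻¹ c a • D.curryLeft (Pi.single a 1)

/-- degree `1` to degree `3` -/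
def s1 (w : Matrix (Fin 4) (Fin 4) ℂ) (A : Af 4 1) : Af 4 3 :=
  ∑ b, conj (ev A ![b]) • Vc w b (dt 4)

/-- degree `2` to degree `2` -/
def s2 (w : Matrix (Fin 4) (Fin 4) ℂ) (A : Af 4 2) : Af 4 2 :=
  (2 : ℂ)⁻¹ • ∑ b, ∑ j, conj (ev A ![b, j]) • Vc w b (Vc w j (dt 4))

/-- the inverse of `s1` -/
def i1 (w : Matrix (Fin 4) (Fin 4) ℂ) (y : Af 4 3) : Af 4 1 :=
  ∑ b, conj (∑ k, ev (wdz k y) id * w k b) •
    wdz b (ContinuousAlternatingMap.constOfIsEmpty ℂ (Cm 4) (Fin 0) (1 : ℂ))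

/-- **STA**: pointwise algebra -/
structure StSta : Prop where
  iso1 : ∀ w : Matrix (Fin 4) (Fin 4) ℂ, w.PosDef → ∀ A : Af 4 1,
    (hn w (s1 w A) (s1 w A)).re = (hn w A A).re / w.det.re
  iso2 : ∀ w : Matrix (Fin 4) (Fin 4) ℂ, w.PosDef → ∀ A : Af 4 2,
    (hn w (s2 w A) (s2 w A)).re = (hn w A A).re / w.det.re
  inv : ∀ w : Matrix (Fin 4) (Fin 4) ℂ, w.PosDef → ∀ y : Af 4 3, s1 w (i1 w y) = y
  sub1 : ∀ (w : Matrix (Fin 4) (Fin 4) ℂ) (y y' : Af 4 3), i1 w (y - y') = i1 w y - i1 w y'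
  sub2 : ∀ (w : Matrix (Fin 4) (Fin 4) ℂ) (A B : Af 4 2), s2 w (A - B) = s2 w A - s2 w B
  chg1 : ∀ (w' : Matrix (Fin 4) (Fin 4) ℂ) (L : Cm 4 →L[ℂ] Cm 4), w'.PosDef →
    Function.Bijective L → ∀ y : Af 4 3,
    i1 ((LinearMap.toMatrix' (L : Cm 4 →ₗ[ℂ] Cm 4)).transpose * w' *
        (LinearMap.toMatrix' (L : Cm 4 →ₗ[ℂ] Cm 4)).map (starRingEnd ℂ))
      (((LinearMap.toMatrix' (L : Cm 4 →ₗ[ℂ] Cm 4)).det)⁻¹ • y.compContinuousLinearMap L) =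
      (i1 w' y).compContinuousLinearMap L
  chg2 : ∀ (w' : Matrix (Fin 4) (Fin 4) ℂ) (L : Cm 4 →L[ℂ] Cm 4), w'.PosDef →
    Function.Bijective L → ∀ A : Af 4 2,
    s2 ((LinearMap.toMatrix' (L : Cm 4 →ₗ[ℂ] Cm 4)).transpose * w' *
        (LinearMap.toMatrix' (L : Cm 4 →ₗ[ℂ] Cm 4)).map (starRingEnd ℂ))
      (A.compContinuousLinearMap L) =
      ((LinearMap.toMatrix' (L : Cm 4 →ₗ[ℂ] Cm 4)).det)⁻¹ • (s2 w' A).compContinuousLinearMap L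

/-- **STC**: calculus -/
structure StStc : Prop where
  sm1 : ∀ (w : Cm 4 → Matrix (Fin 4) (Fin 4) ℂ) (y : Cm 4 → Af 4 3) (z : Cm 4),
    (∀ j k, ContDiffAt ℝ ∞ (fun z => w z j k) z) → ContDiffAt ℝ ∞ y z →
    ContDiffAt ℝ ∞ (fun z => i1 (w z) (y z)) z
  sm2 : ∀ (w : Cm 4 → Matrix (Fin 4) (Fin 4) ℂ) (A : Cm 4 → Af 4 2) (z : Cm 4),
    (∀ j k, ContDiffAt ℝ ∞ (fun z => w z j k) z) → (w z).PosDef → ContDiffAt ℝ ∞ A z →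
    ContDiffAt ℝ ∞ (fun z => s2 (w z) (A z)) z
  S1 : ∀ (O : Set (Cm 4)) (w : Cm 4 → Matrix (Fin 4) (Fin 4) ℂ), IsOpen O → KOn O w →
    ∀ (A : Cm 4 → Af 4 1), ∀ z ∈ O, ContDiffAt ℝ ∞ A z →
    SL w (fun y => s1 (w y) (A y)) z = - s2 (w z) (dhL (fun _ => 0) A z)
  S2 : ∀ (O : Set (Cm 4)) (w : Cm 4 → Matrix (Fin 4) (Fin 4) ℂ), IsOpen O → KOn O w →
    ∀ (A : Cm 4 → Af 4 2), ∀ z ∈ O, ContDiffAt ℝ ∞ A z → dhL (fun _ => 0) A z = 0 →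
    SL w (fun y => s2 (w y) (A y)) z = 0

/-! ### Solutions on an open subset -/

section mfd

variable {n p : ℕ} {X : Type} [TopologicalSpace X] [ChartedSpace (Cm n) X]

/-- the square of the `L²` norm with the weight `Φ` -/
def NN [MeasurableSpace X] (μ : Measure X) (Ω : Set X) (w : Fm n X) (Φ : X → ℝ) (η : Fa n p X) :
    ℝ≥0∞ :=
  ∫⁻ x in Ω, ENNReal.ofReal (Φ x * nm w η x) ∂μ

/-- `w` is complete on `Ω` -/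
def Cp (Ω : Set X) (w : Fm n X) : Prop :=
  ∃ τ : X → ℝ, SmOn (d := n) Ω τ ∧ (∀ x ∈ Ω, 0 ≤ τ x) ∧ (∀ c, IsCompact {x | x ∈ Ω ∧ τ x ≤ c}) ∧
    PSDOn Ω fun e z => w e z - gg (fun y => τ (e.symm y)) (fun y => τ (e.symm y)) z

/-- first curvature condition -/
def CA (Ω : Set X) (h w : Fm n X) (Ψ : X → ℝ) : Prop :=
  ∃ c : ℝ, 0 < c ∧ PSDOn Ω fun e z => ddc Ψ e z - kc h e z - (c : ℂ) • w e z

/-- second curvature condition -/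
def CB (Ω : Set X) (w : Fm n X) (φ : X → ℝ) : Prop :=
  ∃ c : ℝ, 0 < c ∧ ∀ e x, At e x → x ∈ Ω → ∀ A : Af n 2,
    c * (hn (w e (e x)) A A).re ≤ (Ad (w e (e x)) (ddc φ e (e x)) A).re

/-- the coefficients of `∂χ` -/
def dv (χ : X → ℝ) (e : Chart n X) (x : X) (c : Fin n) : ℂ :=
  dz c (fun z => (χ (e.symm z) : ℂ)) (e x)

end mfd

/-- A statement for all fourfolds with a Hermitian metric and its volume measure. -/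
def ForX (P : ∀ (X : Type) [TopologicalSpace X] [ChartedSpace (Cm 4) X] [MeasurableSpace X],
    Fm 4 X → Measure X → Prop) : Prop :=
  ∀ (X : Type) [TopologicalSpace X] [T2Space X] [ChartedSpace (Cm 4) X]
    [IsManifold 𝓘(ℂ, Cm 4) ω X] [MeasurableSpace X] [BorelSpace X] (h : Fm 4 X) (μ : Measure X),
    IsHermitian h → IsVol h μ → P X h μ

/-- **SOLA** -/
def StSolA : Prop := ForX fun X _ _ _ h μ =>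
  ∀ (Ω : Set X) (w : Fm 4 X) (Ψ : X → ℝ), IsOpen Ω → KahOn Ω w → Cp Ω w → SmOn (d := 4) Ω Ψ →
    CA Ω h w Ψ → ∀ f : Fa 4 2 X, FOn Ω f → (∀ e x, At e x → x ∈ Ω → dA f e (e x) = 0) →
    NN μ Ω w (fun x => Real.exp (-Ψ x)) f ≠ ⊤ →
    ∃ g : ℕ → Fa 4 1 X, (∀ k, FOn univ (g k) ∧ Cs Ω (g k)) ∧
      Tendsto (fun q : ℕ × ℕ => NN μ Ω w (fun x => Real.exp (-Ψ x)) (g q.1 - g q.2)) atTop (𝓝 0) ∧
      Tendsto (fun k => NN μ Ω w (fun x => Real.exp (-Ψ x)) (dA (g k) - f)) atTop (𝓝 0)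

/-- **SOLB** -/
def StSolB : Prop := ForX fun X _ _ _ h μ =>
  ∀ (Ω : Set X) (w : Fm 4 X) (φ : X → ℝ), IsOpen Ω → KahOn Ω w → Cp Ω w → SmOn (d := 4) Ω φ →
    CB Ω w φ → ∀ f : ℕ → Fa 4 2 X,
    (∀ k, FOn Ω (f k) ∧ NN μ Ω w (fun x => Real.exp (φ x) * rat h w x) (f k) ≠ ⊤) →
    Tendsto (fun q : ℕ × ℕ => NN μ Ω w (fun x => Real.exp (φ x) * rat h w x) (f q.1 - f q.2))
      atTop (𝓝 0) →
    Tendsto (fun k => NN μ Ω w (fun x => Real.exp (φ x) * rat h w x) (dA (f k))) atTop (𝓝 0) →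
    ∃ v : ℕ → Fa 4 1 X, (∀ k, FOn univ (v k) ∧ Cs Ω (v k)) ∧
      Tendsto (fun q : ℕ × ℕ => NN μ Ω w (fun x => Real.exp (φ x) * rat h w x) (v q.1 - v q.2))
        atTop (𝓝 0) ∧
      Tendsto (fun k => NN μ Ω w (fun x => Real.exp (φ x) * rat h w x) (dA (v k) - f k))
        atTop (𝓝 0)

/-! ### The geometric data -/

section data

variable {X : Type} [TopologicalSpace X] [ChartedSpace (Cm 4) X] [MeasurableSpace X]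

/-- normalised data: `ρ` has logarithmic poles along `E` and `i∂∂̄ρ` is positive and bounded,
`exp (-Ψ) μ` is a flat volume form on `O - E` -/
structure Pre (h : Fm 4 X) (μ : Measure X) where
  O : Set X
  E : Set X
  ρ : X → ℝ
  Ψ : X → ℝ
  u : X → ℂ
  op : IsOpen O
  cl : IsOpen (O \ E)
  cpt : IsCompact {y | y ∈ O ∧ ‖u y‖ ≤ 1 ∧ (y ∈ E ∨ ρ y ≤ 0)}
  hol : ∀ y ∈ O, Hol 4 u y
  smρ : SmOn (d := 4) (O \ E) ρ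
  smΨ : SmOn (d := 4) (O \ E) Ψ
  hess : ∀ x ∈ O, ∀ e : Chart 4 X, At e x → ∃ c C : ℝ, 0 < c ∧ ∀ᶠ y in 𝓝 x, y ∉ E →
    (ddc ρ e (e y) - (c : ℂ) • (1 : Matrix (Fin 4) (Fin 4) ℂ)).PosSemidef ∧
    ((C : ℂ) • (1 : Matrix (Fin 4) (Fin 4) ℂ) - ddc ρ e (e y)).PosSemidef
  flat : ∀ e x, At e x → x ∈ O \ E → ddc Ψ e (e x) = kc h e (e x)
  lim : ∀ x ∈ O, x ∈ E → ∀ c : ℝ, ∀ᶠ y in 𝓝 x, y ∈ E ∨ ρ y ≤ c
  low : ∀ x ∈ O, ∃ c : ℝ, ∀ᶠ y in 𝓝 x, y ∉ E → c ≤ Ψ y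
  null : μ (O ∩ E) = 0
  int1 : ∀ x ∈ O, ∃ V ∈ 𝓝 x, ∫⁻ y in V \ E, ENNReal.ofReal (Real.exp (-2 * ρ y)) ∂μ ≠ ⊤
  int2 : ∀ x ∈ O, ∃ e : Chart 4 X, At e x ∧ ∃ V ∈ 𝓝 x,
    ∫⁻ y in V \ E, ENNReal.ofReal (Real.exp (ρ y) * ∑ c, ‖dv ρ e y c‖ ^ 2) ∂μ ≠ ⊤

/-- the open neighbourhood of the fibre -/
def Pre.U {h : Fm 4 X} {μ : Measure X} (P : Pre h μ) : Set X :=
  {y | y ∈ P.O ∧ ‖P.u y‖ < 1 ∧ (y ∈ P.E ∨ P.ρ y < 0)}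

/-- the metric, the weights and the cut-off -/
structure Cal (h : Fm 4 X) (μ : Measure X) where
  U : Set X
  Ω : Set X
  K : Set X
  w : Fm 4 X
  Ψ : X → ℝ
  φ : X → ℝ
  χ : X → ℝ
  opU : IsOpen U
  opΩ : IsOpen Ω
  sub : Ω ⊆ U
  subK : U ⊆ K
  cpt : IsCompact K
  kah : KahOn Ω w
  cp : Cp Ω w
  smΨ : SmOn (d := 4) Ω Ψ
  smφ : SmOn (d := 4) Ω φ
  ca : CA Ω h w Ψ
  cb : CB Ω w φ
  smχ : SmOn (d := 4) U χ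
  bdχ : ∀ x ∈ U, 0 ≤ χ x ∧ χ x ≤ 1
  one : ∀ x ∈ U, x ∉ Ω → ∀ᶠ y in 𝓝 x, χ y = 1
  wed : ∃ C : ℝ, ∀ e x, At e x → x ∈ Ω → Real.exp (φ x) * rat h w x *
    (∑ c, ∑ d, dv χ e x c * conj (dv χ e x d) * (w e (e x))⁻¹ d c).re ≤ C * Real.exp (-Ψ x)
  low : ∀ x ∈ K, ∀ e : Chart 4 X, At e x → ∃ c : ℝ, 0 < c ∧ ∀ᶠ y in 𝓝 x, y ∈ Ω →
    (w e (e y) - (c : ℂ) • (1 : Matrix (Fin 4) (Fin 4) ℂ)).PosSemidef
  finA : ∀ x ∈ K, ∃ V ∈ 𝓝 x, ∫⁻ y in V ∩ Ω, ENNReal.ofReal (Real.exp (-Ψ y)) ∂μ ≠ ⊤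
  finB : ∀ x ∈ K, ∃ V ∈ 𝓝 x,
    ∫⁻ y in V ∩ Ω, ENNReal.ofReal (χ y ^ 2 * (Real.exp (φ y) * rat h w y)) ∂μ ≠ ⊤
  inv : ∀ x ∈ U, ∃ V ∈ 𝓝 x, ∫⁻ y in V ∩ Ω, ENNReal.ofReal (Real.exp (-φ y)) ∂μ ≠ ⊤
  null : μ (U \ Ω) = 0

end data

/-- **INT**: integrability of `|ζ|^(-2a)`, `a < 1`, for a holomorphic `ζ` with `dζ ≠ 0` -/
def StInt : Prop :=
  ∀ (n : ℕ) (ζ : Cm n → ℂ) (z : Cm n), AnalyticAt ℂ ζ z → fderiv ℂ ζ z ≠ 0 → ∀ a : ℝ, a < 1 →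
    ∃ S ∈ 𝓝 z, volume (S ∩ {y | ζ y = 0}) = 0 ∧
      ∫⁻ y in S, ENNReal.ofReal ((‖ζ y‖ ^ 2) ^ (-a)) ≠ ⊤

/-- **PRE** -/
def StPre : Prop :=
  ∀ (N : ℕ) (G : Geo 4 N) (R : RData G), G.F ⊆ R.E → ∀ V : Set G.W, IsOpen V → G.F ⊆ V →
    ∀ [MeasurableSpace G.W] [BorelSpace G.W] (h : Fm 4 G.W) (μ : Measure G.W),
    IsHermitian h → IsVol h μ → ∃ P : Pre h μ, P.O ⊆ V ∧ G.F ⊆ P.U

/-- **CAL** -/
def StCal : Prop := ForX fun _ _ _ _ h μ => ∀ P : Pre h μ, ∃ C : Cal h μ, C.K ⊆ P.O ∧ C.U = P.U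

/-- **FINI**: forms which are smooth near `K` have finite norms -/
def StFini : Prop := ForX fun X _ _ _ h μ => ∀ (C : Cal h μ) (V : Set X) (p : ℕ) (f : Fa 4 p X)
    (Φ : X → ℝ), C.K ⊆ V → FOn V f → (∀ x ∈ C.Ω, 0 ≤ Φ x) →
    (∀ x ∈ C.K, ∃ V ∈ 𝓝 x, ∫⁻ y in V ∩ C.Ω, ENNReal.ofReal (Φ y) ∂μ ≠ ⊤) → NN μ C.Ω C.w Φ f ≠ ⊤

/-- **LOC**: from weighted `L²` to local `L¹` -/
def StLoc : Prop := ForX fun X _ _ _ h μ => ∀ (C : Cal h μ) (p : ℕ) (α : Type) (l : Filter α)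
    (g : α → Fa 4 p X), (∀ k, FOn C.Ω (g k)) →
    (Tendsto (fun k => NN μ C.Ω C.w (fun x => Real.exp (C.φ x) * rat h C.w x) (g k)) l (𝓝 0) →
      LocL1 l C.U g) ∧
    (Tendsto (fun k => NN μ C.Ω C.w (fun x => Real.exp (-C.Ψ x)) (g k)) l (𝓝 0) →
      LocL1 l C.Ω g)

/-- **FIN**: the two steps -/
def StFin : Prop := ForX fun X _ _ _ h μ => ∀ (C : Cal h μ) (V : Set X) (f : Fa 4 2 X),
    C.K ⊆ V → FOn V f → (∀ e x, At e x → x ∈ V → dA f e (e x) = 0) →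
    ∃ γ : ℕ → Fa 4 1 X, (∀ k, FOn C.U (γ k)) ∧
      LocL1 atTop C.U (fun q : ℕ × ℕ => γ q.1 - γ q.2) ∧ LocL1 atTop C.U fun k => dA (γ k) - f

/-- **R2**, with the fibre inside of `E` -/
def StR2' : Prop :=
  ∀ (N : ℕ) (G : Geo 4 N) (R : RData G), G.F ⊆ R.E → ∀ V : Set G.W, IsOpen V → G.F ⊆ V →
    ∀ f : Fa 4 2 G.W, FOn V f → (∀ e x, At e x → x ∈ V → dA f e (e x) = 0) →
    ∃ (U : Set G.W) (γ : ℕ → Fa 4 1 G.W), IsOpen U ∧ G.F ⊆ U ∧ U ⊆ V ∧ (∀ k, FOn U (γ k)) ∧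
      LocL1 atTop U (fun q : ℕ × ℕ => γ q.1 - γ q.2) ∧ LocL1 atTop U fun k => dA (γ k) - f

end Vale.Agent.P277Z.R2
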