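import Vale.Agent.P277Z.R2.CalA

/-!
# P277Z, block R2: the metric, the weights and the cut-off
-/

set_option linter.all false

open scoped Manifold ContDiff Topology ComplexConjugate ComplexOrder ENNReal Matrix
open Set Filter MeasureTheory Metric
open Vale.Agent.P272.K Vale.Agent.P284.H608.K
open Vale.Agent.P301.H599 (Fm ddc)
open Vale.Agent.P285Z (kc Qf psd_smul)
open Vale.Agent.P284.H650 (gg)
open Vale.Agent.P277Z.Van
open Vale.Agent.P277Z.Van.Ka (rat)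

noncomputable section

namespace Vale.Agent.P277Z.R2.CAL

variable {X : Type} [TopologicalSpace X] [ChartedSpace (Cm 4) X] [MeasurableSpace X]
  {h : Fm 4 X} {μ : Measure X} (P : Pre h μ) {e : Chart 4 X} {x : X}

def K : Set X := {y | y ∈ P.O ∧ ‖P.u y‖ ≤ 1 ∧ (y ∈ P.E ∨ P.ρ y ≤ 0)}

def O1 : Set X := {y | y ∈ P.O \ P.E ∧ P.ρ y < 0}

def Om : Set X := {y | y ∈ O1 P ∧ ‖P.u y‖ < 1}

def f1 (y : X) : ℝ := P.ρ y - Real.log (-P.ρ y)

def lam (y : X) : ℝ := -Real.log (1 - ‖P.u y‖ ^ 2)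

def ww : Fm 4 X := ddc fun y => f1 P y + 18 * lam P y

def w1 : Fm 4 X := ddc fun y => f1 P y + ‖P.u y‖ ^ 2

def tt (y : X) : ℝ := ((1 - ‖P.u y‖ ^ 2) ^ 2)⁻¹

def th (t : ℝ) : ℝ := Real.smoothTransition (-1 - t)

open Classical in
def chi (y : X) : ℝ := if y ∈ P.E then 1 else th (P.ρ y)

def tau (y : X) : ℝ := Real.log (1 + Real.log (P.ρ y) ^ 2) / 2 + lam P y

theorem opO1 : IsOpen (O1 P) := P.smρ.cont.isOpen_inter_preimage P.cl isOpen_Iio

theorem sm_s : SmOn (d := 4) P.O fun y => ‖P.u y‖ ^ 2 := smOn_nsq P.hol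

theorem sm_f1 : SmOn (d := 4) (O1 P) (f1 P) :=
  (P.smρ.mono fun _ h => h.1).comp (f := fun t => t - Real.log (-t)) fun _ hx =>
    contDiffAt_id.sub (contDiffAt_id.neg.log (neg_pos.2 hx.2).ne')

variable {P}

theorem cu (hx : x ∈ P.O) : ContinuousAt (fun y => ‖P.u y‖) x := by
  have := ((sm_s P).contAt hx).sqrt
  simpa only [Real.sqrt_sq (norm_nonneg _)] using this

theorem slt (hx : ‖P.u x‖ < 1) : 0 < 1 - ‖P.u x‖ ^ 2 := by nlinarith [norm_nonneg (P.u x)]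

theorem exp_lam (hx : ‖P.u x‖ < 1) : Real.exp (-lam P x) = 1 - ‖P.u x‖ ^ 2 := by
  rw [lam, neg_neg, Real.exp_log (slt hx)]

theorem lam_nonneg (hx : ‖P.u x‖ < 1) : 0 ≤ lam P x :=
  neg_nonneg.2 (Real.log_nonpos (slt hx).le (by nlinarith))

theorem exp_f1 (hx : P.ρ x < 0) : Real.exp (-f1 P x) = Real.exp (-P.ρ x) * -P.ρ x := by
  rw [f1, neg_sub, sub_eq_add_neg, Real.exp_add, Real.exp_log (neg_pos.2 hx), mul_comm]

theorem exp_f1_le (hx : P.ρ x < 0) : Real.exp (-f1 P x) ≤ Real.exp (-2 * P.ρ x) := by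
  rw [exp_f1 hx, show -2 * P.ρ x = -P.ρ x + -P.ρ x by ring, Real.exp_add]
  exact mul_le_mul_of_nonneg_left (by linarith [Real.add_one_le_exp (-P.ρ x)]) (Real.exp_pos _).le

variable (P)

theorem opOm : IsOpen (Om P) :=
  ContinuousOn.isOpen_inter_preimage (f := fun y => ‖P.u y‖)
    (fun _ hx => (cu hx.1.1).continuousWithinAt) (opO1 P) isOpen_Iio

theorem opU : IsOpen P.U := by
  refine isOpen_iff_mem_nhds.2 fun x hx => ?_
  have h1 : ∀ᶠ y in 𝓝 x, y ∈ P.E ∨ P.ρ y < 0 := by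
    by_cases hE : x ∈ P.E
    · exact (P.lim x hx.1 hE (-1)).mono fun y hy => hy.imp id fun h => by linarith
    · exact ((P.smρ.contAt ⟨hx.1, hE⟩).eventually (gt_mem_nhds (hx.2.2.resolve_left hE))).mono
        fun y hy => Or.inr hy
  filter_upwards [P.op.mem_nhds hx.1, (cu hx.1).eventually (gt_mem_nhds hx.2.1), h1] with y a b c
  exact ⟨a, b, c⟩

theorem sm_lam' : SmOn (d := 4) {y | y ∈ P.O ∧ ‖P.u y‖ < 1} (lam P) :=
  ((sm_s P).mono fun _ h => h.1).comp (f := fun t => -Real.log (1 - t)) fun _ hx =>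
    ((contDiffAt_const.sub contDiffAt_id).log (slt hx.2).ne').neg

theorem sm_lam : SmOn (d := 4) (Om P) (lam P) := (sm_lam' P).mono fun _ h => ⟨h.1.1.1, h.2⟩

theorem sm_f : SmOn (d := 4) (Om P) (f1 P) := (sm_f1 P).mono fun _ h => h.1

theorem sm_t1 : SmOn (d := 4) (Om P) fun y => Real.log (1 + Real.log (P.ρ y) ^ 2) / 2 :=
  (P.smρ.mono fun _ h => h.1.1).comp (f := fun t => Real.log (1 + Real.log t ^ 2) / 2) fun _ hx =>
    ((contDiffAt_const.add ((contDiffAt_id.log hx.1.2.ne).pow 2)).log (by positivity)).div_const 2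

theorem sm_tau : SmOn (d := 4) (Om P) (tau P) := (sm_t1 P).add (sm_lam P)

variable {P}

theorem pd_rho (hx : At e x) (hO : x ∈ P.O \ P.E) : (ddc P.ρ e (e x)).PosDef := by
  obtain ⟨c, C, hc, H⟩ := P.hess x hO.1 e hx
  have := (Matrix.PosDef.one.smul (Complex.zero_lt_real.2 hc)).add_posSemidef
    (H.self_of_nhds hO.2).1
  rwa [add_sub_cancel] at this

theorem f1_eq (hx : At e x) (hO : x ∈ O1 P) : ddc (f1 P) e (e x) =
    ((1 - (P.ρ x)⁻¹ : ℝ) : ℂ) • ddc P.ρ e (e x) +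
      (((P.ρ x ^ 2)⁻¹ : ℝ) : ℂ) • rk (dv P.ρ e x) := ddc_f1 P.smρ hx hO.1 hO.2

theorem f1_ge (hx : At e x) (hO : x ∈ O1 P) :
    (ddc (f1 P) e (e x) - ddc P.ρ e (e x)).PosSemidef := by
  have := (psd_smul (pd_rho hx hO.1).posSemidef (neg_pos.2 (inv_lt_zero.2 hO.2)).le).add
    (psd_smul (rk_psd (dv P.ρ e x)) (inv_nonneg.2 (sq_nonneg (P.ρ x))))
  refine (congrArg Matrix.PosSemidef ?_).mp this
  rw [f1_eq hx hO]
  push_cast
  module

theorem f1_ge' (hx : At e x) (hO : x ∈ O1 P) :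
    (ddc (f1 P) e (e x) - (((P.ρ x ^ 2)⁻¹ : ℝ) : ℂ) • rk (dv P.ρ e x)).PosSemidef := by
  rw [f1_eq hx hO, add_sub_cancel_right]
  exact psd_smul (pd_rho hx hO.1).posSemidef (by linarith [inv_lt_zero.2 hO.2])

theorem f1_pd (hx : At e x) (hO : x ∈ O1 P) : (ddc (f1 P) e (e x)).PosDef := by
  have := (pd_rho hx hO.1).add_posSemidef (f1_ge hx hO)
  rwa [add_sub_cancel] at this

theorem lam_eq (hx : At e x) (hO : x ∈ Om P) :
    ddc (lam P) e (e x) = (tt P x : ℂ) • rk (du P.u e x) :=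
  ddc_lam P.hol hx hO.1.1.1 (sub_pos.1 (slt hO.2))

theorem comb (c : ℝ) (hx : At e x) (hO : x ∈ Om P) :
    ddc (fun y => f1 P y + c * lam P y) e (e x) =
      ddc (f1 P) e (e x) + ((c * tt P x : ℝ) : ℂ) • rk (du P.u e x) := by
  rw [ddc_add_on (sm_f P) ((smOn_const _ c).mul (sm_lam P)) hx hO, ddc_mul_on c (sm_lam P) hx hO,
    lam_eq hx hO, smul_smul, Complex.ofReal_mul]

theorem ww_eq (hx : At e x) (hO : x ∈ Om P) :
    ww P e (e x) = ddc (f1 P) e (e x) + ((18 * tt P x : ℝ) : ℂ) • rk (du P.u e x) := comb 18 hx hO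

theorem w1_eq (hx : At e x) (hO : x ∈ O1 P) :
    w1 P e (e x) = ddc (f1 P) e (e x) + rk (du P.u e x) := by
  rw [← ddc_nsq (P.hol x hO.1.1) hx]
  exact ddc_add_on (sm_f1 P) ((sm_s P).mono fun _ h => h.1.1) hx hO

theorem tt_nonneg : 0 ≤ tt P x := inv_nonneg.2 (sq_nonneg _)

theorem nu_psd (c : ℝ) (hc : 0 ≤ c) : (((c * tt P x : ℝ) : ℂ) • rk (du P.u e x)).PosSemidef :=
  psd_smul (rk_psd _) (mul_nonneg hc tt_nonneg)

theorem ww_pd (hx : At e x) (hO : x ∈ Om P) : (ww P e (e x)).PosDef := by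
  rw [ww_eq hx hO]
  exact (f1_pd hx hO.1).add_posSemidef (nu_psd 18 (by norm_num))

theorem w1_pd (hx : At e x) (hO : x ∈ O1 P) : (w1 P e (e x)).PosDef := by
  rw [w1_eq hx hO]
  exact (f1_pd hx hO).add_posSemidef (rk_psd _)

theorem th_one {t : ℝ} (ht : t ≤ -2) : th t = 1 := Real.smoothTransition.one_of_one_le (by linarith)

theorem th_zero {t : ℝ} (ht : -1 ≤ t) : th t = 0 :=
  Real.smoothTransition.zero_of_nonpos (by linarith)

theorem th_sm : ContDiff ℝ ∞ th :=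
  Real.smoothTransition.contDiff.comp (contDiff_const.sub contDiff_id)

theorem th_d {t : ℝ} (ht : ¬(-2 ≤ t ∧ t ≤ -1)) : deriv th t = 0 := by
  rcases not_and_or.1 ht with h | h
  · rw [Filter.EventuallyEq.deriv_eq (f := fun _ => 1)
      ((gt_mem_nhds (not_le.1 h)).mono fun s hs => th_one hs.le), deriv_const]
  · rw [Filter.EventuallyEq.deriv_eq (f := fun _ => 0)
      ((lt_mem_nhds (not_le.1 h)).mono fun s hs => th_zero hs.le), deriv_const]

theorem chi_E (hO : x ∈ P.O) (hE : x ∈ P.E) : ∀ᶠ y in 𝓝 x, chi P y = 1 :=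
  (P.lim x hO hE (-2)).mono fun y hy => by
    unfold chi
    split_ifs with h
    · rfl
    · exact th_one (hy.resolve_left h)

theorem chi_N (hO : x ∈ P.O \ P.E) : ∀ᶠ y in 𝓝 x, chi P y = th (P.ρ y) :=
  Eventually.mono (P.cl.mem_nhds hO) fun _ hy => if_neg hy.2

theorem chi_bd : 0 ≤ chi P x ∧ chi P x ≤ 1 := by
  unfold chi
  split_ifs
  · exact ⟨zero_le_one, le_rfl⟩
  · exact ⟨Real.smoothTransition.nonneg _, Real.smoothTransition.le_one _⟩

theorem sm_chi : SmOn (d := 4) P.O (chi P) := fun e x hx hO => by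
  by_cases hE : x ∈ P.E
  · exact contDiffAt_const.congr_of_eventuallyEq (ev_sym hx (chi_E hO hE))
  · exact (P.smρ.comp (f := th) (fun _ _ => th_sm.contDiffAt) e x hx
      ⟨hO, hE⟩).congr_of_eventuallyEq (ev_sym hx (chi_N ⟨hO, hE⟩))

theorem ca : CA (Om P) h (ww P) fun y => P.Ψ y + (f1 P y + 1 * lam P y) := by
  refine ⟨18⁻¹, by norm_num, fun e x hx hO => ?_⟩
  beta_reduce
  rw [ddc_add_on (P.smΨ.mono fun _ h => h.1.1) ((sm_f P).add ((smOn_const _ 1).mul (sm_lam P)))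
    hx hO, P.flat e x hx hO.1.1, comb 1 hx hO, ww_eq hx hO]
  refine (congrArg Matrix.PosSemidef ?_).mp
    (psd_smul (f1_pd hx hO.1).posSemidef (c := 17 / 18) (by norm_num))
  push_cast
  module

theorem cb : CB (Om P) (ww P) fun y => f1 P y + -9 * lam P y := by
  refine ⟨2⁻¹, by norm_num, fun e x hx hO A => ?_⟩
  have hw := ww_pd hx hO
  have h1 : ddc (fun y => f1 P y + -9 * lam P y) e (e x) =
      ww P e (e x) - ((27 * tt P x : ℝ) : ℂ) • rk (du P.u e x) := by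
    rw [comb (-9) hx hO, ww_eq hx hO]
    push_cast
    module
  have h2 := qd_le hw (c := 18 * tt P x) (v := du P.u e x) (by
    rw [ww_eq hx hO, add_sub_cancel_right]
    exact (f1_pd hx hO.1).posSemidef)
  have h3 := mul_le_mul_of_nonneg_left (Ad_rk hw (du P.u e x) A) (tt_nonneg (P := P) (x := x))
  have h4 := mul_le_mul_of_nonneg_right h2 (Complex.nonneg_iff.1 (hn_nonneg hw A)).1
  rw [h1, Ad_sub, P284.H451.K1.Adw (by norm_num) hw, ← Complex.ofReal_natCast,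
    Complex.re_ofReal_mul]
  norm_num
  nlinarith

theorem cp_psd : PSDOn (Om P) fun e z =>
    ww P e z - gg (fun y => tau P (e.symm y)) (fun y => tau P (e.symm y)) z := fun e x hx hO => by
  beta_reduce
  have hρ := P.smρ.mono (Ω' := Om P) fun _ h => h.1.1
  set a := Real.log (P.ρ x) with ha
  have h1 := dv_comp hρ hx hO (θ := fun t => Real.log (1 + Real.log t ^ 2) / 2)
    (a := a / (1 + a ^ 2) * (P.ρ x)⁻¹)
    ((((((Real.hasDerivAt_log hO.1.2.ne).fun_pow 2).const_add 1).log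
      (by positivity)).div_const 2).congr_deriv (by rw [← ha]; push_cast; ring))
  have h2 : dv (lam P) e x = _ := dv_comp (sm_s P) hx hO.1.1.1 (hd_lam (sub_pos.1 (slt hO.2)))
  rw [dv_nsq (P.hol x hO.1.1.1) hx, smul_smul] at h2
  have h3 : dv (tau P) e x = _ := dv_add (sm_t1 P) (sm_lam P) hx hO
  have h4 : 0 ≤ (P.ρ x ^ 2)⁻¹ - 2 * ‖((a / (1 + a ^ 2) * (P.ρ x)⁻¹ : ℝ) : ℂ)‖ ^ 2 := by
    have : 2 * (a / (1 + a ^ 2)) ^ 2 ≤ 1 := by
      rw [div_pow, ← mul_div_assoc, div_le_one (by positivity)]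
      nlinarith [sq_nonneg (a ^ 2)]
    rw [Complex.norm_real, Real.norm_eq_abs, sq_abs, mul_pow, inv_pow]
    nlinarith [inv_nonneg.2 (sq_nonneg (P.ρ x))]
  have h5 : 0 ≤ 18 * tt P x - 2 * ‖(((1 - ‖P.u x‖ ^ 2)⁻¹ : ℝ) : ℂ) * conj (P.u x)‖ ^ 2 := by
    rw [norm_mul, Complex.norm_real, Real.norm_eq_abs, mul_pow, sq_abs, inv_pow, RCLike.norm_conj]
    change 0 ≤ 18 * tt P x - 2 * (tt P x * _)
    nlinarith [tt_nonneg (P := P) (x := x), slt hO.2]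
  rw [gg_eq (sm_tau P) hx hO, h3, rk_add, ww_eq hx hO]
  refine (congrArg Matrix.PosSemidef ?_).mp ((((f1_ge' hx hO.1).add
    (psd_smul (rk_psd (dv P.ρ e x)) h4)).add (psd_smul (rk_psd (du P.u e x)) h5)).add
      (rk_psd (dv (fun y => Real.log (1 + Real.log (P.ρ y) ^ 2) / 2) e x - dv (lam P) e x)))
  rw [h1, h2, rk_smul, rk_smul]
  simp only [Complex.ofReal_sub, Complex.ofReal_mul, Complex.ofReal_ofNat]
  module

theorem cpt_le [T2Space X] {S : Set X} {f : X → ℝ} (hS : IsCompact S) (hf : ContinuousOn f S)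
    (c : ℝ) : IsCompact {y | y ∈ S ∧ f y ≤ c} :=
  hS.of_isClosed_subset (hf.preimage_isClosed_of_isClosed hS.isClosed isClosed_Iic)
    fun _ h => h.1

theorem cpt_band [T2Space X] (a b : ℝ) :
    IsCompact {y | y ∈ {y | y ∈ K P ∧ y ∉ P.E ∧ a ≤ P.ρ y} ∧ P.ρ y ≤ b} := by
  refine cpt_le ?_ (P.smρ.cont.mono fun _ h => ⟨h.1.1, h.2.1⟩) b
  refine (congrArg IsCompact ?_).mp
    (P.cpt.diff (isOpen_interior (s := {y | y ∈ P.E ∨ P.ρ y < a})))
  ext x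
  refine and_congr_right fun hx => ⟨fun h => ?_, fun h h' => ?_⟩
  · rw [mem_interior_iff_mem_nhds] at h
    have hE : x ∉ P.E := fun hE =>
      h ((P.lim x hx.1 hE (a - 1)).mono fun y hy => hy.imp id fun h => by linarith)
    exact ⟨hE, not_lt.1 fun h' => h (((P.smρ.contAt ⟨hx.1, hE⟩).eventually
      (gt_mem_nhds h')).mono fun y hy => Or.inr hy)⟩
  · exact (interior_subset h').elim h.1 (not_lt.2 h.2)

theorem subK (hx : x ∈ Om P) : x ∈ K P := ⟨hx.1.1.1, hx.2.le, Or.inr hx.1.2.le⟩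

theorem cp [T2Space X] : Cp (Om P) (ww P) := by
  have h0 : ∀ a : ℝ, 0 ≤ Real.log (1 + a ^ 2) / 2 := fun a =>
    div_nonneg (Real.log_nonneg (by nlinarith)) zero_le_two
  refine ⟨tau P, sm_tau P, fun x hx => add_nonneg (h0 _) (lam_nonneg hx.2), fun c => ?_, cp_psd⟩
  have h1 := cpt_le (cpt_band (P := P) (-Real.exp (Real.exp c)) (-Real.exp (-Real.exp c)))
    ((sm_s P).cont.mono fun _ h => h.1.1.1) (1 - Real.exp (-c))
  have h2 : ∀ y, y ∈ {y | y ∈ {y | y ∈ {y | y ∈ K P ∧ y ∉ P.E ∧ -Real.exp (Real.exp c) ≤ P.ρ y} ∧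
      P.ρ y ≤ -Real.exp (-Real.exp c)} ∧ ‖P.u y‖ ^ 2 ≤ 1 - Real.exp (-c)} → y ∈ Om P :=
    fun y hy => ⟨⟨⟨hy.1.1.1.1, hy.1.1.2.1⟩, hy.1.2.trans_lt (neg_lt_zero.2 (Real.exp_pos _))⟩,
      by nlinarith [hy.2, Real.exp_pos (-c), norm_nonneg (P.u y)]⟩
  refine (congrArg IsCompact ?_).mp (cpt_le h1 ((sm_tau P).cont.mono h2) c)
  ext x
  refine and_congr_left fun hc => ⟨h2 x, fun hx => ?_⟩
  have h3 : 1 + Real.log (P.ρ x) ^ 2 ≤ Real.exp c ^ 2 := by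
    rw [← Real.exp_nat_mul, ← Real.log_le_iff_le_exp (by positivity)]
    have := lam_nonneg hx.2
    unfold tau at hc
    push_cast
    linarith
  have h4 := abs_le.1 (abs_le_of_sq_le_sq' (a := Real.log (P.ρ x)) (by linarith)
    (Real.exp_pos c).le |> abs_le.2)
  have h5 := neg_pos.2 hx.1.2
  rw [← Real.log_neg_eq_log, Real.le_log_iff_exp_le h5, Real.log_le_iff_le_exp h5] at h4
  refine ⟨⟨⟨subK hx, hx.1.1.2, by linarith [h4.2]⟩, by linarith [h4.1]⟩, ?_⟩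
  have h6 : Real.exp (-c) ≤ Real.exp (-lam P x) := by
    refine Real.exp_le_exp.2 ?_
    have := h0 (Real.log (P.ρ x))
    unfold tau at hc
    linarith
  rw [exp_lam hx.2] at h6
  linarith

theorem low (hO : x ∈ P.O) (hx : At e x) : ∃ c : ℝ, 0 < c ∧ ∀ᶠ y in 𝓝 x, y ∈ Om P →
    (ww P e (e y) - (c : ℂ) • (1 : Matrix (Fin 4) (Fin 4) ℂ)).PosSemidef := by
  obtain ⟨c, C, hc, H⟩ := P.hess x hO e hx
  refine ⟨c, hc, ?_⟩
  filter_upwards [H, Ln.ev_at hx] with y h1 h2 hy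
  refine (congrArg Matrix.PosSemidef ?_).mp (((h1 hy.1.1.2).1.add (f1_ge h2 hy.1)).add
    (nu_psd (P := P) (x := y) (e := e) 18 (by norm_num)))
  rw [ww_eq h2 hy]
  abel

theorem fin_le [BorelSpace X] {f g : X → ℝ} {C : ℝ} (hC : 0 ≤ C)
    (hg : ∃ V ∈ 𝓝 x, ∫⁻ y in V \ P.E, ENNReal.ofReal (g y) ∂μ ≠ ⊤)
    (hf : ∀ᶠ y in 𝓝 x, y ∈ Om P → f y ≤ C * g y) :
    ∃ V ∈ 𝓝 x, ∫⁻ y in V ∩ Om P, ENNReal.ofReal (f y) ∂μ ≠ ⊤ := by
  obtain ⟨V, hV, h1⟩ := hg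
  obtain ⟨T, hT, hTo, hxT⟩ := _root_.mem_nhds_iff.1 (inter_mem hV hf)
  refine ⟨T, hTo.mem_nhds hxT, ne_top_of_le_ne_top
    (ENNReal.mul_ne_top (ENNReal.ofReal_ne_top (r := C)) h1) ?_⟩
  rw [← lintegral_const_mul' _ _ ENNReal.ofReal_ne_top]
  refine (setLIntegral_mono' (hTo.inter (opOm P)).measurableSet fun y hy => ?_).trans
    (lintegral_mono_set fun y hy => ⟨(hT hy.1).1, hy.2.1.1.2⟩)
  rw [← ENNReal.ofReal_mul hC]
  exact ENNReal.ofReal_le_ofReal ((hT hy.1).2 hy.2)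

theorem finA [BorelSpace X] (hO : x ∈ P.O) : ∃ V ∈ 𝓝 x, ∫⁻ y in V ∩ Om P,
    ENNReal.ofReal (Real.exp (-(P.Ψ y + (f1 P y + 1 * lam P y)))) ∂μ ≠ ⊤ := by
  obtain ⟨c, hc⟩ := P.low x hO
  refine fin_le (Real.exp_pos (-c)).le (P.int1 x hO) (hc.mono fun y h1 hy => ?_)
  refine le_trans ?_ (mul_le_mul_of_nonneg_left (exp_f1_le hy.1.2) (Real.exp_pos _).le)
  rw [← Real.exp_add]
  exact Real.exp_le_exp.2 (by linarith [h1 hy.1.1.2, lam_nonneg hy.2])

theorem inv [BorelSpace X] (hx : x ∈ P.U) : ∃ V ∈ 𝓝 x, ∫⁻ y in V ∩ Om P,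
    ENNReal.ofReal (Real.exp (-(f1 P y + -9 * lam P y))) ∂μ ≠ ⊤ := by
  refine fin_le (Real.exp_pos (9 * (lam P x + 1))).le (P.int1 x hx.1)
    ((((sm_lam' P).contAt ⟨hx.1, hx.2.1⟩).eventually (gt_mem_nhds (lt_add_one _))).mono
      fun y h1 hy => ?_)
  refine le_trans ?_ (mul_le_mul_of_nonneg_left (exp_f1_le hy.1.2) (Real.exp_pos _).le)
  rw [← Real.exp_add]
  exact Real.exp_le_exp.2 (by linarith)

theorem int12 [BorelSpace X] (hO : x ∈ P.O) : ∃ e : Chart 4 X, At e x ∧ ∃ V ∈ 𝓝 x,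
    ∫⁻ y in V \ P.E, ENNReal.ofReal (Real.exp (-2 * P.ρ y) +
      Real.exp (P.ρ y) * ∑ c, ‖dv P.ρ e y c‖ ^ 2) ∂μ ≠ ⊤ := by
  obtain ⟨V, hV, h1⟩ := P.int1 x hO
  obtain ⟨e, he, V', hV', h2⟩ := P.int2 x hO
  obtain ⟨T, hT, hTo, hxT⟩ := _root_.mem_nhds_iff.1
    (inter_mem (inter_mem hV hV') (P.op.mem_nhds hO))
  have h3 : T \ P.E = T ∩ (P.O \ P.E) := by
    ext y
    exact ⟨fun h => ⟨h.1, (hT h.1).2, h.2⟩, fun h => ⟨h.1, h.2.2⟩⟩
  refine ⟨e, he, T, hTo.mem_nhds hxT, ne_top_of_le_ne_top (ENNReal.add_ne_top.2 ⟨h1, h2⟩) ?_⟩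
  refine (lintegral_mono fun y => ENNReal.ofReal_add_le).trans ?_
  rw [lintegral_add_left']
  · exact add_le_add (lintegral_mono_set fun y hy => ⟨(hT hy.1).1.1, hy.2⟩)
      (lintegral_mono_set fun y hy => ⟨(hT hy.1).1.2, hy.2⟩)
  · rw [h3]
    exact (((continuousOn_const.mul P.smρ.cont).rexp.mono inter_subset_right).aemeasurable
      (hTo.inter P.cl).measurableSet).ennreal_ofReal

variable [IsManifold 𝓘(ℂ, Cm 4) ω X]

theorem kah_ddc {Ω : Set X} {F : X → ℝ} (hF : SmOn (d := 4) Ω F) (hp : PDOn Ω (ddc (d := 4) F)) :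
    KahOn Ω (ddc (d := 4) F) :=
  ⟨fun e x hx hΩ i j => INT.smooth_cHess (hF e x hx hΩ) i j, hp,
    fun _ _ _ hx hx' hΩ => ddc_change hF hx hx' hΩ,
    fun e x hx hΩ i j k => INT.cHess_closed (hF e x hx hΩ) k i j⟩

theorem kah : KahOn (Om P) (ww P) :=
  kah_ddc ((sm_f P).add ((smOn_const _ 18).mul (sm_lam P))) fun _ _ hx hO => ww_pd hx hO

theorem kah1 : KahOn (O1 P) (w1 P) :=
  kah_ddc ((sm_f1 P).add ((sm_s P).mono fun _ h => h.1.1)) fun _ _ hx hO => w1_pd hx hO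

theorem rat_le (hh : IsHermitian h) (hO : x ∈ Om P) :
    Real.exp (-8 * lam P x) * rat h (ww P) x ≤ 18 ^ 4 * rat h (w1 P) x := by
  have hx := Ln.at_self (n := 4) x
  set e := chartAt (Cm 4) x
  have p := slt hO.2
  have h1 := det_le (ww_pd hx hO) (B := w1 P e (e x)) (a := (1 - ‖P.u x‖ ^ 2) ^ 2) (b := 18)
    (by positivity) (by
      refine (congrArg Matrix.PosSemidef ?_).mp (psd_smul (f1_pd hx hO.1).posSemidef
        (c := 18 - (1 - ‖P.u x‖ ^ 2) ^ 2) (by nlinarith [sq_nonneg ‖P.u x‖]))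
      rw [ww_eq hx hO, w1_eq hx hO.1, smul_add, smul_add, smul_smul, ← Complex.ofReal_mul,
        show (1 - ‖P.u x‖ ^ 2) ^ 2 * (18 * tt P x) = 18 by unfold tt; field_simp,
        Complex.ofReal_sub]
      module)
  rw [Ka.rat_eq hh kah hx hO, Ka.rat_eq hh kah1 hx hO.1, ← mul_div_assoc, ← mul_div_assoc,
    show -8 * lam P x = (8 : ℕ) * -lam P x by push_cast; ring, Real.exp_nat_mul, exp_lam hO.2]
  rw [← pow_mul] at h1
  exact div_le_div_of_nonneg_right h1 (Ka.det_pos (hh.posDef e x hx)).le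

theorem wed [T2Space X] (hh : IsHermitian h) : ∃ C : ℝ, ∀ e x, At e x → x ∈ Om P →
    Real.exp (f1 P x + -9 * lam P x) * rat h (ww P) x * (qd (ww P e (e x)) (dv (chi P) e x)).re ≤
      C * Real.exp (-(P.Ψ x + (f1 P x + 1 * lam P x))) := by
  set G : X → ℝ := fun y => deriv th (P.ρ y) ^ 2 * P.ρ y ^ 2 *
    (Real.exp (2 * f1 P y + P.Ψ y) * (18 ^ 4 * rat h (w1 P) y)) with hG
  have c1 := P.smρ.cont.mono (t := O1 P) fun _ h => h.1
  have hc : ContinuousOn G (O1 P) :=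
    ((((th_sm.continuous_deriv (by simp)).comp_continuousOn c1).pow 2).mul (c1.pow 2)).mul
      (((continuousOn_const.mul (sm_f1 P).cont).add (P.smΨ.cont.mono fun _ h => h.1)).rexp.mul
        (continuousOn_const.mul (Ka.rat_cont hh kah1 (opO1 P))))
  obtain ⟨C, hC⟩ := (cpt_band (P := P) (-2) (-1)).exists_bound_of_continuousOn
    (hc.mono fun y hy => ⟨⟨hy.1.1.1, hy.1.2.1⟩, by linarith [hy.2]⟩)
  refine ⟨max C 0, fun e x hx hO => ?_⟩
  have h1 : G x ≤ max C 0 := by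
    by_cases hb : -2 ≤ P.ρ x ∧ P.ρ x ≤ -1
    · exact ((le_abs_self _).trans (hC x ⟨⟨subK hO, hO.1.1.2, hb.1⟩, hb.2⟩)).trans (le_max_left _ _)
    · simp [hG, th_d hb]
  have h2 : dv (chi P) e x = fun c => ((deriv th (P.ρ x) : ℝ) : ℂ) * dv P.ρ e x c :=
    (dv_congr hx (chi_N hO.1.1)).trans
      (dv_comp P.smρ hx hO.1.1 (th_sm.differentiable (by simp) _).hasDerivAt)
  have h3 := qd_le (ww_pd hx hO) (c := (P.ρ x ^ 2)⁻¹) (v := dv P.ρ e x) (by
    rw [ww_eq hx hO, add_sub_right_comm]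
    exact (f1_ge' hx hO.1).add (nu_psd 18 (by norm_num)))
  rw [inv_mul_le_iff₀ (sq_pos_of_neg hO.1.2), mul_one] at h3
  refine le_trans ?_ (mul_le_mul_of_nonneg_right h1 (Real.exp_pos _).le)
  have h4 : Real.exp (f1 P x + -9 * lam P x) = Real.exp (2 * f1 P x + P.Ψ x) *
      Real.exp (-(P.Ψ x + (f1 P x + 1 * lam P x))) * Real.exp (-8 * lam P x) := by
    rw [← Real.exp_add, ← Real.exp_add]
    exact congrArg Real.exp (by ring)
  have h5 := mul_le_mul (rat_le hh hO) (mul_le_mul_of_nonneg_left h3 (sq_nonneg (deriv th (P.ρ x))))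
    (mul_nonneg (sq_nonneg _) (qd_nonneg (ww_pd hx hO) _))
    (mul_nonneg (by norm_num) (Ka.rat_pos hh kah1 hO.1).le)
  rw [h2, qd_smul, h4]
  refine le_of_eq_of_le ?_ ((mul_le_mul_of_nonneg_left h5 (mul_pos (Real.exp_pos
    (2 * f1 P x + P.Ψ x)) (Real.exp_pos (-(P.Ψ x + (f1 P x + 1 * lam P x))))).le).trans_eq ?_)
  · ring
  · simp only [hG]
    ring

theorem w1_le (hx : At e x) (hO : x ∈ O1 P) (h1 : P.ρ x ≤ -1) {C D : ℝ}
    (hC : ((C : ℂ) • (1 : Matrix (Fin 4) (Fin 4) ℂ) - ddc P.ρ e (e x)).PosSemidef)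
    (hD : ∑ c, ‖du P.u e x c‖ ^ 2 ≤ D) :
    (w1 P e (e x)).det.re ≤ (2 * |C| + D + 1) ^ 4 * (1 + ∑ c, ‖dv P.ρ e x c‖ ^ 2) := by
  have a0 : (P.ρ x)⁻¹ < 0 := inv_lt_zero.2 hO.2
  have a1 : -1 ≤ (P.ρ x)⁻¹ := by
    rw [le_inv_of_neg (by norm_num) hO.2]
    simpa using h1
  have a2 : (P.ρ x ^ 2)⁻¹ ≤ 1 := inv_le_one_of_one_le₀ (by nlinarith)
  have a3 : 0 ≤ ∑ c, ‖du P.u e x c‖ ^ 2 := by positivity
  have h2 := det_le (w1_pd hx hO) (B := 1 + rk (dv P.ρ e x)) (b := 2 * |C| + D + 1) one_pos (by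
    refine (congrArg Matrix.PosSemidef ?_).mp ((((psd_smul hC (c := 1 - (P.ρ x)⁻¹)
      (by linarith)).add (rk_le (du P.u e x))).add (psd_smul (rk_psd (dv P.ρ e x))
        (c := 2 * |C| + D + 1 - (P.ρ x ^ 2)⁻¹) (by linarith [abs_nonneg C]))).add
      (psd_smul Matrix.PosSemidef.one
        (c := 2 * |C| + D + 1 - (1 - (P.ρ x)⁻¹) * C - ∑ c, ‖du P.u e x c‖ ^ 2)
        (by nlinarith [le_abs_self C, abs_nonneg C])))
    rw [w1_eq hx hO, f1_eq hx hO]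
    simp only [Complex.ofReal_sub, Complex.ofReal_mul, Complex.ofReal_one]
    module)
  rwa [one_pow, one_mul, det_rk] at h2

theorem finB [BorelSpace X] (hh : IsHermitian h) (hO : x ∈ P.O) : ∃ V ∈ 𝓝 x, ∫⁻ y in V ∩ Om P,
    ENNReal.ofReal (chi P y ^ 2 * (Real.exp (f1 P y + -9 * lam P y) * rat h (ww P) y)) ∂μ ≠ ⊤ := by
  obtain ⟨e, he, hI⟩ := int12 hO
  obtain ⟨c, C, -, H⟩ := P.hess x hO e he
  have hm := half_pos (Ka.det_pos (hh.posDef e x he))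
  have c1 : ContinuousAt (fun y => (h e (e y)).det.re) x :=
    Complex.continuous_re.continuousAt.comp ((Continuous.matrix_det
      continuous_id).continuousAt.comp (f := fun y => h e (e y)) (continuousAt_pi.2 fun i =>
        continuousAt_pi.2 fun j => (hh.smooth e x he i j).continuousAt.comp (f := e)
          (e.continuousAt he.2)))
  set m := (h e (e x)).det.re / 2
  set M := (2 * |C| + (∑ c, ‖du P.u e x c‖ ^ 2 + 1) + 1) ^ 4 with hM
  have hM0 : 0 ≤ M := by positivity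
  refine fin_le (C := 18 ^ 4 * (M / m)) (by positivity) hI ?_
  filter_upwards [H, Ln.ev_at he, c1.eventually (lt_mem_nhds (half_lt_self
    (Ka.det_pos (hh.posDef e x he)))), (du_cont (P.hol x hO) he).eventually
      (gt_mem_nhds (lt_add_one _))] with y h1 h2 h3 h4 hy
  by_cases hρ : P.ρ y ≤ -1
  swap
  · rw [(chi_N hy.1.1).self_of_nhds, th_zero (not_le.1 hρ).le, zero_pow two_ne_zero, zero_mul]
    positivity
  have h5 : rat h (w1 P) y ≤ M / m * (1 + ∑ c, ‖dv P.ρ e y c‖ ^ 2) := by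
    rw [Ka.rat_eq hh kah1 h2 hy.1, div_mul_eq_mul_div]
    exact div_le_div₀ (by positivity) (w1_le h2 hy.1 hρ (h1 hy.1.1.2).2 h4.le) hm h3.le
  have h6 : Real.exp (f1 P y + -9 * lam P y) ≤ Real.exp (P.ρ y) * Real.exp (-8 * lam P y) := by
    rw [← Real.exp_add]
    refine Real.exp_le_exp.2 ?_
    have := Real.log_nonneg (x := -P.ρ y) (by linarith)
    unfold f1
    linarith [lam_nonneg hy.2]
  have h7 : Real.exp (P.ρ y) ≤ Real.exp (-2 * P.ρ y) := Real.exp_le_exp.2 (by linarith)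
  have h8 := (Ka.rat_pos hh kah hy).le
  calc _ ≤ 1 * (Real.exp (P.ρ y) * Real.exp (-8 * lam P y) * rat h (ww P) y) :=
        mul_le_mul (pow_le_one₀ chi_bd.1 chi_bd.2) (mul_le_mul_of_nonneg_right h6 h8)
          (by positivity) zero_le_one
    _ ≤ Real.exp (P.ρ y) * (18 ^ 4 * (M / m * (1 + ∑ c, ‖dv P.ρ e y c‖ ^ 2))) := by
        rw [one_mul, mul_assoc]
        exact mul_le_mul_of_nonneg_left ((rat_le hh hy).trans
          (mul_le_mul_of_nonneg_left h5 (by norm_num))) (Real.exp_pos _).le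
    _ = 18 ^ 4 * (M / m) * (Real.exp (P.ρ y) + Real.exp (P.ρ y) * ∑ c, ‖dv P.ρ e y c‖ ^ 2) := by
        ring
    _ ≤ _ := by gcongr

end CAL

open CAL in
/-- **CAL** -/
theorem cal : StCal := fun X _ _ _ _ _ _ h μ hh _ P =>
  ⟨{ U := P.U
     Ω := Om P
     K := K P
     w := ww P
     Ψ := fun y => P.Ψ y + (f1 P y + 1 * lam P y)
     φ := fun y => f1 P y + -9 * lam P y
     χ := chi P
     opU := opU P
     opΩ := opOm P
     sub := fun _ hx => ⟨hx.1.1.1, hx.2, Or.inr hx.1.2⟩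
     subK := fun _ hx => ⟨hx.1, hx.2.1.le, hx.2.2.imp id le_of_lt⟩
     cpt := P.cpt
     kah := kah
     cp := cp
     smΨ := (P.smΨ.mono fun _ h => h.1.1).add ((sm_f P).add ((smOn_const _ 1).mul (sm_lam P)))
     smφ := (sm_f P).add ((smOn_const _ (-9)).mul (sm_lam P))
     ca := ca
     cb := cb
     smχ := sm_chi.mono fun _ h => h.1
     bdχ := fun _ _ => chi_bd
     one := fun x hx h => chi_E hx.1 (by_contra fun hE =>
       h ⟨⟨⟨hx.1, hE⟩, hx.2.2.resolve_left hE⟩, hx.2.1⟩)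
     wed := wed hh
     low := fun _ hx _ he => low hx.1 he
     finA := fun _ hx => finA hx.1
     finB := fun _ hx => finB hh hx.1
     inv := fun _ hx => inv hx
     null := measure_mono_null (t := P.O ∩ P.E) (fun x hx => ⟨hx.1.1, by_contra fun hE =>
       hx.2 ⟨⟨⟨hx.1.1, hE⟩, hx.1.2.2.resolve_left hE⟩, hx.1.2.1⟩⟩) P.null },
    fun _ hx => hx.1, rfl⟩

end Vale.Agent.P277Z.R2
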