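import Vale.Agent.P277Z.R2.Defs
import Vale.Agent.P277Z.Ln.Bas

/-!
# P277Z, block R2: the two steps, and the assembly
-/

set_option linter.all false

open scoped Manifold ContDiff Topology ComplexConjugate ComplexOrder ENNReal
open Set Filter MeasureTheory Metric
open Vale.Agent.P272.K Vale.Agent.P284.H608.K
open Vale.Agent.P301.H599 (Fm ddc)
open Vale.Agent.P277Z.Van (SmOn KahOn PSDOn PDOn IsVol)
open Vale.Agent.P277Z.Van.Ka (rat)
open Vale.Agent.P277Z.Ln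
open Vale.Agent.P284.H419.K (dW mn nn dW_le mn_nonneg nn_add_le nn_smul nn_nonneg nn_neg dhL_mul)
open Vale.Agent.P284.H752 (k1Stmt)

noncomputable section

namespace Vale.Agent.P277Z.R2

namespace FinA

theorem dW_sub {n p : ℕ} (μ : Fin n → ℂ) (A B : Af n p) : dW μ (A - B) = dW μ A - dW μ B := by
  rw [eq_sub_iff_add_eq]
  unfold dW
  rw [← ContinuousAlternatingMap.alternatizeUncurryFin_add, ← Finset.sum_add_distrib]
  congr 1
  refine Finset.sum_congr rfl fun a _ => ?_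
  ext x v
  simp only [ContinuousLinearMap.smulRight_apply, add_apply,
    ContinuousAlternatingMap.smul_apply, ContinuousAlternatingMap.add_apply,
    ContinuousAlternatingMap.sub_apply, smul_eq_mul]
  ring

variable {n p : ℕ} {X : Type} [TopologicalSpace X] [ChartedSpace (Cm n) X] {e : Chart n X}
  {x : X} {Ω U : Set X} {χ : X → ℝ} {η ζ : Fa n p X} {w : Fm n X}

/-- a real function as a complex one -/
def cc (χ : X → ℝ) : X → ℂ := fun x => (χ x : ℂ)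

theorem sm_cc (h : SmOn (d := n) U χ) : ∀ x ∈ U, Sm n (cc χ) x := fun x hx e a =>
  Complex.ofRealCLM.contDiff.contDiffAt.comp (e x) (h e x a hx)

theorem dA_add (hη : FOn U η) (hζ : FOn U ζ) (a : At e x) (hx : x ∈ U) :
    dA (η + ζ) e (e x) = dA η e (e x) + dA ζ e (e x) :=
  Vale.Agent.P284.H205.K.dhL_add ((hη.sm e x a hx).differentiableAt (by simp))
    ((hζ.sm e x a hx).differentiableAt (by simp))

theorem dA_sub (hη : FOn U η) (hζ : FOn U ζ) (a : At e x) (hx : x ∈ U) :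
    dA (η - ζ) e (e x) = dA η e (e x) - dA ζ e (e x) :=
  dhL_sub ((hη.sm e x a hx).differentiableAt (by simp))
    ((hζ.sm e x a hx).differentiableAt (by simp))

theorem dA_dA (hη : FOn U η) (a : At e x) (hx : x ∈ U) : dA (dA η) e (e x) = 0 :=
  Vale.Agent.P284.H205.K.dhL_dhL contDiffAt_const (hη.sm e x a hx)

theorem dA_sF (hχ : SmOn (d := n) U χ) (hη : FOn U η) (a : At e x) (hx : x ∈ U) :
    dA (sF (cc χ) η) e (e x) = (χ x : ℂ) • dA η e (e x) + dW (dv χ e x) (η e (e x)) := by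
  have h := dhL_mul (fun _ => 0) ((sm_cc hχ x hx e a).differentiableAt (by simp))
    ((hη.sm e x a hx).differentiableAt (by simp))
  rw [e.left_inv a.2] at h
  exact h

variable [IsManifold 𝓘(ℂ, Cm n) ω X]

theorem nm_eq (hw : KahOn Ω w) (hη : FOn Ω η) (a : At e x) (hx : x ∈ Ω) :
    nm w η x = (hn (w e (e x)) (η e (e x)) (η e (e x))).re := by
  have b := at_self (n := n) x
  have hJ : jacM e (chartAt (Cm n) x) x = _ :=
    Van.Ka.jmat_fd (trans_an b a).differentiableAt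
  have hd := jacM_det_ne_zero a b
  rw [hJ, LinearMap.det_toMatrix'] at hd
  have hb := (Module.End.isUnit_iff _).1 ((LinearMap.isUnit_iff_isUnit_det _).2 hd.isUnit)
  rw [hη.chg e _ x a b hx, hw.change e _ x a b hx, hJ,
    k1Stmt.pull n p _ _ (hw.posDef _ x b hx) hb]
  rfl

theorem nm_cont (hΩ : IsOpen Ω) (hw : KahOn Ω w) (hη : FOn Ω η) : ContinuousOn (nm w η) Ω := by
  intro x hx
  have a := at_self (n := n) x
  have h1 := Vale.Agent.P284.H205.K.hn_sm (hw.smooth _ x a hx) (hw.posDef _ x a hx).det_pos.ne'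
    (hη.sm _ x a hx) (hη.sm _ x a hx)
  have h2 := (Complex.continuous_re.continuousAt.comp h1.continuousAt).comp
    (f := chartAt (Cm n) x) ((chartAt (Cm n) x).continuousAt a.2)
  refine (h2.congr ?_).continuousWithinAt
  filter_upwards [ev_at a, hΩ.mem_nhds hx] with y h3 h4
  exact (nm_eq hw hη h3 h4).symm

omit [IsManifold 𝓘(ℂ, Cm n) ω X] in
theorem nm_nonneg (hw : KahOn Ω w) (η : Fa n p X) (hx : x ∈ Ω) : 0 ≤ nm w η x :=
  nn_nonneg k1Stmt (hw.posDef _ x (at_self x) hx) _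

theorem loc_comb {α : Type} {l : Filter α} {a b c : α → Fa n p X} (hU : IsOpen U)
    (hχ : ∀ x ∈ U, 0 ≤ χ x ∧ χ x ≤ 1) (one : ∀ x ∈ U, x ∉ Ω → ∀ᶠ y in 𝓝 x, χ y = 1)
    (ha : LocL1 l Ω a) (hb : LocL1 l U b) (hs : ∀ k, FOn U (b k))
    (hc : ∀ k e x, At e x → x ∈ U →
      c k e (e x) = b k e (e x) + ((1 - χ x : ℝ) : ℂ) • a k e (e x)) : LocL1 l U c := by
  intro e x hx hxU
  obtain ⟨S, hS, h2⟩ := hb e x hx hxU
  have h3 : ∃ T ∈ 𝓝 (e x), ∃ t : α → ℝ≥0∞, Tendsto t l (𝓝 0) ∧ ∀ B ⊆ T, MeasurableSet B →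
      (∀ z ∈ B, e.symm z ∈ U) → ∀ k,
      l1 B (fun z => ((1 - χ (e.symm z) : ℝ) : ℂ) • a k e z) ≤ t k := by
    by_cases hΩ : x ∈ Ω
    · obtain ⟨T, hT, h4⟩ := ha e x hx hΩ
      refine ⟨T, hT, _, h4, fun B hB hm hz k => (l1_le hm fun z h5 => ?_).trans (l1_mono hB _)⟩
      obtain ⟨h6, h7⟩ := hχ _ (hz z h5)
      rw [norm_smul, Complex.norm_real, Real.norm_of_nonneg (by linarith)]
      exact mul_le_of_le_one_left (norm_nonneg _) (by linarith)
    · refine ⟨_, (tend_symm hx.2).eventually (one x hxU hΩ), fun _ => 0, tendsto_const_nhds,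
        fun B hB hm _ k => ?_⟩
      refine (l1_le (g := fun _ => (0 : ℝ)) hm fun z h5 => ?_).trans (by simp [l1])
      have h6 : χ (e.symm z) = 1 := hB h5
      rw [norm_smul, h6]
      simp
  obtain ⟨T, hT, t, ht, h4⟩ := h3
  obtain ⟨r, hr, hB⟩ := Metric.mem_nhds_iff.1
    (inter_mem (inter_mem hS hT) (ev_chart hx (hU.mem_nhds hxU)))
  refine ⟨ball (e x) r, ball_mem_nhds _ hr, tend_le (fun k => ?_) (by simpa using h2.add ht)⟩
  have h5 : ContinuousOn (b k e) (ball (e x) r) := fun z hz => by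
    obtain ⟨-, k1, k2, k3⟩ := hB hz
    have := ((hs k).sm e _ k1 k3).continuousAt
    rw [k2] at this
    exact this.continuousWithinAt
  refine le_trans (l1_le measurableSet_ball fun z hz => ?_) ((l1_add_le measurableSet_ball
    (g := fun z => ((1 - χ (e.symm z) : ℝ) : ℂ) • a k e z) h5).trans (add_le_add
      (l1_mono (fun z hz => (hB hz).1.1) _)
      (h4 _ (fun z hz => (hB hz).1.2) measurableSet_ball (fun z hz => (hB hz).2.2.2) k)))
  obtain ⟨-, k1, k2, k3⟩ := hB hz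
  have := hc k e _ k1 k3
  rw [k2] at this
  rw [this]

variable [MeasurableSpace X] [BorelSpace X] {μ : Measure X} {Φ Φ' : X → ℝ}

omit [IsManifold 𝓘(ℂ, Cm n) ω X] in
theorem NN_le {q : ℕ} {θ : Fa n q X} {c : ℝ} (hΩ : IsOpen Ω) (hc : 0 ≤ c)
    (h : ∀ x ∈ Ω, Φ x * nm w η x ≤ c * (Φ' x * nm w θ x)) :
    NN μ Ω w Φ η ≤ ENNReal.ofReal c * NN μ Ω w Φ' θ := by
  unfold NN
  rw [← lintegral_const_mul' _ _ ENNReal.ofReal_ne_top]
  refine setLIntegral_mono' hΩ.measurableSet fun x hx => ?_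
  rw [← ENNReal.ofReal_mul hc]
  exact ENNReal.ofReal_le_ofReal (h x hx)

theorem NN_add (hΩ : IsOpen Ω) (hw : KahOn Ω w) (hΦ : ContinuousOn Φ Ω) (h0 : ∀ x ∈ Ω, 0 ≤ Φ x)
    (hη : FOn Ω η) (h1 : NN μ Ω w Φ η ≠ ⊤) (h2 : NN μ Ω w Φ ζ ≠ ⊤) : NN μ Ω w Φ (η + ζ) ≠ ⊤ := by
  have hm : AEMeasurable (fun x => ENNReal.ofReal (Φ x * nm w η x)) (μ.restrict Ω) :=
    ((hΦ.mul (nm_cont hΩ hw hη)).aemeasurable hΩ.measurableSet).ennreal_ofReal
  refine ne_top_of_le_ne_top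
    (ENNReal.mul_ne_top (ENNReal.ofReal_ne_top (r := 2)) (ENNReal.add_ne_top.2 ⟨h1, h2⟩)) ?_
  unfold NN
  rw [← lintegral_add_left' hm, ← lintegral_const_mul' _ _ ENNReal.ofReal_ne_top]
  refine setLIntegral_mono' hΩ.measurableSet fun x hx => ?_
  have a1 := nm_nonneg hw η hx
  have a2 := nm_nonneg hw ζ hx
  have a3 := h0 x hx
  have a4 : nm w (η + ζ) x ≤ 2 * nm w η x + 2 * nm w ζ x :=
    nn_add_le k1Stmt (hw.posDef _ x (at_self x) hx) _ _
  rw [← ENNReal.ofReal_add (by positivity) (by positivity), ← ENNReal.ofReal_mul (by norm_num)]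
  exact ENNReal.ofReal_le_ofReal (by nlinarith [mul_le_mul_of_nonneg_left a4 a3])

/-- the commutator of `∂` with `χ` -/
def Wd (χ : X → ℝ) (η : Fa n p X) : Fa n (p + 1) X := dA (sF (cc χ) η) - sF (cc χ) (dA η)

omit [MeasurableSpace X] [BorelSpace X] in
theorem Wd_on (hU : IsOpen U) (hχ : SmOn (d := n) U χ) (hη : FOn U η) : FOn U (Wd χ η) :=
  ((hη.smul (sm_cc hχ)).dA hU).sub ((hη.dA hU).smul (sm_cc hχ))

omit [MeasurableSpace X] [BorelSpace X] [IsManifold 𝓘(ℂ, Cm n) ω X] in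
theorem Wd_at (hχ : SmOn (d := n) U χ) (hη : FOn U η) (a : At e x) (hx : x ∈ U) :
    Wd χ η e (e x) = dW (dv χ e x) (η e (e x)) := by
  change dA (sF (cc χ) η) e (e x) - sF (cc χ) (dA η) e (e x) = _
  rw [dA_sF hχ hη a hx, sF_at _ _ a]
  exact add_sub_cancel_left _ _

/-- the right side of the second step -/
def Fs (χ : X → ℝ) (f : Fa n (p + 1) X) (g : Fa n p X) : Fa n (p + 1) X := sF (cc χ) f + Wd χ g

variable {f : Fa n (p + 1) X} {v v' : Fa n p X}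

omit [MeasurableSpace X] [BorelSpace X] in
theorem Fs_on (hU : IsOpen U) (hχ : SmOn (d := n) U χ) (hf : FOn U f) (hη : FOn U η) :
    FOn U (Fs χ f η) := (hf.smul (sm_cc hχ)).add (Wd_on hU hχ hη)

omit [MeasurableSpace X] [BorelSpace X] [IsManifold 𝓘(ℂ, Cm n) ω X] in
theorem Fs_sub (hχ : SmOn (d := n) U χ) (hη : FOn U η) (hζ : FOn U ζ) (a : At e x) (hx : x ∈ U) :
    (Fs χ f η - Fs χ f ζ) e (e x) = (1 : ℂ) • dW (dv χ e x) ((η - ζ) e (e x)) := by
  change (_ + Wd χ η e (e x)) - (_ + Wd χ ζ e (e x)) = _ • dW _ (η e (e x) - ζ e (e x))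
  rw [one_smul, dW_sub, Wd_at hχ hη a hx, Wd_at hχ hζ a hx]
  exact add_sub_add_left_eq_sub _ _ _

omit [MeasurableSpace X] [BorelSpace X] in
theorem dA_Fs (hU : IsOpen U) (hχ : SmOn (d := n) U χ) (hf : FOn U f) (hη : FOn U η) (a : At e x)
    (hx : x ∈ U) (hd : dA f e (e x) = 0) :
    dA (Fs χ f η) e (e x) = (-1 : ℂ) • dW (dv χ e x) ((dA η - f) e (e x)) := by
  have s := sm_cc hχ
  change dA (sF (cc χ) f + Wd χ η) e (e x) = _ • dW _ (dA η e (e x) - f e (e x))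
  rw [dA_add (hf.smul s) (Wd_on hU hχ hη) a hx, Wd,
    dA_sub ((hη.smul s).dA hU) ((hη.dA hU).smul s) a hx, dA_dA (hη.smul s) a hx,
    dA_sF hχ hf a hx, dA_sF hχ (hη.dA hU) a hx, dA_dA hη a hx, hd, dW_sub]
  ext u
  simp only [ContinuousAlternatingMap.smul_apply, ContinuousAlternatingMap.add_apply,
    ContinuousAlternatingMap.sub_apply, ContinuousAlternatingMap.coe_zero, Pi.zero_apply,
    smul_eq_mul]
  ring

/-- the approximate solution -/
def Gm (χ : X → ℝ) (v g : Fa n p X) : Fa n p X := v + (g - sF (cc χ) g)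

omit [MeasurableSpace X] [BorelSpace X] [IsManifold 𝓘(ℂ, Cm n) ω X] in
theorem Gm_sub (a : At e x) : (Gm χ v η - Gm χ v' ζ) e (e x) =
    (v - v') e (e x) + ((1 - χ x : ℝ) : ℂ) • (η - ζ) e (e x) := by
  simp only [Gm, Pi.sub_apply, Pi.add_apply]
  rw [sF_at _ _ a, sF_at _ _ a]
  ext u
  simp only [ContinuousAlternatingMap.smul_apply, ContinuousAlternatingMap.add_apply,
    ContinuousAlternatingMap.sub_apply, smul_eq_mul, cc]
  push_cast
  ring

omit [MeasurableSpace X] [BorelSpace X] [IsManifold 𝓘(ℂ, Cm n) ω X] in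
theorem dA_Gm (hχ : SmOn (d := n) U χ) (hv : FOn U v) (hη : FOn U η) (a : At e x) (hx : x ∈ U) :
    (dA (Gm χ v η) - f) e (e x) =
      (dA v - Fs χ f η) e (e x) + ((1 - χ x : ℝ) : ℂ) • (dA η - f) e (e x) := by
  have s := hη.smul (sm_cc hχ)
  simp only [Gm, Fs, Wd, Pi.sub_apply, Pi.add_apply]
  rw [dA_add hv (hη.sub s) a hx, dA_sub hη s a hx, sF_at _ _ a, sF_at _ _ a]
  ext u
  simp only [ContinuousAlternatingMap.smul_apply, ContinuousAlternatingMap.add_apply,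
    ContinuousAlternatingMap.sub_apply, smul_eq_mul, cc]
  push_cast
  ring

omit [IsManifold 𝓘(ℂ, Cm n) ω X] in
theorem NN_sF (hΩ : IsOpen Ω) (h : NN μ Ω w (fun x => χ x ^ 2 * Φ x) η ≠ ⊤) :
    NN μ Ω w Φ (sF (cc χ) η) ≠ ⊤ := by
  refine ne_top_of_le_ne_top (ENNReal.mul_ne_top ENNReal.ofReal_ne_top h)
    (NN_le hΩ zero_le_one fun x hx => le_of_eq ?_)
  have h2 : nm w (sF (cc χ) η) x = χ x ^ 2 * nm w η x := by
    change nn _ _ = _ * nn _ _
    rw [sF_at _ _ (at_self x), nn_smul, cc, Complex.norm_real, Real.norm_eq_abs, sq_abs]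
  rw [h2]
  ring

theorem wed {X : Type} [TopologicalSpace X] [ChartedSpace (Cm 4) X]
    [IsManifold 𝓘(ℂ, Cm 4) ω X] [MeasurableSpace X] [BorelSpace X] {h : Fm 4 X} {μ : Measure X}
    (hh : IsHermitian h) (C : Cal h μ) : ∃ c : ℝ≥0∞, c ≠ ⊤ ∧
    ∀ (p : ℕ) (θ : Fa 4 p X) (η : Fa 4 (p + 1) X) (s : ℂ), ‖s‖ = 1 →
      (∀ e x, At e x → x ∈ C.Ω → η e (e x) = s • dW (dv C.χ e x) (θ e (e x))) →
      NN μ C.Ω C.w (fun x => Real.exp (C.φ x) * rat h C.w x) η ≤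
        c * NN μ C.Ω C.w (fun x => Real.exp (-C.Ψ x)) θ := by
  obtain ⟨c, hc⟩ := C.wed
  refine ⟨ENNReal.ofReal |c|, ENNReal.ofReal_ne_top, fun p θ η s hs hη =>
    NN_le C.opΩ (abs_nonneg c) fun x hx => ?_⟩
  have a := at_self (n := 4) x
  have h5 : 0 ≤ nm C.w θ x := nm_nonneg C.kah θ hx
  unfold nm at h5 ⊢
  generalize chartAt (Cm 4) x = e at a h5 ⊢
  have hw := C.kah.posDef e x a hx
  have h1 := hc e x a hx
  have h2 := dW_le k1Stmt hw (dv C.χ e x) (θ e (e x)) (mn_nonneg hw _)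
  have h3 : nn (C.w e (e x)) (η e (e x)) = nn (C.w e (e x)) (dW (dv C.χ e x) (θ e (e x))) := by
    rw [hη e x a hx, nn_smul, hs, one_pow, one_mul]
  have h4 : mn (C.w e (e x)) (dv C.χ e x) =
      ∑ c, ∑ d, dv C.χ e x c * conj (dv C.χ e x d) * (C.w e (e x))⁻¹ d c := by
    rw [mn, Finset.sum_comm]
    exact Finset.sum_congr rfl fun _ _ => Finset.sum_congr rfl fun _ _ => by ring
  rw [← h4] at h1
  have h6 : 0 ≤ Real.exp (C.φ x) * rat h C.w x :=
    mul_nonneg (Real.exp_pos _).le (Van.Ka.rat_pos hh C.kah hx).le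
  have h7 := mul_le_mul_of_nonneg_right (h1.trans
    (mul_le_mul_of_nonneg_right (le_abs_self c) (Real.exp_pos _).le)) h5
  have h8 := mul_le_mul_of_nonneg_left h2 h6
  rw [← h3] at h8
  unfold nn at h8
  linarith

end FinA

open FinA

theorem fin (hA : StSolA) (hB : StSolB) (hF : StFini) (hL : StLoc) : StFin := by
  intro X _ _ _ _ _ _ h μ hh hμ C V f hV hf hd
  have hUV : C.U ⊆ V := C.subK.trans hV
  have fU : FOn C.U f := hf.mono hUV
  have fin0 : ∀ (p : ℕ) (W : Set X) (θ : Fa 4 p X), C.K ⊆ W → FOn W θ →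
      NN μ C.Ω C.w (fun x => Real.exp (-C.Ψ x)) θ ≠ ⊤ := fun p W θ h1 h2 =>
    hF X h μ hh hμ C W p θ _ h1 h2 (fun _ _ => (Real.exp_pos _).le) C.finA
  obtain ⟨g, g1, g2, g3⟩ := hA X h μ hh hμ C.Ω C.w C.Ψ C.opΩ C.kah C.cp C.smΨ C.ca f
    (fU.mono C.sub) (fun e x a hx => hd e x a (hUV (C.sub hx))) (fin0 _ V f hV hf)
  have gU : ∀ k, FOn C.U (g k) := fun k => (g1 k).1.mono (subset_univ _)
  have FU : ∀ k, FOn C.U (Fs C.χ f (g k)) := fun k => Fs_on C.opU C.smχ fU (gU k)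
  obtain ⟨c, hc, hw⟩ := wed hh C
  have lim : ∀ {α : Type} {l : Filter α} {t : α → ℝ≥0∞}, Tendsto t l (𝓝 0) →
      Tendsto (fun k => c * t k) l (𝓝 0) := fun ht => by
    simpa using ENNReal.Tendsto.const_mul ht (Or.inr hc)
  have hpos : ∀ x ∈ C.Ω, 0 ≤ Real.exp (C.φ x) * rat h C.w x := fun x hx =>
    mul_nonneg (Real.exp_pos _).le (Van.Ka.rat_pos hh C.kah hx).le
  have hco : ContinuousOn (fun x => Real.exp (C.φ x) * rat h C.w x) C.Ω :=
    (Real.continuous_exp.comp_continuousOn C.smφ.cont).mul (Van.Ka.rat_cont hh C.kah C.opΩ)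
  have b0 : NN μ C.Ω C.w (fun x => Real.exp (C.φ x) * rat h C.w x) (sF (cc C.χ) f) ≠ ⊤ :=
    NN_sF C.opΩ (hF X h μ hh hμ C V 2 f _ hV hf
      (fun x hx => mul_nonneg (sq_nonneg (C.χ x)) (hpos x hx)) C.finB)
  have b1 : ∀ k, NN μ C.Ω C.w (fun x => Real.exp (C.φ x) * rat h C.w x) (Fs C.χ f (g k)) ≠ ⊤ :=
    fun k => NN_add C.opΩ C.kah hco hpos ((fU.smul (sm_cc C.smχ)).mono C.sub) b0
      (ne_top_of_le_ne_top (ENNReal.mul_ne_top hc (fin0 1 univ (g k) (subset_univ _) (g1 k).1))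
        (hw 1 (g k) (Wd C.χ (g k)) 1 norm_one fun e x a hx => by
          rw [one_smul, Wd_at C.smχ (gU k) a (C.sub hx)]))
  have b2 := tend_le (fun q : ℕ × ℕ => hw 1 (g q.1 - g q.2) (Fs C.χ f (g q.1) - Fs C.χ f (g q.2))
    1 norm_one fun e x a hx => Fs_sub C.smχ (gU q.1) (gU q.2) a (C.sub hx)) (lim g2)
  have b3 := tend_le (fun k : ℕ => hw 2 (dA (g k) - f) (dA (Fs C.χ f (g k))) (-1) (by simp)
    fun e x a hx => dA_Fs C.opU C.smχ fU (gU k) a (C.sub hx) (hd e x a (hUV (C.sub hx)))) (lim g3)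
  obtain ⟨v, v1, v2, v3⟩ := hB X h μ hh hμ C.Ω C.w C.φ C.opΩ C.kah C.cp C.smφ C.cb
    (fun k => Fs C.χ f (g k)) (fun k => ⟨(FU k).mono C.sub, b1 k⟩) b2 b3
  have vU : ∀ k, FOn C.U (v k) := fun k => (v1 k).1.mono (subset_univ _)
  have c1 := (hL X h μ hh hμ C 1 _ atTop (fun q : ℕ × ℕ => g q.1 - g q.2)
    fun q => ((gU q.1).sub (gU q.2)).mono C.sub).2 g2
  have c2 := (hL X h μ hh hμ C 1 _ atTop (fun q : ℕ × ℕ => v q.1 - v q.2)
    fun q => ((vU q.1).sub (vU q.2)).mono C.sub).1 v2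
  have c3 := (hL X h μ hh hμ C 2 _ atTop (fun k => dA (g k) - f)
    fun k => (((gU k).dA C.opU).sub fU).mono C.sub).2 g3
  have c4 := (hL X h μ hh hμ C 2 _ atTop (fun k => dA (v k) - Fs C.χ f (g k))
    fun k => (((vU k).dA C.opU).sub (FU k)).mono C.sub).1 v3
  exact ⟨fun k => Gm C.χ (v k) (g k),
    fun k => (vU k).add ((gU k).sub ((gU k).smul (sm_cc C.smχ))),
    loc_comb C.opU C.bdχ C.one c1 c2 (fun q => (vU q.1).sub (vU q.2)) fun q e x a _ => Gm_sub a,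
    loc_comb C.opU C.bdχ C.one c3 c4 (fun k => ((vU k).dA C.opU).sub (FU k))
      fun k e x a hx => dA_Gm C.smχ (vU k) (gU k) a hx⟩

theorem r2 (pre : StPre) (cal : StCal) (fin : StFin) : StR2' := by
  intro N G R hE V hV hFV f hf hd
  letI : MeasurableSpace G.W := borel G.W
  haveI : BorelSpace G.W := ⟨rfl⟩
  haveI : LocallyCompactSpace G.W := ChartedSpace.locallyCompactSpace (Cm 4) G.W
  obtain ⟨⟨h, hh⟩, hv, -⟩ := Van.vol 4 G.W
  obtain ⟨μ, hμ⟩ := hv h hh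
  obtain ⟨P, P1, P2⟩ := pre N G R hE V hV hFV h μ hh hμ
  obtain ⟨C, C1, C2⟩ := cal G.W h μ hh hμ P
  obtain ⟨γ, g1, g2, g3⟩ := fin G.W h μ hh hμ C V f (C1.trans P1) hf hd
  exact ⟨C.U, γ, C.opU, C2 ▸ P2, C.subK.trans (C1.trans P1), g1, g2, g3⟩

end Vale.Agent.P277Z.R2
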