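import Mathlib

/-!
# P277Z, block R2: integrability of negative powers of a holomorphic submersion
-/

open scoped Topology ENNReal
open Set Filter MeasureTheory Metric Function

noncomputable section

namespace Vale.Agent.P277Z.R2.IntA

variable {n : ℕ}

theorem lint_ball (j : Fin n) {R : ℝ} (hR : 0 < R) : ∃ K : ℝ≥0∞, K ≠ ⊤ ∧ ∀ g : ℂ → ℝ≥0∞,
    Measurable g → ∫⁻ x in ball (0 : Fin n → ℂ) R, g (x j) = K * ∫⁻ t in ball (0 : ℂ) R, g t := by
  refine ⟨∏ _l ∈ Finset.univ.erase j, volume.restrict (ball (0 : ℂ) R) univ,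
    ENNReal.prod_ne_top fun _ _ => ?_, fun g hg => ?_⟩
  · rw [Measure.restrict_apply_univ]
    exact measure_ball_lt_top.ne
  · rw [ball_pi _ hR, volume_pi, Measure.restrict_pi_pi,
      ← lintegral_map hg (measurable_pi_apply j), ← smul_eq_mul, ← lintegral_smul_measure]
    exact congrArg (lintegral · g) (Measure.pi_map_eval _ j)

theorem key {ζ : (Fin n → ℂ) → ℂ} {z : Fin n → ℂ} (h : AnalyticAt ℂ ζ z) (h0 : fderiv ℂ ζ z ≠ 0) :
    ∃ S ∈ 𝓝 z, IsOpen S ∧ ContinuousOn ζ S ∧ ∃ (R : ℝ) (K : ℝ≥0∞), K ≠ ⊤ ∧ ∀ g : ℂ → ℝ≥0∞,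
      Measurable g → ∫⁻ y in S, g (ζ y) ≤ K * ∫⁻ t in ball (0 : ℂ) R, g t := by
  obtain ⟨j, hj⟩ : ∃ j, fderiv ℂ ζ z (Pi.single j 1) ≠ 0 := by
    by_contra hc
    push Not at hc
    exact h0 (ContinuousLinearMap.coe_injective ((Pi.basisFun ℂ (Fin n)).ext fun j => by
      simpa using hc j))
  let Φ : (Fin n → ℂ) → Fin n → ℂ := fun y l => if l = j then ζ y else y l
  have hΦ : AnalyticAt ℝ Φ z := analyticAt_pi_iff.2 fun l => by
    by_cases e : l = j
    · simpa only [Φ, e, if_true] using h.restrictScalars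
    · simp only [e, if_false]
      exact (ContinuousLinearMap.proj (R := ℝ) (φ := fun _ : Fin n => ℂ) l).analyticAt z
  have hA : HasFDerivAt Φ (ContinuousLinearMap.pi fun l => if l = j then
      (fderiv ℂ ζ z).restrictScalars ℝ else ContinuousLinearMap.proj l) z :=
    hasFDerivAt_pi.2 fun l => by
      by_cases e : l = j
      · simpa only [Φ, e, if_true] using h.differentiableAt.hasFDerivAt.restrictScalars ℝ
      · simp only [e, if_false]
        exact (ContinuousLinearMap.proj (R := ℝ) (φ := fun _ : Fin n => ℂ) l).hasFDerivAt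
  have hd : (fderiv ℝ Φ z).det ≠ 0 := by
    rw [hA.fderiv]
    refine (LinearMap.isUnit_det _ ((LinearMap.isUnit_iff_ker_eq_bot _).2
      (LinearMap.ker_eq_bot'.2 fun v hv => ?_))).ne_zero
    have h1 : v = v j • Pi.single j 1 := funext fun l => by
      by_cases e : l = j
      · simp [e]
      · simpa [e] using congrFun hv l
    have h2 : fderiv ℂ ζ z v = 0 := by simpa using congrFun hv j
    rw [h1, map_smul, smul_eq_zero, or_iff_left hj] at h2
    rw [h1, h2, zero_smul]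
  have hs : HasStrictFDerivAt Φ
      ((fderiv ℝ Φ z).toContinuousLinearEquivOfDetNeZero hd : (Fin n → ℂ) →L[ℝ] Fin n → ℂ) z := by
    rw [ContinuousLinearMap.coe_toContinuousLinearEquivOfDetNeZero]
    exact hΦ.hasStrictFDerivAt
  have hc : 0 < |(fderiv ℝ Φ z).det| / 2 := half_pos (abs_pos.2 hd)
  have e1 : ∀ᶠ y in 𝓝 z, |(fderiv ℝ Φ z).det| / 2 < |(fderiv ℝ Φ y).det| :=
    ((ContinuousLinearMap.continuous_det.continuousAt.comp hΦ.fderiv.continuousAt).abs).eventually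
      (lt_mem_nhds (half_lt_self (abs_pos.2 hd)))
  have hR : 0 < ‖Φ z‖ + 1 := by positivity
  have e2 : ∀ᶠ y in 𝓝 z, Φ y ∈ ball 0 (‖Φ z‖ + 1) :=
    hΦ.continuousAt (isOpen_ball.mem_nhds (by simp))
  obtain ⟨S, h1, h2, h3⟩ := _root_.eventually_nhds_iff.1 (e1.and (e2.and
    (hs.eventually_left_inverse.and (hΦ.eventually_analyticAt.and h.eventually_analyticAt))))
  obtain ⟨K, hK, H⟩ := lint_ball j hR
  refine ⟨S, h2.mem_nhds h3, h2, fun y hy => (h1 y hy).2.2.2.2.continuousAt.continuousWithinAt,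
    ‖Φ z‖ + 1, (ENNReal.ofReal (|(fderiv ℝ Φ z).det| / 2))⁻¹ * K,
    ENNReal.mul_ne_top (ENNReal.inv_ne_top.2 (ENNReal.ofReal_pos.2 hc).ne') hK, fun g hg => ?_⟩
  rw [mul_assoc, ← H g hg, ← ENNReal.div_eq_inv_mul, ENNReal.le_div_iff_mul_le
    (Or.inl (ENNReal.ofReal_pos.2 hc).ne') (Or.inl ENNReal.ofReal_ne_top), mul_comm,
    ← lintegral_const_mul' _ _ ENNReal.ofReal_ne_top]
  refine le_trans ?_ (lintegral_mono_set (s := Φ '' S) ?_)
  · rw [lintegral_image_eq_lintegral_abs_det_fderiv_mul volume h2.measurableSet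
      (fun y hy => (h1 y hy).2.2.2.1.differentiableAt.hasFDerivAt.hasFDerivWithinAt)
      fun y hy y' hy' e => by rw [← (h1 y hy).2.2.1, e, (h1 y' hy').2.2.1]]
    refine setLIntegral_mono' h2.measurableSet fun y hy => ?_
    rw [show Φ y j = ζ y from if_pos rfl]
    exact mul_le_mul_left (ENNReal.ofReal_le_ofReal (h1 y hy).1.le) _
  · rintro _ ⟨y, hy, rfl⟩
    exact (h1 y hy).2.1

theorem main {ζ : (Fin n → ℂ) → ℂ} {z : Fin n → ℂ} (h : AnalyticAt ℂ ζ z) (h0 : fderiv ℂ ζ z ≠ 0)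
    {a : ℝ} (ha : a < 1) : ∃ S ∈ 𝓝 z, volume (S ∩ {y | ζ y = 0}) = 0 ∧
      ∫⁻ y in S, ENNReal.ofReal ((‖ζ y‖ ^ 2) ^ (-a)) ≠ ⊤ := by
  obtain ⟨S, h1, h2, h3, R, K, hK, H⟩ := key h h0
  refine ⟨S, h1, ?_, ?_⟩
  · have hg : Measurable (indicator ({0} : Set ℂ) (1 : ℂ → ℝ≥0∞)) :=
      measurable_one.indicator (measurableSet_singleton 0)
    have h4 := H _ hg
    rw [lintegral_indicator_one (measurableSet_singleton 0), measure_singleton, mul_zero,
      nonpos_iff_eq_zero] at h4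
    have h6 := (lintegral_eq_zero_iff'
      (hg.comp_aemeasurable (h3.aemeasurable h2.measurableSet))).1 h4
    refine measure_eq_zero_iff_ae_notMem.2 (((ae_restrict_iff' h2.measurableSet).1 h6).mono
      fun y hy hy' => ?_)
    have h5 : ζ y = 0 := hy'.2
    simpa [h5] using hy hy'.1
  · have hm : Measurable fun t : ℂ => (‖t‖ ^ 2) ^ (-a) := by fun_prop
    refine ne_top_of_le_ne_top (ENNReal.mul_ne_top hK ?_) (H _ hm.ennreal_ofReal)
    refine (integrableOn_ball_of_norm_le_rpow (μ := volume) (C := 1) (α := 2 * a) (by simp)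
      (by simp; linarith) (Eventually.of_forall fun t => ?_)
      hm.aestronglyMeasurable).lintegral_lt_top.ne
    rw [Real.norm_of_nonneg (by positivity), one_mul, ← Real.rpow_natCast,
      ← Real.rpow_mul (norm_nonneg _)]
    exact le_of_eq (by congr 1; push_cast; ring)

end Vale.Agent.P277Z.R2.IntA
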