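import Vale.Agent.P277Z.R2.Defs
import Vale.Agent.P277Z.R2.IntA

/-!
# P277Z, block R2: INT
-/

namespace Vale.Agent.P277Z.R2

theorem int : StInt := fun _ _ _ h h0 _ ha => IntA.main h h0 ha

end Vale.Agent.P277Z.R2
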