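import Vale.Agent.P277Z.R2.Defs
import Vale.Agent.P277Z.Van.Horm
import Vale.Agent.P277Z.Ln.Bas

/-!
# P277Z, block R2: finite norms, and from weighted `L²` to local `L¹`
-/

open scoped Manifold ContDiff Topology ComplexConjugate ComplexOrder ENNReal NNReal
open Set Filter MeasureTheory Metric
open Vale.Agent.P272.K Vale.Agent.P284.H608.K Vale.Agent.P284.H451.K1
open Vale.Agent.P301.H599 (Fm)
open Vale.Agent.P277Z.Van (SmOn KahOn IsVol)
open Vale.Agent.P277Z.Van.Ka (rat rat_eq rat_pos rat_cont det_pos jmat_fd)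
open Vale.Agent.P277Z.Ln

noncomputable section

namespace Vale.Agent.P277Z.R2

namespace LocAux

section alg

variable {n p : ℕ} {w h : Matrix (Fin n) (Fin n) ℂ} {c : ℝ}

theorem hn_nonneg (hw : w.PosDef) (A : Af n p) : 0 ≤ (hn w A A).re := by
  by_cases h : A = 0
  · rw [h, hn_zero_left, Complex.zero_re]
  · exact (Complex.lt_def.1 (Vale.Agent.P284.H752.k1Stmt.pos n p w hw A h)).1.le

theorem hn_anti (hw : w.PosDef) (hh : (h - w).PosSemidef) (A : Af n p) :
    (hn h A A).re ≤ (hn w A A).re := by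
  obtain ⟨V, l, h1, h2, hl⟩ := simdiag hw hh
  have hl0 : ∀ i, 0 < l i := fun i => lt_of_lt_of_le one_pos (hl i)
  have h1' : V.conjTranspose * w * V = Matrix.diagonal (fun i => (((fun _ => 1 : Fin n → ℝ) i : ℝ)
      : ℂ)) := by
    rw [h1, ← Matrix.diagonal_one]
    congr 1
  rw [hn_diag (m := fun i => ((fun _ => 1 : Fin n → ℝ) i)⁻¹)
    (inv_entries (fun _ => one_ne_zero) h1') A,
    hn_diag (m := fun i => (l i)⁻¹) (inv_entries (fun i => (hl0 i).ne') h2) A, Complex.ofReal_re,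
    Complex.ofReal_re]
  refine mul_le_mul_of_nonneg_left (Finset.sum_le_sum fun κ _ =>
    mul_le_mul_of_nonneg_right ?_ (by positivity)) (by positivity)
  exact Finset.prod_le_prod (fun i _ => (inv_pos.2 (hl0 _)).le) fun i _ => inv_anti₀ one_pos (hl _)

theorem pd_scal (hc : 0 < c) : ((c : ℂ) • (1 : Matrix (Fin n) (Fin n) ℂ)).PosDef :=
  Matrix.PosDef.one.smul (by exact_mod_cast hc)

theorem hn_scal (hc : 0 < c) (A : Af n p) : hn ((c : ℂ) • (1 : Matrix (Fin n) (Fin n) ℂ)) A A =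
    (((p.factorial : ℝ)⁻¹ * c⁻¹ ^ p * ∑ κ, ‖ev A κ‖ ^ 2 : ℝ) : ℂ) := by
  have h1 : ((c : ℂ) • (1 : Matrix (Fin n) (Fin n) ℂ))⁻¹ = (c : ℂ)⁻¹ • 1 :=
    Matrix.inv_eq_right_inv (by
      rw [smul_mul_smul_comm, mul_inv_cancel₀ (by exact_mod_cast hc.ne'), mul_one, one_smul])
  rw [hn_diag (C := 1) (m := fun _ => c⁻¹) (fun s t => by
    rw [h1]
    by_cases h : s = t <;> simp [Matrix.one_apply, h, eq_comm]), mul_assoc, Finset.mul_sum _ _ (c⁻¹ ^ p)]
  congr 2
  refine Finset.sum_congr rfl fun κ _ => ?_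
  rw [Finset.prod_const, Finset.card_fin, cf_eq, ev]
  congr 4
  funext i a
  simp [Matrix.one_apply, Pi.single_apply]

theorem norm_le_sum (A : Af n p) : ‖A‖ ≤ ∑ s, ‖ev A s‖ := by
  refine A.opNorm_le_bound (by positivity) fun v => ?_
  have h : v = fun i => ∑ a, v i a • (Pi.single a 1 : Cm n) := by
    funext i b
    simp [Finset.sum_apply, Pi.single_apply]
  have h1 : A v = ∑ s : Fin p → Fin n, (∏ i, v i (s i)) * ev A s := by
    conv_lhs => rw [h]
    refine (A.toMultilinearMap.map_sum fun i a => v i a • (Pi.single a 1 : Cm n)).trans ?_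
    exact Finset.sum_congr rfl fun s _ => A.toMultilinearMap.map_smul_univ _ _
  rw [h1, Finset.sum_mul]
  refine (norm_sum_le _ _).trans (Finset.sum_le_sum fun s _ => ?_)
  rw [norm_mul, norm_prod, mul_comm]
  exact mul_le_mul_of_nonneg_left (Finset.prod_le_prod (fun _ _ => norm_nonneg _)
    fun i _ => norm_le_pi_norm _ _) (norm_nonneg _)

theorem hn_upper (n p : ℕ) (hc : 0 < c) : ∃ C : ℝ, 0 ≤ C ∧ ∀ (w : Matrix (Fin n) (Fin n) ℂ)
    (A : Af n p), (w - (c : ℂ) • 1).PosSemidef → (hn w A A).re ≤ C * ‖A‖ ^ 2 := by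
  refine ⟨(p.factorial : ℝ)⁻¹ * c⁻¹ ^ p * Fintype.card (Fin p → Fin n), by positivity,
    fun w A hw => (hn_anti (pd_scal hc) hw A).trans ?_⟩
  rw [hn_scal hc, Complex.ofReal_re, mul_assoc _ _ (‖A‖ ^ 2)]
  refine mul_le_mul_of_nonneg_left ?_ (by positivity)
  rw [← nsmul_eq_mul]
  exact Finset.sum_le_card_nsmul _ _ _ fun s _ =>
    pow_le_pow_left₀ (norm_nonneg _) (norm_ev_le A s) 2

theorem hn_lower (n p : ℕ) (hc : 0 < c) : ∃ C : ℝ, 0 ≤ C ∧ ∀ (w : Matrix (Fin n) (Fin n) ℂ)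
    (A : Af n p), w.PosDef → (w - (c : ℂ) • 1).PosSemidef →
    ‖A‖ ^ 2 ≤ C * (w.det.re * (hn w A A).re) := by
  refine ⟨Fintype.card (Fin p → Fin n) / (c ^ n * ((p.factorial : ℝ)⁻¹ * c⁻¹ ^ p)), by positivity,
    fun w A h0 hw => ?_⟩
  have h1 := (Complex.le_def.1 (vmono (pd_scal hc) hw A)).1
  rw [hn_scal hc, Matrix.det_smul, Matrix.det_one, mul_one, Fintype.card_fin, ← Complex.ofReal_pow,
    ← Complex.ofReal_mul, Complex.ofReal_re, Complex.mul_re, ← (Complex.lt_def.1 h0.det_pos).2,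
    Complex.zero_im, zero_mul, sub_zero, ← mul_assoc] at h1
  rw [div_mul_eq_mul_div, mul_div_assoc]
  refine (pow_le_pow_left₀ (norm_nonneg _) (norm_le_sum A) 2).trans
    (sq_sum_le_card_mul_sum_sq.trans (mul_le_mul_of_nonneg_left ?_ (by positivity)))
  rw [le_div_iff₀' (by positivity)]
  exact h1

theorem young {a u v s : ℝ} (hu : 0 ≤ u) (hv : 0 ≤ v) (hs : 0 < s) (h : a ^ 2 ≤ u * v) :
    a ≤ s⁻¹ * u + s * v := by
  refine le_of_sq_le_sq ?_ (by positivity)
  have e : s⁻¹ * u * (s * v) = u * v := by field_simp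
  nlinarith [sq_nonneg (s⁻¹ * u), sq_nonneg (s * v), mul_nonneg hu hv]

theorem tend_of {α : Type} {l : Filter α} {L N : α → ℝ≥0∞} {a I : ℝ≥0∞} (ha : a ≠ 0) (ha' : a ≠ ⊤)
    (hI : I ≠ ⊤) (h : ∀ s : ℝ≥0, 0 < s → ∀ k, a * L k ≤ (s⁻¹ : ℝ≥0) * N k + s * I)
    (hN : Tendsto N l (𝓝 0)) : Tendsto L l (𝓝 0) := by
  have h1 : Tendsto (fun k => a * L k) l (𝓝 0) := by
    refine ENNReal.tendsto_nhds_zero.2 fun ε hε => ?_
    obtain ⟨s, hs, h2⟩ := ENNReal.exists_nnreal_pos_mul_lt hI (ENNReal.half_pos hε.ne').ne'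
    have h3 := ENNReal.Tendsto.const_mul (a := ((s⁻¹ : ℝ≥0) : ℝ≥0∞)) hN (.inr ENNReal.coe_ne_top)
    rw [mul_zero] at h3
    filter_upwards [ENNReal.tendsto_nhds_zero.1 h3 _ (ENNReal.half_pos hε.ne')] with k hk
    exact (h s hs k).trans ((add_le_add hk h2.le).trans (ENNReal.add_halves ε).le)
  have h2 := ENNReal.Tendsto.const_mul (a := a⁻¹) h1 (.inr (ENNReal.inv_ne_top.2 ha))
  simpa only [mul_zero, ← mul_assoc, ENNReal.inv_mul_cancel ha ha', one_mul] using h2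

end alg

variable {n p : ℕ} {X : Type} [TopologicalSpace X] [ChartedSpace (Cm n) X]
  [IsManifold 𝓘(ℂ, Cm n) ω X] {Ω : Set X} {h w : Fm n X} {η : Fa n p X} {e : Chart n X} {x : X}

theorem nm_eq (hw : KahOn Ω w) (hη : FOn Ω η) (he : At e x) (hx : x ∈ Ω) :
    nm w η x = (hn (w e (e x)) (η e (e x)) (η e (e x))).re := by
  have h0 := at_self (n := n) x
  have h1 : jacM e (chartAt (Cm n) x) x = _ := jmat_fd (transition_differentiableAt he h0)
  have h2 := jacM_det_ne_zero he h0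
  rw [h1, LinearMap.det_toMatrix'] at h2
  rw [hw.change e _ x he h0 hx, hη.chg e _ x he h0 hx, h1,
    Vale.Agent.P284.H752.k1Stmt.pull n p _ _ (hw.posDef _ x h0 hx)
      (LinearMap.equivOfDetNeZero _ h2).bijective]
  rfl

omit [IsManifold 𝓘(ℂ, Cm n) ω X] in
theorem nm_nonneg (hw : KahOn Ω w) (η : Fa n p X) (hx : x ∈ Ω) : 0 ≤ nm w η x :=
  hn_nonneg (hw.posDef _ x (at_self x) hx) _

omit [IsManifold 𝓘(ℂ, Cm n) ω X] in
theorem det_cont (hh : IsHermitian h) (he : At e x) :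
    ContinuousAt (fun y => (h e (e y)).det.re) x :=
  (Complex.continuous_re.continuousAt.comp (Vale.Agent.P272.K.INT.contDiffAt_det (k := ∞)
    (hh.smooth e x he)).continuousAt).comp (f := e) (e.continuousAt he.2)

variable [MeasurableSpace X] [BorelSpace X] {μ : Measure X}

omit [IsManifold 𝓘(ℂ, Cm n) ω X] in
theorem transfer (hμ : IsVol h μ) (he : e ∈ atlas (Cm n) X) {O : Set X} (hO : MeasurableSet O)
    (hs : O ⊆ e.source) (hT : MeasurableSet (e.target ∩ e.symm ⁻¹' O)) {F : Cm n → ℝ≥0∞}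
    (hF : ContinuousOn (fun y => F (e y)) O) {a : ℝ} (ha : ∀ y ∈ O, a ≤ (h e (e y)).det.re) :
    ENNReal.ofReal a * ∫⁻ z in e.target ∩ e.symm ⁻¹' O, F z ≤ ∫⁻ y in O, F (e y) ∂μ := by
  classical
  have h1 : Measurable (O.indicator fun y => F (e y)) := by
    rw [← piecewise_eq_indicator]
    exact hF.measurable_piecewise continuousOn_const hO
  rw [← lintegral_indicator hO, hμ e he _ h1 fun y hy => indicator_of_notMem (fun k => hy (hs k)) _,
    ← lintegral_const_mul' _ _ ENNReal.ofReal_ne_top]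
  refine (setLIntegral_mono' hT fun z hz => ?_).trans (lintegral_mono_set inter_subset_left)
  have h2 := ha _ hz.2
  rw [e.right_inv hz.1] at h2
  rw [indicator_of_mem (show e.symm z ∈ O from hz.2), e.right_inv hz.1, mul_comm]
  exact mul_le_mul' le_rfl (ENNReal.ofReal_le_ofReal h2)

theorem loc_of (hh : IsHermitian h) (hμ : IsVol h μ) {U : Set X} (hU : IsOpen U) (hΩ : IsOpen Ω)
    (hw : KahOn Ω w) (h0 : μ (U \ Ω) = 0) (he : At e x) (hx : x ∈ U) {c : ℝ} (hc : 0 < c)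
    (low : ∀ᶠ y in 𝓝 x, y ∈ Ω → (w e (e y) - (c : ℂ) • 1).PosSemidef) {Φ Θ : X → ℝ}
    (h1 : ∀ y ∈ Ω, 0 ≤ Φ y ∧ 0 ≤ Θ y ∧ rat h w y = Φ y * Θ y) (h2 : ContinuousOn Θ Ω)
    {V : Set X} (hV : V ∈ 𝓝 x) (h3 : ∫⁻ y in V ∩ Ω, ENNReal.ofReal (Θ y) ∂μ ≠ ⊤)
    {α : Type} {l : Filter α} {g : α → Fa n p X} (hg : ∀ k, FOn Ω (g k))
    (h4 : Tendsto (fun k => NN μ Ω w Φ (g k)) l (𝓝 0)) :
    ∃ S ∈ 𝓝 (e x), Tendsto (fun k => l1 S (g k e)) l (𝓝 0) := by
  obtain ⟨C, hC, hC'⟩ := hn_lower n p hc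
  set d := (h e (e x)).det.re
  have hd : 0 < d := det_pos (hh.posDef e x he)
  obtain ⟨O, k1, k2, k3⟩ := eventually_nhds_iff.1 (low.and ((ev_at he).and
    (((det_cont hh he).eventually (Ioo_mem_nhds (half_lt_self hd) (lt_add_one d))).and
      (inter_mem hV (hU.mem_nhds hx)))))
  have k4 : O ⊆ e.source := fun y hy => (k1 y hy).2.1.2
  have m1 := (e.isOpen_inter_preimage_symm k2).measurableSet
  have m2 := (e.isOpen_inter_preimage_symm (k2.inter hΩ)).measurableSet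
  have e1 : e.target ∩ e.symm ⁻¹' (O \ Ω) =
      (e.target ∩ e.symm ⁻¹' O) \ (e.target ∩ e.symm ⁻¹' (O ∩ Ω)) := by
    ext z
    simp only [mem_inter_iff, mem_preimage, Set.mem_sdiff]
    tauto
  have a0 : ENNReal.ofReal (d / 2) ≠ 0 := (ENNReal.ofReal_pos.2 (half_pos hd)).ne'
  have n1 : volume (e.target ∩ e.symm ⁻¹' (O \ Ω)) = 0 := by
    have := transfer hμ he.1 (k2.measurableSet.diff hΩ.measurableSet) (sdiff_subset.trans k4)
      (e1 ▸ m1.diff m2) (F := fun _ => 1) continuousOn_const fun y hy => (k1 y hy.1).2.2.1.1.le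
    rw [setLIntegral_one, setLIntegral_one,
      measure_mono_null (sdiff_subset_sdiff_left fun y hy => (k1 y hy).2.2.2.2) h0] at this
    exact (mul_eq_zero.1 (le_zero_iff.1 this)).resolve_left a0
  refine ⟨e.target ∩ e.symm ⁻¹' O, (e.isOpen_inter_preimage_symm k2).mem_nhds
    ⟨e.map_source he.2, by rwa [mem_preimage, e.left_inv he.2]⟩,
    tend_of (I := ∫⁻ y in O ∩ Ω, ENNReal.ofReal (C * (d + 1) * Θ y) ∂μ) a0 ENNReal.ofReal_ne_top
      ?_ (fun s hs k => ?_) h4⟩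
  · simp only [ENNReal.ofReal_mul (show 0 ≤ C * (d + 1) by positivity)]
    rw [lintegral_const_mul' _ _ ENNReal.ofReal_ne_top]
    exact ENNReal.mul_ne_top ENNReal.ofReal_ne_top (ne_top_of_le_ne_top h3
      (lintegral_mono_set (inter_subset_inter_left _ fun y hy => (k1 y hy).2.2.2.1)))
  · have e2 : l1 (e.target ∩ e.symm ⁻¹' O) (g k e) = l1 (e.target ∩ e.symm ⁻¹' (O ∩ Ω)) (g k e) :=
      setLIntegral_congr (ae_eq_set.2 ⟨e1 ▸ n1, by
        rw [sdiff_eq_empty.2 (inter_subset_inter_right _ (preimage_mono inter_subset_left)),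
          measure_empty]⟩)
    have mO := (k2.inter hΩ).measurableSet
    rw [e2]
    refine (transfer hμ he.1 mO (inter_subset_left.trans k4) m2 (fun y hy =>
      (((hg k).sm e y (k1 y hy.1).2.1 hy.2).continuousAt.comp (f := e)
        (e.continuousAt (k4 hy.1))).enorm.continuousWithinAt)
      fun y hy => (k1 y hy.1).2.2.1.1.le).trans ?_
    refine le_trans ?_ (add_le_add_left (mul_le_mul' le_rfl
      (lintegral_mono_set (inter_subset_right (s := O)))) _)
    have m3 : AEMeasurable (fun y => C * (d + 1) * Θ y) (μ.restrict (O ∩ Ω)) :=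
      ((h2.mono inter_subset_right).aemeasurable mO).const_mul _
    rw [← lintegral_const_mul' _ _ ENNReal.coe_ne_top, ← lintegral_const_mul' _ _ ENNReal.coe_ne_top,
      ← lintegral_add_right' _ (m3.ennreal_ofReal.const_mul _)]
    refine setLIntegral_mono' mO fun y hy => ?_
    obtain ⟨b1, b2, b3, -⟩ := k1 y hy.1
    obtain ⟨c1, c2, c3⟩ := h1 y hy.2
    have c4 := nm_nonneg hw (g k) hy.2
    have c5 := hC' _ (g k e (e y)) (hw.posDef e y b2 hy.2) (b1 hy.2)
    have c6 := det_pos (hh.posDef e y b2)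
    rw [rat_eq hh hw b2 hy.2, div_eq_iff c6.ne'] at c3
    rw [← nm_eq hw (hg k) b2 hy.2, c3] at c5
    rw [← ofReal_norm, ← ENNReal.ofReal_coe_nnreal, ← ENNReal.ofReal_coe_nnreal,
      ← ENNReal.ofReal_mul (by positivity), ← ENNReal.ofReal_mul (by positivity),
      ← ENNReal.ofReal_add (by positivity) (by positivity)]
    refine ENNReal.ofReal_le_ofReal (young (by positivity) (by positivity) hs (c5.trans ?_))
    calc _ = Φ y * nm w (g k) y * (C * (h e (e y)).det.re * Θ y) := by ring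
      _ ≤ _ := by gcongr; exact b3.2.le

end LocAux

open LocAux

theorem fini : StFini := by
  intro X _ _ _ _ _ _ h μ hh hμ C V p f Φ hV hf hΦ hI
  have hΩ : C.Ω ⊆ C.K := C.sub.trans C.subK
  have key : ∫⁻ x in C.K ∩ C.Ω, ENNReal.ofReal (Φ x * nm C.w f x) ∂μ ≠ ⊤ := by
    refine C.cpt.induction_on (p := fun s => ∫⁻ x in s ∩ C.Ω, ENNReal.ofReal (Φ x * nm C.w f x) ∂μ ≠ ⊤)
      (by simp) (fun s t hst ht => ne_top_of_le_ne_top ht
        (lintegral_mono_set (inter_subset_inter_left _ hst))) (fun s t hs ht => ?_) fun x hx => ?_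
    · rw [union_inter_distrib_right]
      exact ne_top_of_le_ne_top (ENNReal.add_ne_top.2 ⟨hs, ht⟩) (lintegral_union_le _ _ _)
    · have he := at_self (n := 4) x
      generalize chartAt (Cm 4) x = e at he
      obtain ⟨c, hc, low⟩ := C.low x hx e he
      obtain ⟨B, hB, hB'⟩ := hn_upper 4 p hc
      obtain ⟨V', hV', h3⟩ := hI x hx
      have h4 : ContinuousAt (fun y => ‖f e (e y)‖) x :=
        ((hf.sm e x he (hV hx)).continuousAt.comp (f := e) (e.continuousAt he.2)).norm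
      obtain ⟨O, k1, k2, k3⟩ := eventually_nhds_iff.1 (low.and ((ev_at he).and
        ((h4.eventually (gt_mem_nhds (lt_add_one _))).and hV')))
      refine ⟨O, mem_nhdsWithin_of_mem_nhds (k2.mem_nhds k3), ne_top_of_le_ne_top ?_
        (setLIntegral_mono' (g := fun y => ENNReal.ofReal (B * (‖f e (e x)‖ + 1) ^ 2) *
          ENNReal.ofReal (Φ y)) (k2.inter C.opΩ).measurableSet fun y hy => ?_)⟩
      · rw [lintegral_const_mul' _ _ ENNReal.ofReal_ne_top]
        exact ENNReal.mul_ne_top ENNReal.ofReal_ne_top (ne_top_of_le_ne_top h3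
          (lintegral_mono_set (inter_subset_inter_left _ fun y hy => (k1 y hy).2.2.2)))
      · obtain ⟨b1, b2, b3, -⟩ := k1 y hy.1
        rw [← ENNReal.ofReal_mul (by positivity), mul_comm (Φ y),
          nm_eq C.kah (hf.mono (hΩ.trans hV)) b2 hy.2]
        refine ENNReal.ofReal_le_ofReal (mul_le_mul_of_nonneg_right
          ((hB' _ _ (b1 hy.2)).trans ?_) (hΦ y hy.2))
        gcongr
  rwa [inter_eq_right.2 hΩ] at key

theorem loc : StLoc := by
  intro X _ _ _ _ _ _ h μ hh hμ C p α l g hg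
  refine ⟨fun h4 e x he hx => ?_, fun h4 e x he hx => ?_⟩
  · obtain ⟨c, hc, low⟩ := C.low x (C.subK hx) e he
    obtain ⟨V, hV, h3⟩ := C.inv x hx
    refine loc_of hh hμ C.opU C.opΩ C.kah C.null he hx hc low (Θ := fun y => Real.exp (-C.φ y))
      (fun y hy => ⟨?_, (Real.exp_pos _).le, ?_⟩) (fun y hy => (C.smφ.contAt hy).neg.rexp.continuousWithinAt) hV h3 hg h4
    · exact mul_nonneg (Real.exp_pos _).le (rat_pos hh C.kah hy).le
    · rw [mul_right_comm, ← Real.exp_add, add_neg_cancel, Real.exp_zero, one_mul]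
  · obtain ⟨c, hc, low⟩ := C.low x (C.subK (C.sub hx)) e he
    have h2 : ContinuousOn (fun y => Real.exp (C.Ψ y) * rat h C.w y) C.Ω :=
      ContinuousOn.mul (fun y hy => (C.smΨ.contAt hy).rexp.continuousWithinAt)
        (rat_cont hh C.kah C.opΩ)
    have := ChartedSpace.locallyCompactSpace (Cm 4) X
    obtain ⟨V, hV, h5, h6⟩ := local_compact_nhds (C.opΩ.mem_nhds hx)
    refine loc_of hh hμ C.opU C.opΩ C.kah C.null he (C.sub hx) hc low
      (fun y hy => ⟨(Real.exp_pos _).le, ?_, ?_⟩) h2 hV (Van.lint_cpt hμ hh h6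
        (h6.measurableSet.inter C.opΩ.measurableSet) inter_subset_left (h2.mono h5)) hg h4
    · exact mul_nonneg (Real.exp_pos _).le (rat_pos hh C.kah hy).le
    · rw [← mul_assoc, ← Real.exp_add, neg_add_cancel, Real.exp_zero, one_mul]

end Vale.Agent.P277Z.R2
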