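import Vale.Agent.P277Z.R2.PreA

/-!
# P277Z, block R2: the normalised data
-/

set_option linter.unusedSectionVars false

open scoped Manifold ContDiff Topology ComplexConjugate ComplexOrder ENNReal
open Set Filter MeasureTheory Metric Asymptotics
open Vale.Agent.P272.K
open Vale.Agent.P285.H281.FD (Bd)
open Vale.Agent.P301.H599 (Fm ddc atChart)
open Vale.Agent.P285Z (kc)
open Vale.Agent.P277Z.Van (SmOn IsVol ev_sym)
open Vale.Agent.P277Z.Ln

noncomputable section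

namespace Vale.Agent.P277Z.R2

namespace PreH

variable {n : ℕ} {X : Type} [TopologicalSpace X] [ChartedSpace (Cm n) X] {e : Chart n X} {x y : X}

/-- the local form of the weight -/
structure Q (E : Set X) (ψ : X → ℝ) (z : Fin n → X → ℂ) (c : Fin n → ℝ) (φ : X → ℝ) (y : X) :
    Prop where
  hol : ∀ j, Hol n (z j) y
  psh : Spsh n φ y
  mem : y ∈ E ↔ ∃ j, c j ≠ 0 ∧ z j y = 0
  eq : y ∉ E → ψ y = ∑ j, c j * Real.log (‖z j y‖ ^ 2) + φ y

variable {E : Set X} {ψ : X → ℝ} {z : Fin n → X → ℂ} {c : Fin n → ℝ} {φ : X → ℝ}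

theorem Q.ne (q : Q E ψ z c φ y) (hE : y ∉ E) {j : Fin n} (hj : c j ≠ 0) : z j y ≠ 0 :=
  fun h => hE (q.mem.2 ⟨j, hj, h⟩)

theorem Q.scale (q : Q E ψ z c φ y) {ε : ℝ} (hε : 0 < ε) (L : ℝ) :
    Q E (fun y => ε * (ψ y - L)) z (fun j => ε * c j) (fun y => ε * (φ y - L)) y where
  hol := q.hol
  psh e he := by
    obtain ⟨h1, h2⟩ := q.psh e he
    have h3 : ContDiffAt ℝ 2 (fun w => φ (e.symm w)) (e y) := h1.of_le (by norm_cast)
    refine ⟨contDiffAt_const.mul (h1.sub contDiffAt_const), ?_⟩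
    rw [C2.cHess_const_mul ε (h3.sub contDiffAt_const), C2.cHess_sub h3 contDiffAt_const,
      C2.cHess_const, sub_zero]
    exact h2.smul (Complex.zero_lt_real.2 hε)
  mem := by simpa [hε.ne'] using q.mem
  eq h := by
    simp only [q.eq h, mul_assoc, ← Finset.mul_sum]
    ring

theorem Q.exp (q : Q E ψ z c φ y) (hE : y ∉ E) (s : ℝ) :
    Real.exp (s * ψ y) = (∏ j, (‖z j y‖ ^ 2) ^ (s * c j)) * Real.exp (s * φ y) := by
  rw [q.eq hE, mul_add, Real.exp_add, Finset.mul_sum, Real.exp_sum]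
  refine congrArg (· * _) (Finset.prod_congr rfl fun j _ => ?_)
  by_cases hj : c j = 0
  · simp [hj]
  · rw [Real.rpow_def_of_pos (pow_pos (norm_pos_iff.2 (q.ne hE hj)) 2)]
    congr 1
    ring

theorem Q.tm (q : Q E ψ z c φ x) (hE : x ∉ E) (hx : At e x) (j : Fin n) :
    ContDiffAt ℝ ∞ (fun w => c j * Real.log (‖z j (e.symm w)‖ ^ 2)) (e x) ∧
    cHess (fun w => c j * Real.log (‖z j (e.symm w)‖ ^ 2)) (e x) = 0 ∧
    ∀ k, dz k (fun w => ((c j * Real.log (‖z j (e.symm w)‖ ^ 2) : ℝ) : ℂ)) (e x) =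
      c j * (dz k (fun w => z j (e.symm w)) (e x) / z j x) := by
  by_cases hj : c j = 0
  · simp only [hj, zero_mul, Complex.ofReal_zero]
    exact ⟨contDiffAt_const, C2.cHess_const 0, fun k => C2.dz_const k 0⟩
  · have a := q.hol j e hx
    have h0 : z j (e.symm (e x)) ≠ 0 := by rw [hx.left_inv]; exact q.ne hE hj
    have s : ContDiffAt ℝ ∞ (fun w => Real.log (‖z j (e.symm w)‖ ^ 2)) (e x) :=
      (((a.contDiffAt (n := ∞)).restrict_scalars ℝ).norm_sq ℝ).log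
        (pow_ne_zero 2 (norm_ne_zero_iff.2 h0))
    refine ⟨contDiffAt_const.mul s, ?_, fun k => ?_⟩
    · rw [C2.cHess_const_mul _ (s.of_le (by norm_cast)), cHess_log_norm_sq a.contDiffAt h0,
        smul_zero]
    · simp only [Complex.ofReal_mul]
      rw [C2.dz_const_mul k _ (C2.differentiableAt_ofReal (s.differentiableAt (by simp))),
        dz_log a h0, hx.left_inv]

open Classical in
/-- the exponential of the weight -/
def ex (E : Set X) (ψ : X → ℝ) (y : X) : ℝ := if y ∈ E then 0 else Real.exp (ψ y)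

theorem ex_le {δ : ℝ} (hδ : 0 < δ) : ex E ψ y ≤ δ ↔ y ∈ E ∨ ψ y ≤ Real.log δ := by
  unfold ex
  split_ifs with h
  · exact iff_of_true hδ.le (Or.inl h)
  · rw [Real.le_log_iff_exp_le hδ, or_iff_right h]

theorem pw_cont (q : Q E ψ z c φ x) (c0 : ∀ j, 0 ≤ c j) (s : Finset (Fin n)) :
    ContinuousAt (fun y => (∏ j ∈ s, (‖z j y‖ ^ 2) ^ c j) * Real.exp (φ y)) x :=
  ContinuousAt.mul (tendsto_finsetProd s fun j _ =>
    ((hol_cont (q.hol j)).norm.pow 2).rpow_const (Or.inr (c0 j))) (psh_cont q.psh).rexp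

variable (H : ∀ᶠ y in 𝓝 x, Q E ψ z c φ y)
include H

theorem opn (hE : x ∉ E) : ∀ᶠ y in 𝓝 x, y ∉ E := by
  have h1 : ∀ j, ∀ᶠ y in 𝓝 x, c j ≠ 0 → z j y ≠ 0 := fun j => by
    by_cases hj : c j = 0
    · exact .of_forall fun _ h => absurd hj h
    · exact ((hol_cont (H.self_of_nhds.hol j)).eventually_ne (H.self_of_nhds.ne hE hj)).mono
        fun _ h _ => h
  filter_upwards [H, eventually_all.2 h1] with y q h2 h3
  obtain ⟨j, h4, h5⟩ := q.mem.1 h3
  exact h2 j h4 h5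

theorem psi_ev (hE : x ∉ E) (hx : At e x) : (fun w => ψ (e.symm w)) =ᶠ[𝓝 (e x)]
    fun w => ∑ j, c j * Real.log (‖z j (e.symm w)‖ ^ 2) + φ (e.symm w) :=
  (ev_sym hx (H.and (opn H hE))).mono fun _ h => h.1.eq h.2

theorem psi_sm (hE : x ∉ E) (hx : At e x) : ContDiffAt ℝ ∞ (fun w => ψ (e.symm w)) (e x) :=
  ((ContDiffAt.sum fun j _ => (H.self_of_nhds.tm hE hx j).1).add
    (H.self_of_nhds.psh e hx).1).congr_of_eventuallyEq (psi_ev H hE hx)

theorem psi_hess (hE : x ∉ E) (hx : At e x) : ddc ψ e (e x) = ddc φ e (e x) := by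
  have t := H.self_of_nhds.tm hE hx
  have h1 := fun j (_ : j ∈ Finset.univ) => (t j).1.of_le (m := 2) (by norm_cast)
  refine (C2.cHess_congr (psi_ev H hE hx)).trans ?_
  rw [C2.cHess_add (ContDiffAt.sum h1) ((H.self_of_nhds.psh e hx).1.of_le (by norm_cast)),
    cHess_sum _ h1, Finset.sum_eq_zero fun j _ => (t j).2.1, zero_add]
  rfl

theorem psi_dz (hE : x ∉ E) (hx : At e x) (k : Fin n) : dv ψ e x k =
    ∑ j, c j * (dz k (fun w => z j (e.symm w)) (e x) / z j x) + dv φ e x k := by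
  have t := H.self_of_nhds.tm hE hx
  have h1 := fun j (_ : j ∈ Finset.univ) =>
    C2.differentiableAt_ofReal ((t j).1.differentiableAt (by simp))
  refine (C2.dz_congr k (g := fun w => ∑ j, ((c j * Real.log (‖z j (e.symm w)‖ ^ 2) : ℝ) : ℂ) +
    (φ (e.symm w) : ℂ)) ((psi_ev H hE hx).mono fun w hw => ?_)).trans ?_
  · beta_reduce at hw ⊢
    rw [hw, Complex.ofReal_add, Complex.ofReal_sum]
  · rw [C2.dz_add k (DifferentiableAt.fun_sum h1) (C2.differentiableAt_ofReal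
      ((H.self_of_nhds.psh e hx).1.differentiableAt (by simp))), C2.dz_sum k _ h1,
      Finset.sum_congr rfl fun j _ => (t j).2.2 k]
    rfl

theorem hess (hx : At e x) : ∃ a C : ℝ, 0 < a ∧ ∀ᶠ y in 𝓝 x, y ∉ E →
    (ddc ψ e (e y) - (a : ℂ) • (1 : Matrix (Fin n) (Fin n) ℂ)).PosSemidef ∧
    ((C : ℂ) • (1 : Matrix (Fin n) (Fin n) ℂ) - ddc ψ e (e y)).PosSemidef := by
  obtain ⟨a, C, ha, h⟩ := mat_bd (M := ddc φ e) (z := e x) (by
    filter_upwards [ev_sym hx H, hx.nhds_target] with w q hw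
    have := q.psh e (At.of_target hx.1 hw)
    rw [e.right_inv hw] at this
    exact ⟨this.2, fun i j => (INT.smooth_cHess this.1 i j).continuousAt⟩)
  refine ⟨a, C, ha, ?_⟩
  filter_upwards [ev_pt hx h, ev_at hx, H.eventually_nhds] with y h1 h2 h3 hE
  rwa [psi_hess h3 hE h2]

theorem ex_cont (c0 : ∀ j, 0 ≤ c j) : ContinuousAt (ex E ψ) x := by
  refine (pw_cont H.self_of_nhds c0 Finset.univ).congr (H.mono fun y q => ?_)
  unfold ex
  split_ifs with h
  · obtain ⟨j, h1, h2⟩ := q.mem.1 h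
    beta_reduce
    rw [Finset.prod_eq_zero (Finset.mem_univ j) (by simp [h2, h1]), zero_mul]
  · simpa using (q.exp h 1).symm

theorem lim (c0 : ∀ j, 0 ≤ c j) (hE : x ∈ E) (a : ℝ) : ∀ᶠ y in 𝓝 x, y ∈ E ∨ ψ y ≤ a := by
  filter_upwards [(ex_cont H c0).eventually (gt_mem_nhds (show ex E ψ x < Real.exp a by
    rw [ex, if_pos hE]; exact Real.exp_pos a))] with y hy
  simpa using (ex_le (Real.exp_pos a)).1 hy.le

theorem big1 [NeZero n] : (fun y => Real.exp (-2 * ψ y)) =O[𝓝[Eᶜ] x]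
    fun y => ∑ j, (‖z j y‖ ^ 2) ^ (-(2 * c j * n)) := by
  have h1 : (fun y => ∏ j, (‖z j y‖ ^ 2) ^ (-2 * c j)) =O[𝓝[Eᶜ] x]
      fun y => ∑ j, (‖z j y‖ ^ 2) ^ (-(2 * c j * n)) := isBigO_of_le _ fun y => by
    rw [Real.norm_of_nonneg (by positivity), Real.norm_of_nonneg (by positivity)]
    refine (prod_le _ fun j => by positivity).trans (Finset.sum_congr rfl fun j _ => ?_).le
    rw [Fintype.card_fin, ← Real.rpow_mul_natCast (by positivity)]
    congr 1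
    ring
  refine (h1.mul (bdd (f := fun y => Real.exp (-2 * φ y))
    (continuousAt_const.mul (psh_cont H.self_of_nhds.psh)).rexp Eᶜ)).congr' ?_
    (.of_forall fun _ => mul_one _)
  filter_upwards [nhdsWithin_le_nhds H, self_mem_nhdsWithin] with y q hy using (q.exp hy (-2)).symm

theorem big2 (c0 : ∀ j, 0 ≤ c j) (hx : At e x) :
    (fun y => Real.exp (ψ y) * ∑ k, ‖dv ψ e y k‖ ^ 2) =O[𝓝[Eᶜ] x]
      fun y => ∑ j, (‖z j y‖ ^ 2) ^ (-(if c j = 0 then 0 else 1 - c j)) + 1 := by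
  classical
  have q0 := H.self_of_nhds
  have p0 : ∀ y, 0 ≤ ∑ j, (‖z j y‖ ^ 2) ^ (-(if c j = 0 then 0 else 1 - c j)) := fun y => by
    positivity
  have e1 : ∀ᶠ y in 𝓝[Eᶜ] x, y ∉ E ∧ At e y ∧ ∀ᶠ y' in 𝓝 y, Q E ψ z c φ y' :=
    Eventually.and self_mem_nhdsWithin (nhdsWithin_le_nhds ((ev_at hx).and H.eventually_nhds))
  have d1 : ∀ {f : Cm n → ℂ}, ContDiffAt ℝ ∞ f (e x) → ∀ k, ContinuousAt (fun y => dz k f (e y)) x :=
    fun hf k => (C2.contDiffAt_dz k (m := 0) hf (by norm_cast)).continuousAt.comp (e.continuousAt hx.2)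
  simp only [Finset.mul_sum]
  refine IsBigO.fun_sum fun k _ => IsBigO.congr' (sq_add (fun y => (Real.exp_pos (ψ y)).le)
    (sq_sum (fun y => (Real.exp_pos (ψ y)).le) Finset.univ
      (f := fun j y => c j * (dz k (fun w => z j (e.symm w)) (e y) / z j y)) fun j => ?_)
    (g := fun y => dv φ e y k) ?_) (e1.mono fun y hy => ?_) EventuallyEq.rfl
  · by_cases hj : c j = 0
    · simpa [hj] using isBigO_zero (E' := ℝ) _ _
    · have h1 : (fun y => (‖z j y‖ ^ 2) ^ (-(1 - c j))) =O[𝓝[Eᶜ] x]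
          fun y => ∑ j, (‖z j y‖ ^ 2) ^ (-(if c j = 0 then 0 else 1 - c j)) + 1 :=
        isBigO_of_le _ fun y => by
          rw [Real.norm_of_nonneg (by positivity), Real.norm_of_nonneg (by linarith [p0 y])]
          have := Finset.single_le_sum (f := fun j => (‖z j y‖ ^ 2) ^
            (-(if c j = 0 then 0 else 1 - c j))) (fun _ _ => by positivity) (Finset.mem_univ j)
          rw [if_neg hj] at this
          linarith
      refine (h1.mul (bdd ((pw_cont q0 c0 (Finset.univ.erase j)).mul (((continuousAt_const (y := (c j : ℂ))).mul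
        (d1 (((q0.hol j e hx).contDiffAt (n := ∞)).restrict_scalars ℝ) k)).norm.pow 2)) Eᶜ)).congr'
        (e1.mono fun y hy => ?_) (.of_forall fun _ => mul_one _)
      have h2 := hy.2.2.self_of_nhds.exp hy.1 1
      have h3 := pow_pos (norm_pos_iff.2 (hy.2.2.self_of_nhds.ne hy.1 hj)) 2
      simp only [one_mul] at h2
      simp only [Pi.mul_apply, Pi.pow_apply]
      rw [h2, ← Finset.mul_prod_erase _ _ (Finset.mem_univ j), neg_sub, Real.rpow_sub_one h3.ne',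
        ← mul_div_assoc, norm_div, div_pow]
      ring
  · refine ((bdd ((pw_cont q0 c0 Finset.univ).mul ((d1 (C2.contDiffAt_ofReal (q0.psh e hx).1)
      k).norm.pow 2)) Eᶜ).congr' (e1.mono fun y hy => ?_) EventuallyEq.rfl).trans
      (isBigO_of_le _ fun y => ?_)
    · have h2 := hy.2.2.self_of_nhds.exp hy.1 1
      simp only [one_mul] at h2
      simp only [Pi.mul_apply, Pi.pow_apply]
      rw [h2]
      rfl
    · rw [norm_one, Real.norm_of_nonneg (by linarith [p0 y])]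
      linarith [p0 y]
  · beta_reduce
    rw [psi_dz hy.2.2 hy.1 hy.2.1]

omit H

variable (n) in
/-- local data with exponents bounded by `B` -/
def Lc (E : Set X) (ψ : X → ℝ) (B : ℝ) (x : X) : Prop :=
  ∃ (e : Chart n X) (z : Fin n → X → ℂ) (c : Fin n → ℝ) (φ : X → ℝ), At e x ∧
    (∀ j, fderiv ℂ (fun w => z j (e.symm w)) (e x) ≠ 0) ∧ (∀ j, 0 ≤ c j ∧ c j ≤ B) ∧
    ∀ᶠ y in 𝓝 x, Q E ψ z c φ y

theorem Lc.mono {B B' : ℝ} (h : Lc n E ψ B x) (hB : B ≤ B') : Lc n E ψ B' x :=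
  let ⟨e, z, c, φ, h1, h2, h3, h4⟩ := h
  ⟨e, z, c, φ, h1, h2, fun j => ⟨(h3 j).1, (h3 j).2.trans hB⟩, h4⟩

theorem Lc.scale {B : ℝ} (h : Lc n E ψ B x) {ε : ℝ} (hε : 0 < ε) (L : ℝ) :
    Lc n E (fun y => ε * (ψ y - L)) (ε * B) x :=
  let ⟨e, z, c, _, h1, h2, h3, h4⟩ := h
  ⟨e, z, fun j => ε * c j, _, h1, h2, fun j => ⟨mul_nonneg hε.le (h3 j).1,
    mul_le_mul_of_nonneg_left (h3 j).2 hε.le⟩, h4.mono fun _ q => q.scale hε L⟩

theorem lc_near {N : ℕ} {G : Geo 4 N} (R : RData G) :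
    ∃ B : ℝ, 0 < B ∧ ∀ᶠ y in 𝓝ˢ G.F, Lc 4 R.E R.ψ B y := by
  refine G.cpt.induction_on (p := fun S => ∃ B : ℝ, 0 < B ∧ ∀ᶠ y in 𝓝ˢ S, Lc 4 R.E R.ψ B y)
    ⟨1, one_pos, by simp⟩ (fun S T h ⟨B, h1, h2⟩ => ⟨B, h1, nhdsSet_mono h h2⟩)
    (fun S T ⟨B, h1, h2⟩ ⟨B', _, h3⟩ => ⟨max B B', lt_max_of_lt_left h1, Eventually.union_nhdsSet.2
      ⟨h2.mono fun _ k => k.mono (le_max_left _ _), h3.mono fun _ k => k.mono (le_max_right _ _)⟩⟩)
    fun x hx => ?_
  obtain ⟨z, c, φ, h1, h2, h3, h4⟩ := R.loc x hx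
  have hx := atChart (d := 4) x
  have h5 : ∀ᶠ y in 𝓝 x, Q R.E R.ψ z c φ y := by
    filter_upwards [eventually_all.2 fun j => (h1 j).near, h4] with y k1 k2
      using ⟨k1, k2.1, k2.2.1, k2.2.2⟩
  have h6 := eventually_all.2 fun j => ev_pt hx ((h1 j _ hx).fderiv.continuousAt.eventually_ne
    (fderiv_ne h1 hx (h2 _ hx) j))
  obtain ⟨U, h7, h8, h9⟩ := _root_.eventually_nhds_iff.1 (h5.eventually_nhds.and (h6.and (ev_at hx)))
  have h10 := Finset.sum_nonneg fun j (_ : j ∈ Finset.univ) => h3 j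
  refine ⟨U, mem_nhdsWithin_of_mem_nhds (h8.mem_nhds h9), ∑ j, c j + 1, by linarith,
    mem_of_superset (h8.mem_nhdsSet_self) fun y hy => ⟨_, z, c, φ, (h7 y hy).2.2, (h7 y hy).2.1,
      fun j => ⟨h3 j, ?_⟩, (h7 y hy).1⟩⟩
  linarith [Finset.single_le_sum (fun j _ => h3 j) (Finset.mem_univ j)]

section flat

variable [IsManifold 𝓘(ℂ, Cm n) ω X] {h : Fm n X} {m : ℕ} {η : Chart n X → X → ℂ}

/-- the weight of the flat volume form -/
def fw (h : Fm n X) (m : ℕ) (η : Chart n X → X → ℂ) (y : X) : ℝ :=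
  Real.log (h (chartAt (Cm n) y) (chartAt (Cm n) y y)).det.re -
    (m : ℝ)⁻¹ * Real.log (‖η (chartAt (Cm n) y) y‖ ^ 2)

variable (n) in
/-- `η` is a section of `m K` at `y` without zero off `E` -/
def Sc (E : Set X) (m : ℕ) (η : Chart n X → X → ℂ) (y : X) : Prop :=
  (∀ e, At e y → Hol n (η e) y ∧ ∀ e', At e' y → η e y = (jacM e e' y).det ^ m * η e' y) ∧
    (y ∉ E → ∀ e, At e y → η e y ≠ 0)

theorem det_pos (hh : IsHermitian h) (hx : At e x) : 0 < (h e (e x)).det.re :=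
  (Complex.lt_def.1 (hh.posDef e x hx).det_pos).1

theorem fw_eq (hh : IsHermitian h) (hm : 1 ≤ m) (s : Sc n E m η y) (hE : y ∉ E) (hy : At e y) :
    fw h m η y = Real.log (h e (e y)).det.re - (m : ℝ)⁻¹ * Real.log (‖η e y‖ ^ 2) := by
  have h1 := atChart (d := n) y
  have h2 := pow_pos (norm_pos_iff.2 (jacM_det_ne_zero h1 hy)) 2
  have h3 := pow_pos (norm_pos_iff.2 (s.2 hE e hy)) 2
  have h4 : (m : ℝ) ≠ 0 := Nat.cast_ne_zero.2 (by omega)
  rw [fw, det_form_re hh.isForm h1 hy, (s.1 _ h1).2 e hy, norm_mul, norm_pow, mul_pow,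
    pow_right_comm, Real.log_mul h2.ne' (det_pos hh hy).ne', Real.log_mul (pow_pos h2 m).ne' h3.ne',
    Real.log_pow (‖(jacM _ e y).det‖ ^ 2) m]
  field_simp
  ring

theorem ld_sm (hh : IsHermitian h) (hx : At e x) :
    ContDiffAt ℝ ∞ (fun w => Real.log (h e w).det.re) (e x) :=
  (Complex.reCLM.contDiff.contDiffAt.comp _ (contDiffAt_det (hh.smooth e x hx))).log
    (det_pos hh hx).ne'

theorem fw_sm (hh : IsHermitian h) (hm : 1 ≤ m) (s : ∀ᶠ y in 𝓝 x, Sc n E m η y ∧ y ∉ E)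
    (hx : At e x) : ContDiffAt ℝ ∞ (fun w => fw h m η (e.symm w)) (e x) ∧
      ddc (fw h m η) e (e x) = kc h e (e x) := by
  have e1 : (fun w => fw h m η (e.symm w)) =ᶠ[𝓝 (e x)] fun w =>
      Real.log (h e w).det.re - (m : ℝ)⁻¹ * Real.log (‖η e (e.symm w)‖ ^ 2) := by
    filter_upwards [ev_sym hx s, hx.nhds_target] with w h1 h2
    rw [fw_eq hh hm h1.1 h1.2 (At.of_target hx.1 h2), e.right_inv h2]
  have a := (s.self_of_nhds.1.1 e hx).1 e hx
  have h0 : η e (e.symm (e x)) ≠ 0 := by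
    rw [hx.left_inv]; exact s.self_of_nhds.1.2 s.self_of_nhds.2 e hx
  have s1 : ContDiffAt ℝ ∞ (fun w => Real.log (‖η e (e.symm w)‖ ^ 2)) (e x) :=
    (((a.contDiffAt (n := ∞)).restrict_scalars ℝ).norm_sq ℝ).log
      (pow_ne_zero 2 (norm_ne_zero_iff.2 h0))
  have s2 : ContDiffAt ℝ 2 (fun w => Real.log (‖η e (e.symm w)‖ ^ 2)) (e x) :=
    s1.of_le (by norm_cast)
  refine ⟨((ld_sm hh hx).sub (contDiffAt_const.mul s1)).congr_of_eventuallyEq e1,
    (C2.cHess_congr e1).trans ?_⟩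
  rw [C2.cHess_sub ((ld_sm hh hx).of_le (by norm_cast)) (contDiffAt_const.mul s2),
    C2.cHess_const_mul _ s2, cHess_log_norm_sq a.contDiffAt h0, smul_zero, sub_zero]
  rfl

theorem fw_low (hh : IsHermitian h) (hm : 1 ≤ m) (s : ∀ᶠ y in 𝓝 x, Sc n E m η y) :
    ∃ a : ℝ, ∀ᶠ y in 𝓝 x, y ∉ E → a ≤ fw h m η y := by
  have hx := atChart (d := n) x
  set e := chartAt (Cm n) x
  refine ⟨Real.log (h e (e x)).det.re - 1 - (m : ℝ)⁻¹ * Real.log (‖η e x‖ ^ 2 + 1), ?_⟩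
  filter_upwards [s, ev_at hx, ev_pt hx ((ld_sm hh hx).continuousAt.eventually
    (lt_mem_nhds (sub_one_lt _))), ((hol_cont (s.self_of_nhds.1 e hx).1).norm.pow 2).eventually
    (gt_mem_nhds (lt_add_one _))] with y h1 h2 h3 h4 hE
  rw [fw_eq hh hm h1 hE h2]
  exact sub_le_sub h3.le (mul_le_mul_of_nonneg_left
    (Real.log_le_log (pow_pos (norm_pos_iff.2 (h1.2 hE e h2)) 2) h4.le) (by positivity))

end flat

end PreH

open PreH

theorem pre (hI : StInt) : StPre := by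
  intro N G R hFE V hV hFV _ _ h μ hh hμ
  obtain ⟨B, hB, h1⟩ := lc_near R
  have h2 : ∀ᶠ y in 𝓝ˢ G.F, Hol 4 R.t y :=
    eventually_nhdsSet_iff_forall.2 fun x hx => (R.thol x hx).1.near
  have h3 : ∀ᶠ y in 𝓝ˢ G.F, Sc 4 R.E R.m R.η y := (Eventually.and R.sec R.nz).mono fun _ k => k
  obtain ⟨O₁, o1, o2, o3⟩ := eventually_nhdsSet_iff_exists.1
    ((h1.and h2).and ((h3.and R.tE).and (hV.mem_nhdsSet.2 hFV)))
  have := ChartedSpace.locallyCompactSpace (Cm 4) G.W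
  obtain ⟨O, p1, p2, p3, p4⟩ := exists_open_between_and_isCompact_closure G.cpt o1 o2
  have q := fun y (hy : y ∈ closure O) => o3 y (p3 hy)
  have c1 : ContinuousOn (fun y => max ‖R.t y‖ (ex R.E R.ψ y)) (closure O) := fun y hy => by
    obtain ⟨e, z, c, φ, -, -, k1, k2⟩ := (q y hy).1.1
    exact ContinuousAt.continuousWithinAt
      (Tendsto.max (hol_cont (q y hy).1.2).norm (ex_cont k2 fun j => (k1 j).1))
  obtain ⟨δ', hδ', c2⟩ := (p4.diff p1).exists_forall_le' (c1.mono sdiff_subset) (a := 0)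
    fun y hy => lt_of_not_ge fun k => by
      obtain ⟨k1, k2⟩ := max_le_iff.1 k
      refine hy.2 (p2 ((q y hy.1).2.1.2 (by_contra fun k3 => ?_) (norm_le_zero_iff.1 k1)))
      rw [ex, if_neg k3] at k2
      exact (Real.exp_pos _).not_ge k2
  obtain ⟨δ, hδ, hδ1⟩ := exists_between hδ'
  have hε : 0 < (16 * B)⁻¹ := by positivity
  have l1 : ∀ y ∈ O, Lc 4 R.E (fun y => (16 * B)⁻¹ * (R.ψ y - Real.log δ)) 16⁻¹ y := fun y hy =>
    ((q y (subset_closure hy)).1.1.scale hε _).mono (le_of_eq (by field_simp))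
  have l2 : IsOpen (O \ R.E) := isOpen_iff_mem_nhds.2 fun y hy => by
    obtain ⟨e, z, c, φ, -, -, -, k2⟩ := l1 y hy.1
    exact inter_mem (p1.mem_nhds hy.1) (opn k2 hy.2)
  have l3 : ∀ y ∈ O, ∀ᶠ w in 𝓝 y, Sc 4 R.E R.m R.η w := fun y hy =>
    mem_of_superset (p1.mem_nhds hy) fun w hw => (q w (subset_closure hw)).2.1.1
  have l4 := fun (e : Chart 4 G.W) y (he : At e y) (hy : y ∈ O \ R.E) => fw_sm hh R.mpos
    ((l3 y hy.1).and (mem_of_superset (l2.mem_nhds hy) fun _ k => k.2)) he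
  refine ⟨{
    O := O
    E := R.E
    ρ := fun y => (16 * B)⁻¹ * (R.ψ y - Real.log δ)
    Ψ := fw h R.m R.η
    u := fun y => (δ : ℂ)⁻¹ * R.t y
    op := p1
    cl := l2
    cpt := ?_
    hol := fun y hy e he => analyticAt_const.mul ((q y (subset_closure hy)).1.2 e he)
    smρ := fun e y he hy => let ⟨_, _, _, _, _, _, _, k⟩ := l1 y hy.1; psi_sm k hy.2 he
    smΨ := fun e y he hy => (l4 e y he hy).1
    hess := fun y hy e he => let ⟨_, _, _, _, _, _, _, k⟩ := l1 y hy; hess k he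
    flat := fun e y he hy => (l4 e y he hy).2
    lim := fun y hy hE => let ⟨_, _, _, _, _, _, k', k⟩ := l1 y hy; lim k (fun j => (k' j).1) hE
    low := fun y hy => fw_low hh R.mpos (l3 y hy)
    null := measure_null_of_locally_null _ fun y hy => ?_
    int1 := fun y hy => ?_
    int2 := fun y hy => ?_ }, fun y hy => (q y (subset_closure hy)).2.2,
    fun y hy => ⟨p2 hy, by simp [(R.thol y hy).2], Or.inl (hFE hy)⟩⟩
  · refine (congrArg IsCompact ?_).mp (p4.of_isClosed_subset (c1.preimage_isClosed_of_isClosed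
      isClosed_closure (isClosed_Iic (a := δ))) inter_subset_left)
    ext y
    have : max ‖R.t y‖ (ex R.E R.ψ y) ≤ δ ↔ ‖(δ : ℂ)⁻¹ * R.t y‖ ≤ 1 ∧
        (y ∈ R.E ∨ (16 * B)⁻¹ * (R.ψ y - Real.log δ) ≤ 0) := by
      rw [max_le_iff, ex_le hδ, norm_mul, norm_inv, Complex.norm_real, Real.norm_of_nonneg hδ.le,
        inv_mul_le_iff₀ hδ, mul_one, inv_mul_le_iff₀ (by positivity), mul_zero, sub_nonpos]
    exact ⟨fun k => ⟨by_contra fun k' => (hδ1.trans_le (c2 y ⟨k.1, k'⟩)).not_ge k.2, this.1 k.2⟩,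
      fun k => ⟨subset_closure k.1, this.2 k.2⟩⟩
  · obtain ⟨e, z, c, φ, k1, k2, -, k3⟩ := l1 y hy.1
    choose W w1 w2 using fun j => (key hI hh hμ k1 (k3.self_of_nhds.hol j) (k2 j) zero_lt_one).1
    refine ⟨⋃ j, W j ∩ {w | z j w = 0}, ?_, measure_iUnion_null w2⟩
    filter_upwards [nhdsWithin_le_nhds (k3.and (eventually_all.2 w1)), self_mem_nhdsWithin]
      with w k4 k5
    obtain ⟨j, -, k6⟩ := k4.1.mem.1 k5.2
    exact mem_iUnion.2 ⟨j, k4.2 j, k6⟩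
  · obtain ⟨e, z, c, φ, k1, k2, k4, k3⟩ := l1 y hy
    exact (Fi.sum _ (fun j => (key hI hh hμ k1 (k3.self_of_nhds.hol j) (k2 j) (by
      have := (k4 j).2
      push_cast
      linarith)).2) fun _ _ => by positivity).fin l2 (p1.mem_nhds hy) (fun _ => by positivity)
      (big1 k3)
  · obtain ⟨e, z, c, φ, k1, k2, k4, k3⟩ := l1 y hy
    have k5 : Fi μ y fun _ => 1 := by
      simpa using (key hI hh hμ k1 (k3.self_of_nhds.hol 0) (k2 0) zero_lt_one).2
    exact ⟨e, k1, ((Fi.sum _ (fun j => (key hI hh hμ k1 (k3.self_of_nhds.hol j) (k2 j) (by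
      split_ifs with k
      exacts [zero_lt_one, sub_lt_self _ ((k4 j).1.lt_of_ne' k)])).2)
      fun _ _ => by positivity).add k5 (fun _ => by positivity) fun _ => zero_le_one).fin l2
      (p1.mem_nhds hy) (fun _ => by positivity) (big2 k3 (fun j => (k4 j).1) k1)⟩

end Vale.Agent.P277Z.R2
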