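import Vale.Agent.P277Z.R2.Defs

/-!
# P277Z, block R2: the row SOLA
-/

open scoped Manifold ContDiff Topology ComplexConjugate ComplexOrder ENNReal
open Set Filter MeasureTheory Metric
open Vale.Agent.P272.K Vale.Agent.P284.H608.K
open Vale.Agent.P301.H599 (Fm ddc curvature)
open Vale.Agent.P285Z (kc trivB)
open Vale.Agent.P277Z.Van (SmOn KahOn PSDOn PDOn IsVol)
open Vale.Agent.P277Z.Van.Ka
open Vale.Agent.P277Z.Ln
open Vale.Agent.P284

set_option linter.unusedSectionVars false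

noncomputable section

namespace Vale.Agent.P277Z.R2

namespace SA

attribute [local irreducible] s1 s2 i1 hn SL dhL Ad

variable {X : Type} [TopologicalSpace X] [T2Space X] [ChartedSpace (Cm 4) X]
  [IsManifold 𝓘(ℂ, Cm 4) ω X] [MeasurableSpace X] [BorelSpace X] {Ω : Set X} {h w : Fm 4 X}
  {μ : Measure X} {Ψ : X → ℝ} {p q : ℕ} {e e' : Chart 4 X} {x : X}

/-- the differential of the change of charts -/
def tL (e e' : Chart 4 X) (x : X) : Cm 4 →L[ℂ] Cm 4 := fderiv ℂ (fun z => e' (e.symm z)) (e x)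

theorem jac_tL (a : At e x) (a' : At e' x) :
    jacM e e' x = LinearMap.toMatrix' (tL e e' x : Cm 4 →ₗ[ℂ] Cm 4) :=
  jmat_fd (transition_differentiableAt a a')

theorem tL_bij (a : At e x) (a' : At e' x) : Function.Bijective (tL e e' x) := by
  have h1 := jacM_det_ne_zero a a'
  rw [jac_tL a a', LinearMap.det_toMatrix'] at h1
  exact (Module.End.isUnit_iff _).1 ((LinearMap.isUnit_iff_isUnit_det _).2 h1.isUnit)

theorem hn_neg (w : Matrix (Fin 4) (Fin 4) ℂ) (A : Af 4 p) : hn w (-A) (-A) = hn w A A := by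
  rw [H419.K.hn_neg_left, H419.K.hn_neg_right, neg_neg]

theorem neg_comp (A : Af 4 p) (L : Cm 4 →L[ℂ] Cm 4) :
    (-A).compContinuousLinearMap L = -A.compContinuousLinearMap L := rfl

variable (D : Dt Ω h w μ (trivB 4 X) (fun _ _ => 0) Ψ)

/-- the framed chart of a chart -/
def ix (he : e ∈ atlas (Cm 4) X) : (ka D).I := ⟨(e, ()), he⟩

variable {D}

theorem src (a : At e x) (hx : x ∈ Ω) : (⟨x, hx⟩ : Ω) ∈ ((ka D).e (ix D a.1)).source :=
  ⟨a.2, mem_univ _⟩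

theorem trg (a : At e x) (hx : x ∈ Ω) : e x ∈ ((ka D).e (ix D a.1)).target :=
  ((ka D).e (ix D a.1)).map_source (src a hx)

theorem chg' {i j : (ka D).I} {x : Ω} (hi : x ∈ ((ka D).e i).source)
    (hj : x ∈ ((ka D).e j).source) (A : Af 4 p) :
    (ka D).a i j ((ka D).e i x) • A.compContinuousLinearMap
      (fderiv ℂ (fun z => (ka D).e j (((ka D).e i).symm z)) ((ka D).e i x)) =
      ((LinearMap.toMatrix' (tL i.1.1 j.1.1 x.1 : Cm 4 →ₗ[ℂ] Cm 4)).det)⁻¹ •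
        A.compContinuousLinearMap (tL i.1.1 j.1.1 x.1) := by
  have a1 : At i.1.1 x.1 := ⟨i.2, hi.1⟩
  have e1 : fderiv ℂ (fun z => (ka D).e j (((ka D).e i).symm z)) ((ka D).e i x) =
      tL i.1.1 j.1.1 x.1 :=
    (tr_near (hU := isOpen_univ) (hΩ := D.op) (hU' := isOpen_univ)
      (((ka D).e i).map_source hi)).fderiv_eq
  rw [e1, ← jac_tL a1 ⟨j.2, hj.1⟩]
  change (1 * ((jacM _ _ (i.1.1.symm (i.1.1 x.1))).det)⁻¹) • _ = _
  rw [a1.left_inv, one_mul]

theorem nl_eq {ζ : (ka D).Fm p} (hζ : (ka D).IsForm ζ) {g : Fa 4 q X}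
    (H : ∀ e x (a : At e x), x ∈ Ω →
      (hn (w e (e x)) (ζ (ix D a.1) (e x)) (ζ (ix D a.1) (e x))).re =
        (hn (w e (e x)) (g e (e x)) (g e (e x))).re / (w e (e x)).det.re) :
    (ka D).nl ζ = NN μ Ω w (fun x => Real.exp (-Ψ x)) g :=
  lint_nu D.hh D.kah D.op _ fun x => by
    have a := P301.H599.atChart (d := 4) x.1
    have p2 := det_pos (D.hh.posDef _ _ a)
    have p3 := det_pos (D.kah.posDef _ _ a x.2)
    rw [(k3 4 Ω (ka D)).dn_eq p ζ ζ hζ hζ _ x (src a x.2), Complex.re_ofReal_mul,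
      ← ENNReal.ofReal_mul (rat_pos D.hh D.kah x.2).le, rat_eq D.hh D.kah a x.2]
    congr 1
    change _ * (Real.exp (-wt h (fun _ => 0) Ψ (chartAt (Cm 4) x.1) (chartAt (Cm 4) x.1 x.1)) *
      (hn (w (chartAt (Cm 4) x.1) (chartAt (Cm 4) x.1 x.1)) (ζ (ix D a.1) (chartAt (Cm 4) x.1 x.1))
        (ζ (ix D a.1) (chartAt (Cm 4) x.1 x.1))).re) = _
    rw [H _ _ a x.2, exp_wt D.hh a, neg_zero, Real.exp_zero, nm]
    field_simp

theorem apr (hc : CA Ω h w Ψ) : Apr (ka D) 1 := by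
  obtain ⟨c, hc0, hc⟩ := hc
  have k1 := H752.k1Stmt
  have k3 := k3 4 Ω (ka D)
  refine ⟨2 * c, by positivity, fun η hη => ?_⟩
  rw [k3.bk 1 η hη, H286.K.nq_eq k3 hη, ← integral_const_mul]
  refine le_add_of_nonneg_of_le (integral_nonneg (H286.K.dT_nonneg k1 η))
    (integral_mono ((k3.int _ η η hη hη.form hη.smooth).1.re.const_mul _) (k3.intT _ η hη).2
      fun x => ?_)
  have hx := H286.K.mem_ix (ka D) x
  simp only [KA.dn, KA.dA]
  generalize (ka D).ix x = i at hx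
  have a : At i.1.1 x.1 := ⟨i.2, hx.1⟩
  have p1 := D.kah.posDef _ _ a x.2
  have h1 := hc _ _ a x.2
  have h2 : curvature (trivB 4 X) (fun _ _ => 0) i.1.1 (i.1.1 x.1) = 0 := C2.cHess_const _
  have h3 := cHess_wt D a (k := i.1.2) (mem_univ _) x.2
  rw [h2, zero_sub, neg_add_eq_sub] at h3
  beta_reduce at h1
  rw [← h3] at h1
  have h4 := (Complex.le_def.1 (k1.mono 4 2 _ _ _ p1 h1 (η i (i.1.1 x.1)))).1
  have h5 : Ad (w i.1.1 (i.1.1 x.1)) ((c : ℂ) • w i.1.1 (i.1.1 x.1)) (η i (i.1.1 x.1)) =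
      ((2 * c : ℝ) : ℂ) * hn (w i.1.1 (i.1.1 x.1)) (η i (i.1.1 x.1)) (η i (i.1.1 x.1)) := by
    have h6 := H451.K1.Adw (n := 4) (p := 2) (by norm_num) p1 (η i (i.1.1 x.1))
    rw [Complex.ofReal_mul, mul_comm _ (c : ℂ), mul_assoc]
    refine Eq.trans ?_ (congrArg ((c : ℂ) * ·) (h6.trans (by norm_num)))
    simp only [Ad, Matrix.smul_apply, smul_eq_mul, Finset.mul_sum, mul_assoc]
  rw [h5, Complex.re_ofReal_mul] at h4
  rw [Complex.re_ofReal_mul, mul_left_comm]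
  exact mul_le_mul_of_nonneg_left h4 (Real.exp_pos _).le

variable (D)

open Classical in
/-- the form `- s2 f` -/
def eta (f : Fa 4 2 X) : (ka D).Fm 2 := fun i z =>
  if z ∈ ((ka D).e i).target then -s2 (w i.1.1 z) (f i.1.1 z) else 0

open Classical in
/-- the form `i1 y` -/
def gam (y : (ka D).Fm 3) : Fa 4 1 X := fun e z =>
  if he : e ∈ atlas (Cm 4) X then i1 (w e z) (y (ix D he) z) else 0

variable {D} {f : Fa 4 2 X} {y y' : (ka D).Fm 3} {i : (ka D).I} {z : Cm 4}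

theorem eta_in (hz : z ∈ ((ka D).e i).target) : eta D f i z = -s2 (w i.1.1 z) (f i.1.1 z) :=
  if_pos hz

theorem eta_near (hz : z ∈ ((ka D).e i).target) :
    eta D f i =ᶠ[𝓝 z] fun y => -s2 (w i.1.1 y) (f i.1.1 y) :=
  mem_of_superset (((ka D).e i).open_target.mem_nhds hz) fun _ hy => eta_in hy

theorem gam_eq (he : e ∈ atlas (Cm 4) X) : gam D y e = fun z => i1 (w e z) (y (ix D he) z) :=
  funext fun _ => dif_pos he

theorem kon (i : (ka D).I) : KOn ((ka D).e i).target ((ka D).w i) :=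
  ⟨(ka D).wsm i, (ka D).wpos i, (ka D).wcl i⟩

theorem f_sm (hf : FOn Ω f) (hz : z ∈ ((ka D).e i).target) : ContDiffAt ℝ ∞ (f i.1.1) z :=
  tgt hz.1 (hf.sm _ _ (At.of_target i.2 hz.1) hz.2.2)

theorem eta_form (h2 : StSta) (hf : FOn Ω f) : (ka D).IsForm (eta D f) where
  off _ _ hz := if_neg hz
  change i j x hi hj := by
    have a1 : At i.1.1 x.1 := ⟨i.2, hi.1⟩
    have a2 : At j.1.1 x.1 := ⟨j.2, hj.1⟩
    have e1 : ∀ i : (ka D).I, x ∈ ((ka D).e i).source → eta D f i ((ka D).e i x) =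
        -s2 (w i.1.1 (i.1.1 x.1)) (f i.1.1 (i.1.1 x.1)) := fun i hi =>
      eta_in (((ka D).e i).map_source hi)
    rw [chg' hi hj, e1 i hi, e1 j hj, neg_comp, smul_neg, D.kah.change _ _ _ a1 a2 x.2,
      hf.chg _ _ _ a1 a2 x.2, jac_tL a1 a2, ← h2.chg2 _ _ (D.kah.posDef _ _ a2 x.2) (tL_bij a1 a2),
      tL]

theorem eta_sm (h3 : StStc) (hf : FOn Ω f) : (ka D).Smooth (eta D f) := fun i z hz =>
  (h3.sm2 _ _ z ((ka D).wsm i z hz) ((ka D).wpos i z hz) (f_sm hf hz)).neg.congr_of_eventuallyEq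
    (eta_near hz)

theorem eta_S (h3 : StStc) (hf : FOn Ω f) (hd : ∀ e x, At e x → x ∈ Ω → dA f e (e x) = 0) :
    (ka D).S (eta D f) = 0 := by
  funext i z
  by_cases hz : z ∈ ((ka D).e i).target
  · have h4 := H286.K.SL_smul ((ka D).w i) (-1) ((h3.sm2 _ _ z ((ka D).wsm i z hz)
      ((ka D).wpos i z hz) (f_sm hf hz)).differentiableAt (by simp))
    refine (H205.K.S_at _ hz).trans ((H205.K.SL_congr ((eta_near hz).trans
      (.of_forall fun y => (neg_one_smul ℂ _).symm))).trans (h4.trans ?_))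
    rw [h3.S2 _ _ ((ka D).e i).open_target (kon i) _ z hz (f_sm hf hz)
      (tgt (P := fun z => dA f i.1.1 z = 0) hz.1 (hd _ _ (At.of_target i.2 hz.1) hz.2.2))]
    exact (neg_one_smul ℂ _).trans neg_zero
  · exact H205.K.S_off _ hz

theorem i1_zero (h2 : StSta) (w : Matrix (Fin 4) (Fin 4) ℂ) : i1 w 0 = 0 := by
  have h1 := h2.sub1 w 0 0
  rwa [sub_self, sub_self] at h1

theorem gam_zero (h2 : StSta) (hy : (ka D).IsForm y) {C : Set Ω} (hC : (ka D).Off C y) (a : At e x)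
    (hx : x ∉ Subtype.val '' C) : gam D y e (e x) = 0 := by
  rw [gam_eq a.1]
  by_cases hΩ : x ∈ Ω
  · exact (congrArg _ (hC _ ⟨x, hΩ⟩ (src a hΩ) fun k => hx ⟨_, k, rfl⟩)).trans (i1_zero h2 _)
  · exact (congrArg _ (hy.off _ _ fun k => hΩ (a.left_inv ▸ k.2.2))).trans (i1_zero h2 _)

theorem gam_form (h2 : StSta) (h3 : StStc) (hy : (ka D).Test y) :
    FOn univ (gam D y) ∧ Cs Ω (gam D y) := by
  obtain ⟨C, hC, hCy⟩ := hy.supp
  have hC' : IsCompact (Subtype.val '' C) := hC.image continuous_subtype_val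
  have hCΩ : Subtype.val '' C ⊆ Ω := fun _ ⟨x, _, k⟩ => k ▸ x.2
  refine ⟨⟨fun e x a _ => ?_, fun e e' x a a' _ => ?_⟩, _, hC', hCΩ,
    fun e x a hx => gam_zero h2 hy.form hCy a hx⟩
  · by_cases hx : x ∈ Ω
    · rw [gam_eq a.1]
      exact h3.sm1 _ _ _ (D.kah.smooth e x a hx) (hy.smooth _ _ (trg a hx))
    · refine (contDiffAt_const (c := 0)).congr_of_eventuallyEq ?_
      have h1 : ∀ᶠ z in 𝓝 (e x), e.symm z ∉ Subtype.val '' C := by
        refine (e.continuousAt_symm a.mem_target).eventually (p := (· ∉ Subtype.val '' C)) ?_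
        rw [a.left_inv]
        exact hC'.isClosed.isOpen_compl.mem_nhds fun k => hx (hCΩ k)
      filter_upwards [h1, a.nhds_target] with z k1 k2
      exact tgt (P := fun z => gam D y e z = 0) k2
        (gam_zero h2 hy.form hCy (At.of_target a.1 k2) k1)
  · by_cases hx : x ∈ Ω
    · have h1 := (hy.form.change _ _ _ (src a hx) (src a' hx)).trans
        (chg' (src a hx) (src a' hx) _)
      rw [gam_eq a.1, gam_eq a'.1]
      change y (ix D a.1) (e x) = _ at h1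
      beta_reduce
      rw [h1, D.kah.change _ _ _ a a' hx, jac_tL a a']
      exact h2.chg1 _ _ (D.kah.posDef _ _ a' hx) (tL_bij a a') _
    · rw [gam_zero h2 hy.form hCy a fun k => hx (hCΩ k),
        gam_zero h2 hy.form hCy a' fun k => hx (hCΩ k)]
      rfl

theorem nl_sub (h2 : StSta) (hy : (ka D).IsForm y) (hy' : (ka D).IsForm y') :
    (ka D).nl (y - y') = NN μ Ω w (fun x => Real.exp (-Ψ x)) (gam D y - gam D y') :=
  nl_eq (H286.K.form_sub hy hy') fun e x a hx => by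
    have p1 := D.kah.posDef _ _ a hx
    simp only [Pi.sub_apply, gam_eq a.1]
    rw [← h2.sub1, ← h2.iso1 _ p1, h2.inv _ p1]

theorem nl_S (h2 : StSta) (h3 : StStc) (hf : FOn Ω f) (hy : (ka D).Test y) :
    (ka D).nl ((ka D).S y - eta D f) = NN μ Ω w (fun x => Real.exp (-Ψ x)) (dA (gam D y) - f) :=
  nl_eq (H286.K.form_sub ((k3 4 Ω (ka D)).S_test 2 y hy).form (eta_form h2 hf)) fun e x a hx => by
    have hz := trg (D := D) a hx
    have h1 : (ka D).S y (ix D a.1) (e x) = -s2 (w e (e x)) (dA (gam D y) e (e x)) := by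
      refine (H205.K.S_at _ hz).trans ((H205.K.SL_congr ?_).trans
        (h3.S1 _ _ ((ka D).e _).open_target (kon _) _ _ hz
          ((gam_form h2 h3 hy).1.sm e x a (mem_univ _))))
      filter_upwards [((ka D).e _).open_target.mem_nhds hz] with z k
      rw [gam_eq a.1]
      exact (h2.inv _ ((ka D).wpos _ z k) _).symm
    have h4 : eta D f (ix D a.1) (e x) = -s2 (w e (e x)) (f e (e x)) := eta_in hz
    simp only [Pi.sub_apply]
    rw [h1, h4, ← neg_sub', hn_neg, ← h2.sub2, h2.iso2 _ (D.kah.posDef _ _ a hx)]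

end SA

open SA in
theorem solA (h1 : StSolS) (h2 : StSta) (h3 : StStc) : StSolA := by
  intro X _ _ _ _ _ _ h μ hh hμ Ω w Ψ hΩ hw hp hΨ hc f hf hd hN
  rcases Ω.eq_empty_or_nonempty with rfl | ⟨x₀, hx₀⟩
  · refine ⟨0, fun _ => ⟨⟨fun _ _ _ _ => contDiffAt_const, fun _ _ _ _ _ _ => rfl⟩, ∅,
      isCompact_empty, Subset.rfl, fun _ _ _ _ => rfl⟩, ?_, ?_⟩ <;> simp [NN]
  let D : Dt Ω h w μ (trivB 4 X) (fun _ _ => 0) Ψ :=
    ⟨hΩ, ⟨x₀, hx₀⟩, hh, hμ, hw, P285Z.isMetric_trivB fun _ _ _ => contDiffAt_const, hΨ⟩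
  obtain ⟨τ, t1, t2, t3, t4⟩ := hp
  have e0 : ∀ p, (ka D).nl (0 : (ka D).Fm p) = 0 := fun p => by
    simp [KA.nl, KA.dn, H205.K.hn_zero_left]
  have e1 : (ka D).nl (eta D f) = NN μ Ω w (fun x => Real.exp (-Ψ x)) f :=
    nl_eq (eta_form h2 hf) fun e x a hx => by
      rw [eta_in (trg a hx), hn_neg]
      exact h2.iso2 _ (hw.posDef _ _ a hx) _
  obtain ⟨y, y1, y2, y3⟩ := h1 4 Ω (ka D) (cut D t1 t2 t3 t4) 1 (apr hc) (fun _ => eta D f)
    (fun _ => ⟨eta_form h2 hf, eta_sm h3 hf, e1 ▸ hN⟩) (by simp [e0])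
    (by simp [eta_S h3 hf hd, e0])
  exact ⟨fun k => gam D (y k), fun k => gam_form h2 h3 (y1 k),
    y2.congr fun q => nl_sub h2 (y1 _).form (y1 _).form, y3.congr fun k => nl_S h2 h3 hf (y1 k)⟩

end Vale.Agent.P277Z.R2
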