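import Vale.Agent.P277Z.R2.Defs

/-!
# P277Z, block R2: approximate solutions of `∂v = f` for the second curvature condition
-/

open scoped Manifold ContDiff Topology ComplexConjugate ComplexOrder ENNReal
open Set Filter MeasureTheory
open Vale.Agent.P272.K Vale.Agent.P284.H608.K Vale.Agent.P284.H286.K
open Vale.Agent.P301.H599 (Fm ddc)
open Vale.Agent.P284.H650 (gg)
open Vale.Agent.P277Z.Van (SmOn KahOn PSDOn IsVol)
open Vale.Agent.P277Z.Van.Ka
open Vale.Agent.P277Z.Ln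

set_option linter.unusedSectionVars false

noncomputable section

namespace Vale.Agent.P277Z.R2

namespace SolB

variable {n p : ℕ}

theorem dz_exp {φ : Cm n → ℝ} {z : Cm n} (hφ : DifferentiableAt ℝ φ z) (a : Fin n) :
    dz a (fun y => (Real.exp (φ y) : ℂ)) z = Real.exp (φ z) * dz a (fun y => (φ y : ℂ)) z := by
  have h1 := Complex.ofRealCLM.hasFDerivAt.comp z hφ.hasFDerivAt.exp
  have h2 := Complex.ofRealCLM.hasFDerivAt.comp z hφ.hasFDerivAt
  unfold dz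
  rw [show fderiv ℝ (fun y => (Real.exp (φ y) : ℂ)) z = _ from h1.fderiv,
    show fderiv ℝ (fun y => (φ y : ℂ)) z = _ from h2.fderiv]
  simp only [ContinuousLinearMap.comp_apply, smul_apply, smul_eq_mul,
    Complex.ofRealCLM_apply, Complex.ofReal_mul]
  ring

theorem dhL_exp {φ : Cm n → ℝ} {η : Cm n → Af n p} {z : Cm n} (hφ : DifferentiableAt ℝ φ z)
    (hη : DifferentiableAt ℝ η z) : dhL φ (fun y => (Real.exp (φ y) : ℂ) • η y) z =
      (Real.exp (φ z) : ℂ) • dhL (fun _ => 0) η z := by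
  have hc : DifferentiableAt ℝ (fun y => (Real.exp (φ y) : ℂ)) z :=
    Complex.ofRealCLM.differentiableAt.comp z hφ.exp
  unfold dhL
  rw [← ContinuousAlternatingMap.alternatizeUncurryFin_smul, Finset.smul_sum]
  congr 1
  refine Finset.sum_congr rfl fun a _ => ?_
  have h0 : dz a (fun _ : Cm n => ((0 : ℝ) : ℂ)) z = 0 := by simp [dz]
  rw [P284.H419.K.dzV_mul hc hη, dz_exp hφ, h0]
  ext x v
  simp only [ContinuousLinearMap.smulRight_apply, smul_apply,
    ContinuousAlternatingMap.smul_apply, ContinuousAlternatingMap.add_apply,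
    ContinuousAlternatingMap.sub_apply, smul_eq_mul]
  ring

variable {X : Type} [TopologicalSpace X] [ChartedSpace (Cm n) X] {Ω : Set X}
  [IsManifold 𝓘(ℂ, Cm n) ω X] [MeasurableSpace X] [BorelSpace X] {μ : Measure X}
  {h w : Fm n X} {φ : X → ℝ}

/-- the data -/
structure Db (Ω : Set X) (h w : Fm n X) (μ : Measure X) (φ : X → ℝ) where
  op : IsOpen Ω
  x₀ : Ω
  hh : IsHermitian h
  vol : IsVol h μ
  kah : KahOn Ω w
  sm : SmOn (d := n) Ω φ

/-- the trivial bundle on `Ω` with the weight `φ` -/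
def kb (D : Db Ω h w μ φ) : KA n Ω where
  I := {e : Chart n X // e ∈ atlas (Cm n) X}
  e i := sub i.1 isOpen_univ D.op D.x₀
  w i := w i.1
  φ i z := φ (i.1.symm z)
  a _ _ _ := 1
  μ := nu Ω h w μ
  cover x := ⟨⟨chartAt (Cm n) x.1, chart_mem_atlas _ _⟩, mem_chart_source _ _, trivial⟩
  wsm i z hz j k := tgt hz.1 (D.kah.smooth _ _ (At.of_target i.2 hz.1) hz.2.2 j k)
  wpos i z hz := tgt (P := fun z => (w i.1 z).PosDef) hz.1
    (D.kah.posDef _ _ (At.of_target i.2 hz.1) hz.2.2)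
  wcl i z hz j k l := tgt (P := fun z => dz l _ z = dz j _ z) hz.1
    (D.kah.closed _ _ (At.of_target i.2 hz.1) hz.2.2 j k l)
  φsm i z hz := tgt hz.1 (D.sm _ _ (At.of_target i.2 hz.1) hz.2.2)
  hol i j z hz h := by
    have h1 : At j.1 (i.1.symm z) := ⟨j.2, sub_symm hz ▸ h.1⟩
    exact (tgt hz.1 (transition (At.of_target i.2 hz.1) h1).analyticAt).congr (tr_near hz).symm
  wch i j x hi hj := by
    rw [jac_sub hi]
    exact D.kah.change _ _ _ ⟨i.2, hi.1⟩ ⟨j.2, hj.1⟩ x.2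
  ahol _ _ _ _ _ := analyticAt_const
  coc _ _ _ _ _ _ _ := (mul_one _).symm
  aself _ _ _ := rfl
  φch i j x hi hj := by
    change Real.exp (-φ (i.1.symm (i.1 x.1))) * ‖(1 : ℂ)‖ ^ 2 = Real.exp (-φ (j.1.symm (j.1 x.1)))
    rw [i.1.left_inv hi.1, j.1.left_inv hj.1, norm_one, one_pow, mul_one]
  hμ i := nu_vol D.hh D.vol D.kah i.2

variable (D : Db Ω h w μ φ)

theorem cut {η : X → ℝ} (h1 : SmOn (d := n) Ω η) (h0 : ∀ x ∈ Ω, 0 ≤ η x)
    (h2 : ∀ c, IsCompact {x | x ∈ Ω ∧ η x ≤ c})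
    (h3 : PSDOn Ω fun e z => w e z - gg (fun y => η (e.symm y)) (fun y => η (e.symm y)) z) :
    Nonempty (kb D).Cut := by
  obtain ⟨L, hL⟩ := P284Z.L.S3.th_bd
  have s1 : ∀ i : (kb D).I, ∀ z ∈ ((kb D).e i).target,
      ContDiffAt ℝ ∞ (fun y => η (i.1.symm y)) z := fun i z hz =>
    tgt hz.1 (h1 _ _ (At.of_target i.2 hz.1) hz.2.2)
  have s2 : ∀ (ν : ℕ) (i : (kb D).I), ∀ z ∈ ((kb D).e i).target,
      (fun y => P284Z.L.S3.th (η (((kb D).e i).symm y).1 / (ν + 1))) =ᶠ[𝓝 z]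
        fun y => P284Z.L.S3.th (η (i.1.symm y) / (ν + 1)) := fun ν i z hz =>
    (sub_near (hU := isOpen_univ) (hΩ := D.op) hz).mono fun y hy =>
      congrArg (fun t => P284Z.L.S3.th (η t / (ν + 1))) hy
  refine ⟨⟨fun ν x => P284Z.L.S3.th (η x.1 / (ν + 1)), fun ν => L / (ν + 1) ^ 2 * 1,
    fun ν i z hz => (P284Z.L.S3.th_sm.contDiffAt.comp z
      ((s1 i z hz).div_const _)).congr_of_eventuallyEq (s2 ν i z hz),
    fun ν => ⟨{x | η x.1 ≤ 2 * (ν + 1)}, ?_, fun x hx => P284Z.L.S3.th_zero ?_⟩,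
    fun _ _ => Real.smoothTransition.nonneg _, fun ν x => ?_,
    fun _ _ => Real.smoothTransition.le_one _, fun x => ?_, fun ν i z hz => ?_, ?_⟩⟩
  · rw [Subtype.isCompact_iff]
    refine (congrArg IsCompact ?_).mp (h2 (2 * (ν + 1)))
    ext x
    exact ⟨fun hx => ⟨⟨x, hx.1⟩, hx.2, rfl⟩, fun ⟨y, hy, e⟩ => e ▸ ⟨y.2, hy⟩⟩
  · rw [le_div_iff₀ (by positivity)]
    exact (not_le.1 hx).le
  · refine Real.smoothTransition.monotone (sub_le_sub_left ?_ _)
    push_cast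
    exact div_le_div_of_nonneg_left (h0 x x.2) (by positivity) (by linarith)
  · have h5 : ContinuousAt η x.1 := by
      have a : At (chartAt (Cm n) x.1) x.1 := ⟨chart_mem_atlas _ _, mem_chart_source _ _⟩
      refine (((h1 _ _ a x.2).continuousAt).comp (f := chartAt (Cm n) x.1)
        ((chartAt (Cm n) x.1).continuousAt a.2)).congr ?_
      filter_upwards [(chartAt (Cm n) x.1).open_source.mem_nhds a.2] with y hy
      exact congrArg η ((chartAt (Cm n) x.1).left_inv hy)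
    have h4 : ∀ᶠ x' : Ω in 𝓝 x, η x'.1 < η x.1 + 1 :=
      (h5.comp continuous_subtype_val.continuousAt).eventually (gt_mem_nhds (lt_add_one _))
    filter_upwards [tendsto_natCast_atTop_atTop.eventually_ge_atTop (η x.1)] with ν hν
    refine h4.mono fun x' h => P284Z.L.S3.th_one ?_
    rw [div_le_one (by positivity)]
    linarith
  · refine P284Z.L.S3.cut_grad hL ((s1 i z hz).differentiableAt (by simp)) (s2 ν i z hz) ?_
    rw [Complex.ofReal_one, one_smul]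
    exact tgt (P := fun z => (w i.1 z - gg _ _ z).PosSemidef) hz.1
      (h3 _ _ (At.of_target i.2 hz.1) hz.2.2)
  · have := ((tendsto_one_div_add_atTop_nhds_zero_nat (𝕜 := ℝ)).pow 2).const_mul (L * 1)
    simp only [ne_eq, OfNat.ofNat_ne_zero, not_false_eq_true, zero_pow, mul_zero] at this
    exact this.congr fun ν => by rw [div_pow]; ring

theorem apr [T2Space X] (hc : CB Ω w φ) : Apr (kb D) 1 := by
  obtain ⟨c, hc0, hc⟩ := hc
  have k := k3 n Ω (kb D)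
  refine ⟨c, hc0, fun η hη => ?_⟩
  have h1 := (k.int _ η η hη hη.form hη.smooth).1
  have h2 : 0 ≤ ∫ x, (kb D).dT η x ∂(kb D).μ :=
    integral_nonneg fun x => dT_nonneg P284.H752.k1Stmt η x
  have h3 : (kb D).nq η = ∫ x, ((kb D).dn η η x).re ∂(kb D).μ := (integral_re h1).symm
  rw [k.bk 1 η hη, h3, ← integral_const_mul]
  refine le_add_of_nonneg_of_le h2 (integral_mono (h1.re.const_mul c) (k.intT _ η hη).2 fun x => ?_)
  have hx := mem_ix (kb D) x
  unfold KA.dn KA.dA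
  generalize (kb D).ix x = i at hx
  beta_reduce
  rw [Complex.re_ofReal_mul, mul_left_comm]
  exact mul_le_mul_of_nonneg_left (hc i.1 x.1 ⟨i.2, hx.1⟩ x.2 _) (Real.exp_pos _).le

open Classical in
/-- the form with values in the bundle -/
def fk (θ : Fa n p X) : (kb D).Fm p := fun i z =>
  if z ∈ ((kb D).e i).target then (Real.exp (φ (i.1.symm z)) : ℂ) • θ i.1 z else 0

open Classical in
/-- the way back -/
def bk (u : (kb D).Fm p) : Fa n p X := fun e z =>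
  if he : e ∈ atlas (Cm n) X then (Real.exp (-φ (e.symm z)) : ℂ) • u ⟨e, he⟩ z else 0

variable {D} {θ θ' : Fa n p X} {i j : (kb D).I} {z : Cm n} {u : (kb D).Fm p}

theorem fk_in (hz : z ∈ ((kb D).e i).target) :
    fk D θ i z = (Real.exp (φ (i.1.symm z)) : ℂ) • θ i.1 z := if_pos hz

theorem fk_at {x : Ω} (hx : x ∈ ((kb D).e i).source) :
    fk D θ i ((kb D).e i x) = (Real.exp (φ x.1) : ℂ) • θ i.1 (i.1 x.1) := by
  rw [fk_in (((kb D).e i).map_source hx)]
  exact congrArg (fun y => (Real.exp (φ y) : ℂ) • θ i.1 (i.1 x.1)) (i.1.left_inv hx.1)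

theorem fk_near (hz : z ∈ ((kb D).e i).target) :
    fk D θ i =ᶠ[𝓝 z] fun y => (Real.exp (φ (i.1.symm y)) : ℂ) • θ i.1 y :=
  mem_of_superset (((kb D).e i).open_target.mem_nhds hz) fun _ hy => fk_in hy

theorem fd_eq {x : Ω} (hi : x ∈ ((kb D).e i).source) :
    fderiv ℂ (fun z => (kb D).e j (((kb D).e i).symm z)) ((kb D).e i x) =
      fderiv ℂ (fun z => j.1 (i.1.symm z)) (i.1 x.1) :=
  (tr_near (hU := isOpen_univ) (hΩ := D.op) (hU' := isOpen_univ)
    (((kb D).e i).map_source hi)).fderiv_eq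

theorem fk_sub : fk D θ - fk D θ' = fk D (θ - θ') := by
  funext i z
  change fk D θ i z - fk D θ' i z = _
  unfold fk
  split_ifs
  · exact (smul_sub _ _ _).symm
  · exact sub_zero _

theorem fk_form (hθ : FOn Ω θ) : (kb D).IsForm (fk D θ) where
  off _ _ hz := if_neg hz
  change i j x hi hj := by
    rw [fk_at hi, fk_at hj, fd_eq hi, hθ.chg _ _ _ ⟨i.2, hi.1⟩ ⟨j.2, hj.1⟩ x.2]
    exact (one_smul ℂ _).symm

theorem sm_exp {ψ : Cm n → ℝ} (hψ : ContDiffAt ℝ ∞ ψ z) :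
    ContDiffAt ℝ ∞ (fun y => (Real.exp (ψ y) : ℂ)) z :=
  Complex.ofRealCLM.contDiff.contDiffAt.comp z hψ.exp

theorem fk_smooth (hθ : FOn Ω θ) : (kb D).Smooth (fk D θ) := fun i z hz =>
  ((sm_exp ((kb D).φsm i z hz)).smul
    (tgt hz.1 (hθ.sm _ _ (At.of_target i.2 hz.1) hz.2.2))).congr_of_eventuallyEq (fk_near hz)

theorem fk_dh (hθ : FOn Ω θ) : (kb D).dh (fk D θ) = fk D (dA θ) := by
  funext i z
  by_cases hz : z ∈ ((kb D).e i).target
  · refine (if_pos hz).trans ?_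
    rw [fk_in hz, P284.H205.K.dhL_congr (fk_near hz)]
    exact dhL_exp (((kb D).φsm i z hz).differentiableAt (by simp))
      ((tgt hz.1 (hθ.sm _ _ (At.of_target i.2 hz.1) hz.2.2)).differentiableAt (by simp))
  · exact (if_neg hz).trans (if_neg hz).symm

theorem fk_nl [T2Space X] (hθ : (kb D).IsForm (fk D θ)) :
    (kb D).nl (fk D θ) = NN μ Ω w (fun x => Real.exp (φ x) * rat h w x) θ :=
  lint_nu D.hh D.kah D.op _ fun x => by
    have hx : x ∈ ((kb D).e ⟨chartAt (Cm n) x.1, chart_mem_atlas _ _⟩).source :=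
      ⟨mem_chart_source _ _, trivial⟩
    rw [(k3 n Ω (kb D)).dn_eq p _ _ hθ hθ _ x hx, Complex.re_ofReal_mul, fk_at hx,
      P284Z.L.S1.hn_smul, ← ENNReal.ofReal_mul (rat_pos D.hh D.kah x.2).le]
    congr 1
    change _ * (Real.exp (-φ ((chartAt (Cm n) x.1).symm (chartAt (Cm n) x.1 x.1))) *
      (_ * nm w θ x.1)) = _
    rw [(chartAt (Cm n) x.1).left_inv (mem_chart_source _ _), Complex.norm_real,
      Real.norm_of_nonneg (Real.exp_pos _).le, Real.exp_neg]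
    field_simp

theorem bk_eq {e : Chart n X} (he : e ∈ atlas (Cm n) X) :
    bk D u e = fun z => (Real.exp (-φ (e.symm z)) : ℂ) • u ⟨e, he⟩ z :=
  funext fun _ => dif_pos he

theorem fk_bk (hu : (kb D).IsForm u) : fk D (bk D u) = u := by
  funext i z
  by_cases hz : z ∈ ((kb D).e i).target
  · rw [fk_in hz, bk_eq i.2, smul_smul, ← Complex.ofReal_mul, ← Real.exp_add, add_neg_cancel,
      Real.exp_zero, Complex.ofReal_one, one_smul]
    rfl
  · rw [hu.off i z hz]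
    exact if_neg hz

theorem bk_zero (hu : (kb D).IsForm u) {C : Set Ω} (hC : (kb D).Off C u) {e : Chart n X} {x : X}
    (hx : At e x) (h : x ∉ Subtype.val '' C) : bk D u e (e x) = 0 := by
  have : u ⟨e, hx.1⟩ (e x) = 0 := by
    by_cases h1 : x ∈ Ω
    · exact hC ⟨e, hx.1⟩ ⟨x, h1⟩ ⟨hx.2, trivial⟩ fun k => h ⟨_, k, rfl⟩
    · exact hu.off _ _ fun k => h1 (e.left_inv hx.2 ▸ k.2.2)
  rw [bk_eq hx.1]
  simp only [this]
  exact smul_zero (A := Af n p) (_ : ℂ)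

theorem bk_fon [T2Space X] (hu : (kb D).Test u) : FOn univ (bk D u) ∧ Cs Ω (bk D u) := by
  obtain ⟨C, hC, h0⟩ := hu.supp
  have hC' := hC.image continuous_subtype_val
  have hn : ∀ x ∉ Ω, x ∉ Subtype.val '' C := fun x hx ⟨y, _, k⟩ => hx (k ▸ y.2)
  refine ⟨⟨fun e x hx _ => ?_, fun e e' x hx hx' _ => ?_⟩, _, hC', Subtype.coe_image_subset _ _,
    fun e x hx => bk_zero hu.form h0 hx⟩
  · by_cases h1 : x ∈ Ω
    · rw [bk_eq hx.1]
      exact (sm_exp (D.sm e x hx h1).neg).smul (hu.smooth ⟨e, hx.1⟩ _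
        (((kb D).e ⟨e, hx.1⟩).map_source (x := ⟨x, h1⟩) ⟨hx.2, trivial⟩))
    · refine (contDiffAt_const (c := 0)).congr_of_eventuallyEq ?_
      have h2 : ∀ᶠ y in 𝓝 (e x), e.symm y ∉ Subtype.val '' C :=
        (e.continuousAt_symm (e.map_source hx.2)).eventually
          (hC'.isClosed.isOpen_compl.mem_nhds (by rw [e.left_inv hx.2]; exact hn x h1))
      filter_upwards [h2, e.open_target.mem_nhds (e.map_source hx.2)] with y k1 k2
      exact tgt (P := fun y => bk D u e y = 0) k2 (bk_zero hu.form h0 (At.of_target hx.1 k2) k1)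
  · by_cases h1 : x ∈ Ω
    · have hi : (⟨x, h1⟩ : Ω) ∈ ((kb D).e ⟨e, hx.1⟩).source := ⟨hx.2, trivial⟩
      have h2 := hu.form.change ⟨e, hx.1⟩ ⟨e', hx'.1⟩ ⟨x, h1⟩ hi ⟨hx'.2, trivial⟩
      have h3 := fd_eq (j := ⟨e', hx'.1⟩) hi
      rw [bk_eq hx.1, bk_eq hx'.1]
      simp only [e.left_inv hx.2, e'.left_inv hx'.2]
      exact congrArg (fun A => (Real.exp (-φ x) : ℂ) • A)
        (h2.trans ((one_smul ℂ _).trans (congrArg _ h3)))
    · rw [bk_zero hu.form h0 hx (hn x h1), bk_zero hu.form h0 hx' (hn x h1)]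
      rfl

end SolB

open SolB

theorem solB (h1 : StSolD) : StSolB := by
  intro X _ _ _ _ _ _ h μ hh hμ Ω w φ hΩ hw ⟨τ, t1, t2, t3, t4⟩ hφ hc f hf c1 c2
  rcases Ω.eq_empty_or_nonempty with rfl | ⟨x₀, hx₀⟩
  · refine ⟨0, fun _ => ⟨⟨fun _ _ _ _ => contDiffAt_const, fun _ _ _ _ _ _ => rfl⟩,
      ∅, isCompact_empty, Subset.rfl, fun _ _ _ _ => rfl⟩, ?_, ?_⟩ <;> simp [NN]
  let D : Db Ω h w μ φ := ⟨hΩ, ⟨x₀, hx₀⟩, hh, hμ, hw, hφ⟩
  have k := k3 4 Ω (kb D)
  have f1 := fun j => fk_form (D := D) (hf j).1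
  have f2 := fun j => fk_smooth (D := D) (hf j).1
  have e1 : ∀ {p : ℕ} {a b : Fa 4 p X}, (kb D).IsForm (fk D a) → (kb D).IsForm (fk D b) →
      (kb D).nl (fk D a - fk D b) = NN μ Ω w (fun x => Real.exp (φ x) * rat h w x) (a - b) :=
    fun ha hb => by rw [fk_sub, fk_nl (fk_sub (D := D) ▸ form_sub ha hb)]
  obtain ⟨u, u1, u2, u3⟩ := h1 4 Ω (kb D) (cut D t1 t2 t3 t4) 0 (apr D hc) (fun j => fk D (f j))
    (fun j => ⟨f1 j, f2 j, by rw [fk_nl (f1 j)]; exact (hf j).2⟩)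
    (c1.congr fun q => (e1 (f1 _) (f1 _)).symm)
    (c2.congr fun j => by
      rw [← fk_nl (fk_dh (D := D) (hf j).1 ▸ (k.dh_form _ _ (f1 j) (f2 j)).1), fk_dh (hf j).1])
  have v1 := fun j => bk_fon (u1 j)
  have v2 := fun j => fk_bk (u1 j).form
  have v3 : ∀ j, fk D (dA (bk D (u j))) = (kb D).dh (u j) := fun j => by
    rw [← fk_dh ⟨fun e x a _ => (v1 j).1.sm e x a trivial,
      fun e e' x a b _ => (v1 j).1.chg e e' x a b trivial⟩, v2]
  refine ⟨fun j => bk D (u j), v1, u2.congr fun q => ?_, u3.congr fun j => ?_⟩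
  · rw [← e1 ((v2 _).symm ▸ (u1 _).form) ((v2 _).symm ▸ (u1 _).form), v2, v2]
  · rw [← e1 ((v3 j).symm ▸ (k.dh_test _ _ (u1 j)).form) (f1 j), v3]

end Vale.Agent.P277Z.R2
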