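import Vale.Agent.P277Z.R2.Defs

/-!
# P277Z, block R2: pointwise algebra of the star operators (STA)
-/

set_option linter.all false

open scoped Manifold ContDiff Topology ComplexConjugate ComplexOrder ENNReal
open Vale.Agent.P272.K Vale.Agent.P284.H608.K
open Vale.Agent.P284Z.L (dt)
open Vale.Agent.P284.H451.K1 (wadj curry_wdz euler ev_wdz ev_curry ev_sum ev_smul ev_sub hn_symm
  hn_sub_right wdz_smul wdz_sum wdz_add curry_sum)
open Vale.Agent.P284.H205.K (hn_sum_left hn_sum_right hn_smul_left hn_smul_right hn_add_left Jm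
  L_single Jm_isUnit Bch Lam_chg)
open Vale.Agent.P277Z.Van.Ka (hn_dt top_eq dt_comp)

noncomputable section

namespace Vale.Agent.P277Z.R2

namespace StaH

variable {n p : ℕ} {w : Matrix (Fin n) (Fin n) ℂ}

theorem zsm (D : Af n p) : (0 : ℂ) • D = 0 := zero_smul ℂ D

theorem subsm (a b : ℂ) (D : Af n p) : (a - b) • D = a • D - b • D := sub_smul a b D

theorem negsm (a : ℂ) (D : Af n p) : -(a • D) = (-a) • D := (neg_smul a D).symm

theorem sumsm {ι : Type*} (S : Finset ι) (a : ι → ℂ) (D : Af n p) :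
    (∑ i ∈ S, a i) • D = ∑ i ∈ S, a i • D := by
  ext v
  simp only [ContinuousAlternatingMap.smul_apply, ContinuousAlternatingMap.sum_apply, smul_eq_mul,
    Finset.sum_mul]

theorem V_smul (c : Fin n) (a : ℂ) (D : Af n (p + 1)) : Vc w c (a • D) = a • Vc w c D := by
  unfold Vc
  rw [Finset.smul_sum]
  refine Finset.sum_congr rfl fun b _ => ?_
  rw [ContinuousAlternatingMap.curryLeft_smul, ContinuousLinearMap.smul_apply, smul_comm]

theorem V_sum {ι : Type*} (c : Fin n) (S : Finset ι) (D : ι → Af n (p + 1)) :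
    Vc w c (∑ i ∈ S, D i) = ∑ i ∈ S, Vc w c (D i) := by
  unfold Vc
  simp only [curry_sum, Finset.smul_sum]
  exact Finset.sum_comm

theorem V_zero (c : Fin n) : Vc w c (0 : Af n (p + 1)) = 0 := by
  have h := V_smul (w := w) c 0 (0 : Af n (p + 1))
  rwa [zsm, zsm] at h

theorem Lam_eq (T : Fin n → Af n (p + 1)) : Lam w T = ∑ b, Vc w b (T b) := Finset.sum_comm

theorem comp_sum {ι : Type*} (L : Cm n →L[ℂ] Cm n) (S : Finset ι) (D : ι → Af n p) :
    (∑ i ∈ S, D i).compContinuousLinearMap L = ∑ i ∈ S, (D i).compContinuousLinearMap L := by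
  ext v
  simp only [ContinuousAlternatingMap.compContinuousLinearMap_apply,
    ContinuousAlternatingMap.sum_apply]

theorem comp_smul (L : Cm n →L[ℂ] Cm n) (a : ℂ) (D : Af n p) :
    (a • D).compContinuousLinearMap L = a • D.compContinuousLinearMap L := rfl

/-- the anticommutation rule -/
theorem WV (b k : Fin n) (X : Af n (p + 1)) :
    wdz k (Vc w b X) = w⁻¹ b k • X - Vc w b (wdz k X) := by
  unfold Vc
  simp only [curry_wdz, smul_sub, Finset.sum_sub_distrib, wdz_sum, wdz_smul, smul_smul]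
  rw [← Finset.sum_smul]
  simp [Pi.single_apply]

theorem big (A : Af n (n + 1)) : A = 0 := by
  ext v
  refine A.toAlternatingMap.map_linearDependent v fun h => ?_
  have := h.fintype_card_le_finrank
  simp at this

theorem WV_top (b k : Fin (n + 1)) {w : Matrix (Fin (n + 1)) (Fin (n + 1)) ℂ}
    (X : Af (n + 1) (n + 1)) : wdz k (Vc w b X) = w⁻¹ b k • X := by
  rw [WV, big (wdz k X), V_zero, sub_zero]

theorem hn_V (hw : w.PosDef) (c : Fin n) (τ : Af n p) (D : Af n (p + 1)) :
    hn w τ (Vc w c D) = hn w (wdz c τ) D := (wadj hw c τ D).symm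

theorem re_dt (hw : w.PosDef) (z : ℂ) : (z * hn w (dt n) (dt n)).re = z.re / w.det.re := by
  have h := congrArg Complex.im (hn_symm hw (dt n) (dt n))
  rw [Complex.conj_im] at h
  rw [Complex.mul_re, hn_dt hw, show (hn w (dt n) (dt n)).im = 0 by linarith, mul_zero, sub_zero,
    div_eq_mul_inv]

theorem sum1 {M : Type} [AddCommMonoid M] (f : (Fin 1 → Fin n) → M) :
    ∑ s, f s = ∑ b, f ![b] :=
  (Fintype.sum_equiv (Equiv.funUnique (Fin 1) (Fin n)).symm _ _ fun b => by
    congr 1; funext i; fin_cases i; rfl).symm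

theorem sum2 {M : Type} [AddCommMonoid M] (f : (Fin 2 → Fin n) → M) :
    ∑ s, f s = ∑ b, ∑ j, f ![b, j] := by
  rw [← Fintype.sum_prod_type']
  exact (Fintype.sum_equiv (finTwoArrowEquiv (Fin n)).symm _ _ fun b => rfl).symm

theorem ev_swap (A : Af n 2) (a b : Fin n) : ev A ![a, b] = -ev A ![b, a] := by
  have h := A.toAlternatingMap.map_swap (fun i => (Pi.single (![b, a] i) 1 : Cm n))
    (show (0 : Fin 2) ≠ 1 by decide)
  refine Eq.trans ?_ h
  unfold ev
  change A _ = A _
  congr 1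
  funext i
  fin_cases i <;> rfl

theorem ev_dt_id : ev (dt n) id = 1 :=
  (Vale.Agent.P277Z.Van.Ka.ev_dt (1 : Equiv.Perm (Fin n))).trans (by simp)

/-- the constant `1` -/
abbrev one (n : ℕ) : Af n 0 := ContinuousAlternatingMap.constOfIsEmpty ℂ (Cm n) (Fin 0) (1 : ℂ)

theorem ev_W1 (b c : Fin n) : ev (wdz b (one n)) ![c] = if c = b then 1 else 0 := by
  rw [ev_wdz, Fin.sum_univ_one]
  simp [ev]

theorem deg1 (A : Af n 1) : ∑ b, ev A ![b] • wdz b (one n) = A := by
  refine Eq.trans (Finset.sum_congr rfl fun b _ => ?_) ((euler A).trans (by simp))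
  rw [← wdz_smul]
  congr 1
  ext v
  rw [ContinuousAlternatingMap.curryLeft_apply_apply]
  change A _ * 1 = _
  rw [mul_one]
  congr 1
  funext i
  fin_cases i
  rfl

section chg

variable {w' : Matrix (Fin n) (Fin n) ℂ} {L : Cm n →L[ℂ] Cm n}

theorem V_chg (hL : Function.Bijective L)
    (hw : w = (Jm L).transpose * w' * (Jm L).map (starRingEnd ℂ)) (c : Fin n)
    (D : Af n (p + 1)) : ∑ b, conj (Jm L c b) • Vc w b (D.compContinuousLinearMap L) =
      (Vc w' c D).compContinuousLinearMap L := by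
  have h := Lam_chg hL hw 1 fun d => (if d = c then (1 : ℂ) else 0) • D
  have h1 : ∀ b, Bch L 1 (fun d => (if d = c then (1 : ℂ) else 0) • D) b =
      conj (Jm L c b) • D.compContinuousLinearMap L := fun b => by
    simp only [Bch, one_smul, comp_smul, smul_smul, ← sumsm]
    simp
  have h2 : ∑ d, (if d = c then (1 : ℂ) else 0) • Vc w' d D = Vc w' c D := by
    rw [Finset.sum_eq_single c, if_pos rfl, one_smul]
    · intro d _ hd
      rw [if_neg hd, zsm]
    · simp
  simp only [Lam_eq, h1, V_smul, h2, one_smul] at h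
  exact h

theorem ev_comp1 (A : Af n 1) (b : Fin n) :
    ev (A.compContinuousLinearMap L) ![b] = ∑ c, Jm L c b * ev A ![c] := by
  have h : ∀ v : Cm n, A ![v] = A.curryLeft v ![] := fun v =>
    (ContinuousAlternatingMap.curryLeft_apply_apply _ _ _).symm
  have h1 : ev (A.compContinuousLinearMap L) ![b] = A ![L (Pi.single b 1)] := by
    change A _ = A _
    congr 1; funext i; fin_cases i; rfl
  rw [h1, h, L_single, map_sum, ContinuousAlternatingMap.sum_apply]
  refine Finset.sum_congr rfl fun c _ => ?_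
  rw [map_smul, ContinuousAlternatingMap.smul_apply, ← h, smul_eq_mul]
  congr 1
  change A _ = A _
  congr 1; funext i; fin_cases i; rfl

theorem ev_comp2 (A : Af n 2) (b j : Fin n) :
    ev (A.compContinuousLinearMap L) ![b, j] =
      ∑ c, ∑ d, Jm L c b * (Jm L d j * ev A ![c, d]) := by
  have h1 : ev (A.compContinuousLinearMap L) ![b, j] =
      ev ((A.curryLeft (L (Pi.single b 1))).compContinuousLinearMap L) ![j] := by
    change A _ = A.curryLeft _ _
    rw [ContinuousAlternatingMap.curryLeft_apply_apply]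
    congr 1; funext i; fin_cases i <;> rfl
  rw [h1, ev_comp1, L_single, map_sum, Finset.sum_comm]
  refine Finset.sum_congr rfl fun d _ => ?_
  rw [ev_sum, Finset.mul_sum]
  refine Finset.sum_congr rfl fun c _ => ?_
  rw [map_smul, ev_smul, ev_curry, mul_left_comm]
  rfl

theorem dt_eq (hL : Function.Bijective L) :
    dt n = (Jm L).det⁻¹ • (dt n).compContinuousLinearMap L := by
  rw [dt_comp, smul_smul]
  change _ = ((Jm L).det⁻¹ * (Jm L).det) • dt n
  rw [inv_mul_cancel₀ (Jm_isUnit hL).ne_zero, one_smul]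

end chg

section four

variable {w w' : Matrix (Fin 4) (Fin 4) ℂ} {L : Cm 4 →L[ℂ] Cm 4}

theorem hVV (hw : w.PosDef) (j l : Fin 4) :
    hn w (Vc w j (dt 4)) (Vc w l (dt 4)) = w⁻¹ j l * hn w (dt 4) (dt 4) := by
  rw [hn_V hw, WV_top, hn_smul_left]

theorem hVV2 (hw : w.PosDef) (b j k l : Fin 4) :
    hn w (Vc w b (Vc w j (dt 4))) (Vc w k (Vc w l (dt 4))) =
      (w⁻¹ b k * w⁻¹ j l - w⁻¹ j k * w⁻¹ b l) * hn w (dt 4) (dt 4) := by
  rw [hn_V hw, WV, WV_top, V_smul, sub_eq_add_neg, negsm, hn_add_left, hn_smul_left,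
    hn_smul_left, hVV hw, hVV hw]
  ring

theorem iso1 (hw : w.PosDef) (A : Af 4 1) :
    hn w (s1 w A) (s1 w A) = hn w A A * hn w (dt 4) (dt 4) := by
  unfold s1
  simp only [hn_sum_left, hn_sum_right, hn_smul_left, hn_smul_right, hVV hw, Complex.conj_conj]
  rw [show hn w A A = ∑ s, ∑ t, ev A ![s] * conj (ev A ![t]) * w⁻¹ t s by
    unfold hn
    simp only [sum1, Nat.factorial_one, Nat.cast_one, inv_one, one_mul, Fin.prod_univ_one,
      Matrix.cons_val_zero]]
  simp only [Finset.sum_mul, Finset.mul_sum]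
  refine Finset.sum_congr rfl fun s _ => Finset.sum_congr rfl fun t _ => ?_
  ring

theorem iso2 (hw : w.PosDef) (A : Af 4 2) :
    hn w (s2 w A) (s2 w A) = hn w A A * hn w (dt 4) (dt 4) := by
  unfold s2
  have h1 : hn w A A = 2⁻¹ * ∑ k, ∑ l, ∑ b, ∑ j,
      ev A ![k, l] * conj (ev A ![b, j]) * (w⁻¹ b k * w⁻¹ j l) := by
    unfold hn
    simp only [sum2, Nat.factorial_two, Nat.cast_ofNat, Fin.prod_univ_two, Matrix.cons_val_zero,
      Matrix.cons_val_one]
  have h2 : ∑ k, ∑ l, ∑ b, ∑ j, ev A ![k, l] * conj (ev A ![b, j]) * (w⁻¹ j k * w⁻¹ b l) =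
      -∑ k, ∑ l, ∑ b, ∑ j, ev A ![k, l] * conj (ev A ![b, j]) * (w⁻¹ b k * w⁻¹ j l) := by
    simp only [← Finset.sum_neg_distrib]
    refine Finset.sum_congr rfl fun k _ => Finset.sum_congr rfl fun l _ => ?_
    rw [Finset.sum_comm]
    refine Finset.sum_congr rfl fun b _ => Finset.sum_congr rfl fun j _ => ?_
    rw [ev_swap A j b, map_neg]
    ring
  have h3 : hn w (∑ b, ∑ j, conj (ev A ![b, j]) • Vc w b (Vc w j (dt 4)))
      (∑ b, ∑ j, conj (ev A ![b, j]) • Vc w b (Vc w j (dt 4))) =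
      ((∑ k, ∑ l, ∑ b, ∑ j, ev A ![k, l] * conj (ev A ![b, j]) * (w⁻¹ b k * w⁻¹ j l)) -
        ∑ k, ∑ l, ∑ b, ∑ j, ev A ![k, l] * conj (ev A ![b, j]) * (w⁻¹ j k * w⁻¹ b l)) *
        hn w (dt 4) (dt 4) := by
    simp only [hn_sum_right, ← Finset.sum_sub_distrib, Finset.sum_mul]
    refine Finset.sum_congr rfl fun k _ => Finset.sum_congr rfl fun l _ => ?_
    simp only [hn_sum_left]
    refine Finset.sum_congr rfl fun b _ => Finset.sum_congr rfl fun j _ => ?_
    rw [hn_smul_left, hn_smul_right, hVV2 hw, Complex.conj_conj]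
    ring
  rw [hn_smul_left, hn_smul_right, h3, h2, h1, map_inv₀, map_ofNat]
  ring

theorem inv (hw : IsUnit w.det) (y : Af 4 3) : s1 w (i1 w y) = y := by
  have h1 : ∀ b, conj (ev (i1 w y) ![b]) = ∑ k, ev (wdz k y) id * w k b := fun b => by
    unfold i1
    simp only [ev_sum, ev_smul, ev_W1, mul_ite, mul_one, mul_zero, Finset.sum_ite_eq,
      Finset.mem_univ, if_true, Complex.conj_conj]
  have h2 : ∀ a, ∑ b, (∑ k, ev (wdz k y) id * w k b) * w⁻¹ b a = ev (wdz a y) id := fun a => by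
    have : ∀ k, ∑ b, ev (wdz k y) id * w k b * w⁻¹ b a = ev (wdz k y) id * (w * w⁻¹) k a :=
      fun k => by simp only [Matrix.mul_apply, Finset.mul_sum, mul_assoc]
    simp only [Finset.sum_mul]
    rw [Finset.sum_comm]
    simp only [this, Matrix.mul_nonsing_inv _ hw, Matrix.one_apply, mul_ite, mul_one, mul_zero,
      Finset.sum_ite_eq', Finset.mem_univ, if_true]
  have h3 : ∀ a, ev (wdz a y) id • (dt 4).curryLeft (Pi.single a 1) =
      y - wdz a (y.curryLeft (Pi.single a 1)) := fun a => by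
    have h := curry_wdz a y (Pi.single a 1)
    rw [Pi.single_eq_same, one_smul, top_eq (wdz a y), ContinuousAlternatingMap.curryLeft_smul,
      ContinuousLinearMap.smul_apply] at h
    exact h
  unfold s1 Vc
  simp only [h1, Finset.smul_sum, smul_smul]
  rw [Finset.sum_comm]
  simp only [← Finset.sum_smul, h2, h3]
  rw [Finset.sum_sub_distrib, euler, Finset.sum_const, Finset.card_univ, Fintype.card_fin,
    ← Nat.cast_smul_eq_nsmul ℂ, ← sub_smul]
  norm_num

theorem linv (hw : IsUnit w.det) (A : Af 4 1) : i1 w (s1 w A) = A := by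
  have h1 : ∀ k, ev (wdz k (s1 w A)) id = ∑ b, conj (ev A ![b]) * w⁻¹ b k := fun k => by
    unfold s1
    simp only [wdz_sum, wdz_smul, WV_top, ev_sum, ev_smul, ev_dt_id, mul_one]
  have h2 : ∀ a, ∑ k, (∑ b, conj (ev A ![b]) * w⁻¹ b k) * w k a = conj (ev A ![a]) := fun a => by
    have : ∀ b, ∑ k, conj (ev A ![b]) * w⁻¹ b k * w k a = conj (ev A ![b]) * (w⁻¹ * w) b a :=
      fun k => by simp only [Matrix.mul_apply, Finset.mul_sum, mul_assoc]
    simp only [Finset.sum_mul]
    rw [Finset.sum_comm]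
    simp only [this, Matrix.nonsing_inv_mul _ hw, Matrix.one_apply, mul_ite, mul_one, mul_zero,
      Finset.sum_ite_eq', Finset.mem_univ, if_true]
  unfold i1
  simp only [h1, h2, Complex.conj_conj]
  exact deg1 A

theorem V_dt (hL : Function.Bijective L)
    (hw : w = (Jm L).transpose * w' * (Jm L).map (starRingEnd ℂ)) (c : Fin 4) :
    ∑ b, conj (Jm L c b) • Vc w b (dt 4) =
      (Jm L).det⁻¹ • (Vc w' c (dt 4)).compContinuousLinearMap L := by
  rw [← V_chg hL hw, Finset.smul_sum]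
  refine Finset.sum_congr rfl fun b _ => ?_
  rw [smul_comm (Jm L).det⁻¹, ← V_smul b (Jm L).det⁻¹, ← dt_eq hL]

theorem s1_chg (hL : Function.Bijective L)
    (hw : w = (Jm L).transpose * w' * (Jm L).map (starRingEnd ℂ)) (A : Af 4 1) :
    s1 w (A.compContinuousLinearMap L) =
      (Jm L).det⁻¹ • (s1 w' A).compContinuousLinearMap L := by
  unfold s1
  simp only [ev_comp1, map_sum, map_mul, sumsm, comp_sum, comp_smul, Finset.smul_sum]
  rw [Finset.sum_comm]
  refine Finset.sum_congr rfl fun c _ => ?_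
  rw [smul_comm, ← V_dt hL hw, Finset.smul_sum]
  refine Finset.sum_congr rfl fun b _ => ?_
  rw [smul_smul, mul_comm]

theorem s2_chg (hL : Function.Bijective L)
    (hw : w = (Jm L).transpose * w' * (Jm L).map (starRingEnd ℂ)) (A : Af 4 2) :
    s2 w (A.compContinuousLinearMap L) =
      (Jm L).det⁻¹ • (s2 w' A).compContinuousLinearMap L := by
  have h : ∀ c d, ∑ b, ∑ j, (conj (Jm L c b) * conj (Jm L d j)) • Vc w b (Vc w j (dt 4)) =
      (Jm L).det⁻¹ • (Vc w' c (Vc w' d (dt 4))).compContinuousLinearMap L := fun c d => by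
    rw [← V_chg hL hw, Finset.smul_sum]
    refine Finset.sum_congr rfl fun b _ => ?_
    rw [smul_comm, ← V_smul, ← V_dt hL hw, V_sum, Finset.smul_sum]
    refine Finset.sum_congr rfl fun j _ => ?_
    rw [V_smul, smul_smul]
  unfold s2
  rw [comp_smul, smul_comm]
  congr 1
  simp only [ev_comp2, map_sum, map_mul, sumsm, comp_sum, comp_smul, Finset.smul_sum]
  rw [Vale.Agent.P284.H205.K.sum4]
  refine Finset.sum_congr rfl fun c _ => Finset.sum_congr rfl fun d _ => ?_
  rw [smul_comm, ← h, Finset.smul_sum]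
  refine Finset.sum_congr rfl fun b _ => ?_
  rw [Finset.smul_sum]
  refine Finset.sum_congr rfl fun j _ => ?_
  rw [smul_smul]
  congr 1
  ring

end four

end StaH

open StaH in
/-- **STA** -/
theorem sta : StSta where
  iso1 w hw A := by rw [iso1 hw, re_dt hw]
  iso2 w hw A := by rw [iso2 hw, re_dt hw]
  inv w hw y := inv (Ne.isUnit hw.det_pos.ne') y
  sub1 w y y' := by
    have h : ∀ k, wdz k (y - y') = wdz k y - wdz k y' := fun k => by
      rw [eq_sub_iff_add_eq, ← wdz_add, sub_add_cancel]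
    unfold i1
    simp only [h, ev_sub, sub_mul, Finset.sum_sub_distrib, map_sub, subsm]
  sub2 w A B := by
    unfold s2
    simp only [ev_sub, map_sub, subsm, Finset.sum_sub_distrib, smul_sub]
  chg1 w' L hw hL y := by
    have hu : IsUnit w'.det := Ne.isUnit hw.det_pos.ne'
    have h := s1_chg (w' := w') hL rfl (i1 w' y)
    rw [inv hu] at h
    refine (congrArg _ h.symm).trans (linv ?_ _)
    rw [Matrix.det_mul, Matrix.det_mul, Matrix.det_transpose]
    exact ((Jm_isUnit hL).mul hu).mul (isUnit_conj (Jm_isUnit hL))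
  chg2 w' L _ hL A := s2_chg hL rfl A

end Vale.Agent.P277Z.R2
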