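import Vale.Agent.P277Z.R2.Sol
import Vale.Agent.P277Z.R2.Sta
import Vale.Agent.P277Z.R2.SolA
import Vale.Agent.P277Z.R2.SolB
import Vale.Agent.P277Z.R2.Int
import Vale.Agent.P277Z.R2.Pre
import Vale.Agent.P277Z.R2.Cal
import Vale.Agent.P277Z.R2.Loc
import Vale.Agent.P277Z.R2.Fin

/-!
# P277Z, block R2: assembly
-/

namespace Vale.Agent.P277Z.R2

theorem r2_of (h : StStc) : StR2' := r2 (pre int) cal (fin (solA solS sta h) (solB solD) fini loc)

end Vale.Agent.P277Z.R2
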