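import Vale.Agent.P277Z.R2.Defs
import Vale.Agent.P277Z.Van.Sub
import Vale.Agent.P277Z.Ln.Bas
import Vale.Agent.P272.Sz.Det

/-!
# P277Z, block R2: matrices of rank one, and the Hessians of the weights
-/

set_option linter.all false

open scoped Manifold ContDiff Topology ComplexConjugate ComplexOrder ENNReal Matrix
open Set Filter MeasureTheory Metric
open Vale.Agent.P272.K Vale.Agent.P284.H608.K
open Vale.Agent.P301.H599 (Fm ddc)
open Vale.Agent.P285Z (kc Qf psd_smul)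
open Vale.Agent.P285Z.Ch (gm gmX)
open Vale.Agent.P284.H650 (gg)
open Vale.Agent.P277Z.Van

noncomputable section

namespace Vale.Agent.P277Z.R2.CAL

section alg

variable {n p : ℕ} {w : Matrix (Fin n) (Fin n) ℂ}

/-- the matrix `v v*` -/
def rk (v : Fin n → ℂ) : Matrix (Fin n) (Fin n) ℂ := Matrix.vecMulVec v (star v)

theorem rk_apply (v : Fin n → ℂ) (j k : Fin n) : rk v j k = v j * conj (v k) := rfl

theorem rk_psd (v : Fin n → ℂ) : (rk v).PosSemidef := Matrix.posSemidef_vecMulVec_self_star v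

theorem rk_smul (c : ℂ) (v : Fin n → ℂ) : rk (c • v) = ((‖c‖ ^ 2 : ℝ) : ℂ) • rk v := by
  ext j k
  simp only [rk_apply, Pi.smul_apply, smul_eq_mul, map_mul, Matrix.smul_apply]
  rw [← Complex.normSq_eq_norm_sq, ← Complex.mul_conj]
  ring

theorem rk_add (a b : Fin n → ℂ) :
    rk (a + b) = ((2 : ℝ) : ℂ) • rk a + ((2 : ℝ) : ℂ) • rk b - rk (a - b) := by
  ext j k
  simp only [rk_apply, Pi.add_apply, Pi.sub_apply, smul_eq_mul, map_add, map_sub,
    Matrix.smul_apply, Matrix.add_apply, Matrix.sub_apply]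
  push_cast
  ring

/-- the square of the norm of a covector -/
def qd (w : Matrix (Fin n) (Fin n) ℂ) (v : Fin n → ℂ) : ℂ :=
  ∑ c, ∑ d, v c * conj (v d) * w⁻¹ d c

theorem qd_eq (v : Fin n → ℂ) : qd w v = star v ⬝ᵥ (w⁻¹ *ᵥ v) := by
  simp only [qd, dotProduct, Matrix.mulVec, Finset.mul_sum, Pi.star_apply, RCLike.star_def]
  rw [Finset.sum_comm]
  exact Finset.sum_congr rfl fun d _ => Finset.sum_congr rfl fun c _ => by ring

theorem qd_smul (a : ℝ) (v : Fin n → ℂ) :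
    (qd w fun c => (a : ℂ) * v c).re = a ^ 2 * (qd w v).re := by
  rw [← Complex.re_ofReal_mul]
  refine congrArg Complex.re ?_
  simp only [qd, Finset.mul_sum, map_mul, Complex.conj_ofReal]
  refine Finset.sum_congr rfl fun d _ => Finset.sum_congr rfl fun c _ => ?_
  push_cast
  ring

theorem qd_nonneg (hw : w.PosDef) (v : Fin n → ℂ) : 0 ≤ (qd w v).re := by
  rw [qd_eq]
  exact (Complex.nonneg_iff.1 (hw.inv.posSemidef.dotProduct_mulVec_nonneg v)).1

theorem qd_le (hw : w.PosDef) {c : ℝ} {v : Fin n → ℂ}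
    (h : (w - (c : ℂ) • rk v).PosSemidef) : c * (qd w v).re ≤ 1 := by
  have hdet : IsUnit w.det := hw.det_pos.ne'.isUnit
  have h0 : 0 ≤ qd w v := by
    rw [qd_eq]
    exact hw.inv.posSemidef.dotProduct_mulVec_nonneg v
  obtain ⟨q, hq⟩ : ∃ q : ℝ, qd w v = q := ⟨(qd w v).re, by
    apply Complex.ext <;> simp [(Complex.nonneg_iff.1 h0).2.symm]⟩
  have hq0 : 0 ≤ q := by simpa [hq] using (Complex.nonneg_iff.1 h0).1
  have h1 := h.dotProduct_mulVec_nonneg (w⁻¹ *ᵥ v)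
  have h2 : star (w⁻¹ *ᵥ v) ⬝ᵥ v = q := by
    rw [Matrix.star_dotProduct, ← qd_eq, hq]
    exact Complex.conj_ofReal q
  have h3 : rk v *ᵥ (w⁻¹ *ᵥ v) = (q : ℂ) • v := by
    rw [rk, Matrix.vecMulVec_mulVec, ← qd_eq, hq]
    ext j
    simp [mul_comm]
  rw [Matrix.sub_mulVec, Matrix.smul_mulVec, h3, Matrix.mulVec_mulVec, Matrix.mul_nonsing_inv _ hdet,
    Matrix.one_mulVec, dotProduct_sub, dotProduct_smul, dotProduct_smul, h2] at h1
  have h4 : 0 ≤ q - c * (q * q) := by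
    have := (Complex.nonneg_iff.1 h1).1
    simpa using this
  rw [hq, Complex.ofReal_re]
  rcases hq0.eq_or_lt with h5 | h5
  · rw [← h5]; simp
  · nlinarith

theorem hn_nonneg (hw : w.PosDef) (A : Af n p) : 0 ≤ hn w A A := by
  by_cases h : A = 0
  · rw [h, P284.H451.K1.hn_zero_left]
  · exact (P284.H752.k1Stmt.pos n p w hw A h).le

theorem Ad_rk (hw : w.PosDef) (v : Fin n → ℂ) (η : Af n (p + 1)) :
    (Ad w (rk v) η).re ≤ (qd w v).re * (hn w η η).re := by
  have h1 : Ad w (rk v) η = hn w (∑ c, v c • wdz c η) (∑ c, v c • wdz c η) := by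
    rw [P284.H451.K1.hn_sum_left]
    refine Finset.sum_congr rfl fun c _ => ?_
    rw [P284.H451.K1.hn_sum_right hw]
    refine Finset.sum_congr rfl fun d _ => ?_
    rw [P284.H451.K1.hn_smul_left, P284.H451.K1.hn_smul_right hw, rk_apply, mul_assoc]
  have h2 := congrArg Complex.re (P284.H451.K1.cliff hw v η)
  have h3 := (Complex.nonneg_iff.1 (hn_nonneg hw (∑ c, ∑ a, (conj (v c) * w⁻¹ c a) •
    η.curryLeft (Pi.single a 1)))).1
  rw [Complex.add_re, Complex.mul_re, ← (Complex.nonneg_iff.1 (hn_nonneg hw η)).2, ← h1] at h2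
  change _ = (qd w v).re * _ - _ at h2
  linarith

theorem Ad_sub (a b : Matrix (Fin n) (Fin n) ℂ) (c : ℝ) (η : Af n p) :
    (Ad w (a - (c : ℂ) • b) η).re = (Ad w a η).re - c * (Ad w b η).re := by
  rw [← Complex.re_ofReal_mul, ← Complex.sub_re]
  refine congrArg Complex.re ?_
  simp only [Ad, Finset.mul_sum, ← Finset.sum_sub_distrib, Matrix.sub_apply, Matrix.smul_apply,
    smul_eq_mul]
  exact Finset.sum_congr rfl fun d _ => Finset.sum_congr rfl fun c _ => by ring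

theorem det_rk (v : Fin n → ℂ) : (1 + rk v).det.re = 1 + ∑ c, ‖v c‖ ^ 2 := by
  rw [rk, Matrix.vecMulVec_eq Unit, Matrix.det_one_add_replicateCol_mul_replicateRow]
  simp only [dotProduct, Pi.star_apply, RCLike.star_def, Complex.add_re, Complex.one_re,
    Complex.re_sum]
  refine congrArg (1 + ·) (Finset.sum_congr rfl fun c _ => ?_)
  rw [mul_comm, Complex.mul_conj, Complex.normSq_eq_norm_sq, Complex.ofReal_re]

theorem rk_le (v : Fin n → ℂ) :
    (((∑ c, ‖v c‖ ^ 2 : ℝ) : ℂ) • (1 : Matrix (Fin n) (Fin n) ℂ) - rk v).PosSemidef := by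
  refine P285Z.Ch.psd_of_Qf ((P285Z.Ch.herm_smul _ Matrix.isHermitian_one).sub (rk_psd v).1)
    fun y => ?_
  have h1 : Qf (rk v) y = ‖∑ b, conj (v b) * y b‖ ^ 2 := by
    rw [← P285Z.Ch.Qf_rank_one]
    simp only [Complex.conj_conj]
    rfl
  have h2 : (star y ⬝ᵥ y).re = ∑ c, ‖y c‖ ^ 2 := by
    simp only [dotProduct, Pi.star_apply, RCLike.star_def, Complex.re_sum]
    refine Finset.sum_congr rfl fun c _ => ?_
    rw [mul_comm, Complex.mul_conj, Complex.normSq_eq_norm_sq, Complex.ofReal_re]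
  have h3 : ‖∑ b, conj (v b) * y b‖ ≤ ∑ b, ‖v b‖ * ‖y b‖ :=
    (norm_sum_le _ _).trans (Finset.sum_le_sum fun b _ => by rw [norm_mul, RCLike.norm_conj])
  have h4 := (pow_le_pow_left₀ (norm_nonneg _) h3 2).trans
    (Finset.sum_mul_sq_le_sq_mul_sq Finset.univ (fun b => ‖v b‖) fun b => ‖y b‖)
  unfold Qf at h1 ⊢
  rw [Matrix.sub_mulVec, dotProduct_sub, Complex.sub_re, h1, Matrix.smul_mulVec, Matrix.one_mulVec,
    dotProduct_smul, smul_eq_mul, Complex.re_ofReal_mul, h2]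
  linarith

theorem det_le {A B : Matrix (Fin n) (Fin n) ℂ} (hA : A.PosDef) {a b : ℝ} (ha : 0 < a)
    (h : ((b : ℂ) • B - (a : ℂ) • A).PosSemidef) : a ^ n * A.det.re ≤ b ^ n * B.det.re := by
  have h1 := (Complex.le_def.1 (P272.Sz.det_le_det (hA.smul (Complex.zero_lt_real.2 ha)) h)).1
  rw [Matrix.det_smul, Matrix.det_smul, Fintype.card_fin, ← Complex.ofReal_pow,
    ← Complex.ofReal_pow, Complex.re_ofReal_mul, Complex.re_ofReal_mul] at h1
  exact h1

end alg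

section ana

variable {n : ℕ} {X : Type} [TopologicalSpace X] [ChartedSpace (Cm n) X] {Ω : Set X}
  {f g : X → ℝ} {u : X → ℂ} {e : Chart n X} {x : X}

theorem SmOn.da (hf : SmOn (d := n) Ω f) (hx : At e x) (hΩ : x ∈ Ω) :
    DifferentiableAt ℝ (fun z => f (e.symm z)) (e x) :=
  (hf e x hx hΩ).differentiableAt (by simp)

theorem gmX_eq (hf : SmOn (d := n) Ω f) (hx : At e x) (hΩ : x ∈ Ω) :
    gmX f e (e x) = rk (dv f e x) := by
  ext j k
  change dz j _ _ * dzb k _ _ = _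
  rw [C2.dzb_real k (SmOn.da hf hx hΩ)]
  rfl

theorem gg_eq (hf : SmOn (d := n) Ω f) (hx : At e x) (hΩ : x ∈ Ω) :
    gg (fun y => f (e.symm y)) (fun y => f (e.symm y)) (e x) = rk (dv f e x) :=
  gmX_eq hf hx hΩ

theorem dv_comp (hf : SmOn (d := n) Ω f) (hx : At e x) (hΩ : x ∈ Ω) {θ : ℝ → ℝ} {a : ℝ}
    (h : HasDerivAt θ a (f x)) : dv (fun y => θ (f y)) e x = (a : ℂ) • dv f e x := by
  funext c
  exact C2.dz_comp_real c (by rw [hx.left_inv]; exact h) (SmOn.da hf hx hΩ)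

theorem dv_add (hf : SmOn (d := n) Ω f) (hg : SmOn (d := n) Ω g) (hx : At e x) (hΩ : x ∈ Ω) :
    dv (fun y => f y + g y) e x = dv f e x + dv g e x := by
  funext c
  simp only [dv, Complex.ofReal_add]
  exact C2.dz_add c (C2.differentiableAt_ofReal (SmOn.da hf hx hΩ))
    (C2.differentiableAt_ofReal (SmOn.da hg hx hΩ))

theorem dv_congr (hx : At e x) (h : ∀ᶠ y in 𝓝 x, f y = g y) : dv f e x = dv g e x := by
  funext c
  exact C2.dz_congr c ((ev_sym hx h).mono fun z hz => congrArg Complex.ofReal hz)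

/-- the coefficients of `du` -/
def du (u : X → ℂ) (e : Chart n X) (x : X) (c : Fin n) : ℂ := dz c (fun z => u (e.symm z)) (e x)

theorem smOn_nsq (hu : ∀ y ∈ Ω, Hol n u y) : SmOn (d := n) Ω fun y => ‖u y‖ ^ 2 :=
  fun e x hx hΩ => (((hu x hΩ e hx).contDiffAt (n := ∞)).restrict_scalars ℝ).norm_sq ℝ

theorem nsq_eq (a : ℂ) : ((‖a‖ ^ 2 : ℝ) : ℂ) = a * conj a := by
  rw [Complex.mul_conj, Complex.normSq_eq_norm_sq]

theorem dzb_nsq {F : Cm n → ℂ} {z : Cm n} (hF : AnalyticAt ℂ F z) (k : Fin n) :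
    dzb k (fun y => ((‖F y‖ ^ 2 : ℝ) : ℂ)) z = F z * conj (dz k F z) := by
  have h1 := hF.differentiableAt.restrictScalars ℝ
  simp only [nsq_eq]
  rw [C2.dzb_mul k h1 (C2.differentiableAt_conj h1), INT.dzb_of_holo hF.differentiableAt,
    C2.dzb_conj k h1, zero_mul, zero_add]

theorem dv_nsq (hu : Hol n u x) (hx : At e x) :
    dv (fun y => ‖u y‖ ^ 2) e x = conj (u x) • du u e x := by
  funext c
  have h1 := (((hu e hx).contDiffAt (n := 1)).restrict_scalars ℝ).norm_sq ℝ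
  refine (C2.dz_real c (h1.differentiableAt (by simp))).trans ?_
  rw [dzb_nsq (hu e hx), hx.left_inv, map_mul, Complex.conj_conj]
  rfl

theorem ddc_nsq (hu : Hol n u x) (hx : At e x) :
    ddc (fun y => ‖u y‖ ^ 2) e (e x) = rk (du u e x) := by
  ext j k
  have h0 := hu e hx
  have h1 := (h0.contDiffAt (n := 2)).restrict_scalars ℝ
  have h2 := C2.differentiableAt_dz k h1
  have h3 : dzb j (dz k fun z => u (e.symm z)) (e x) = 0 := by
    rw [← C2.dz_dzb_comm k j h1, C2.dz_congr k (g := fun _ => 0)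
      (h0.eventually_analyticAt.mono fun z hz => INT.dzb_of_holo hz.differentiableAt j),
      C2.dz_const]
  refine (C2.dz_congr j (h0.eventually_analyticAt.mono fun z hz => dzb_nsq hz k)).trans ?_
  rw [C2.dz_mul j (h1.differentiableAt (by simp)) (C2.differentiableAt_conj h2), C2.dz_conj j h2,
    h3, map_zero, mul_zero, add_zero]
  rfl

theorem du_cont (hu : Hol n u x) (hx : At e x) :
    ContinuousAt (fun y => ∑ c, ‖du u e y c‖ ^ 2) x := by
  refine tendsto_finset_sum _ fun c _ => ContinuousAt.pow (ContinuousAt.norm ?_) 2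
  have h1 := ((hu e hx).contDiffAt (n := 1)).restrict_scalars ℝ
  exact (C2.contDiffAt_dz c (m := 0) h1 (by simp)).continuousAt.comp (f := e)
    (e.continuousAt hx.2)

/-- `t - log (-t)` -/
theorem ddc_f1 (hf : SmOn (d := n) Ω f) (hx : At e x) (hΩ : x ∈ Ω) (h : f x < 0) :
    ddc (fun y => f y - Real.log (-f y)) e (e x) =
      ((1 - (f x)⁻¹ : ℝ) : ℂ) • ddc f e (e x) + (((f x ^ 2)⁻¹ : ℝ) : ℂ) • rk (dv f e x) := by
  rw [← gmX_eq hf hx hΩ]
  refine ddc_chain hf hx hΩ (f := fun t => t - Real.log (-t)) (f₁ := fun t => 1 - t⁻¹)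
    ((gt_mem_nhds h).mono fun t ht => ?_) ?_
  · simp only [Real.log_neg_eq_log]
    exact (hasDerivAt_id t).sub (Real.hasDerivAt_log ht.ne)
  · exact ((hasDerivAt_inv h.ne).const_sub 1).congr_deriv (neg_neg _)

theorem hd_lam {t : ℝ} (h : t < 1) :
    HasDerivAt (fun t => -Real.log (1 - t)) (1 - t)⁻¹ t :=
  (((hasDerivAt_id t).const_sub 1).log (sub_pos.2 h).ne').neg.congr_deriv
    (by rw [neg_div, neg_neg, one_div]; rfl)

/-- `- log (1 - |u|²)` -/
theorem ddc_lam (hu : ∀ y ∈ Ω, Hol n u y) (hx : At e x) (hΩ : x ∈ Ω) (h : ‖u x‖ ^ 2 < 1) :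
    ddc (fun y => -Real.log (1 - ‖u y‖ ^ 2)) e (e x) =
      ((((1 - ‖u x‖ ^ 2) ^ 2)⁻¹ : ℝ) : ℂ) • rk (du u e x) := by
  have p := sub_pos.2 h
  rw [ddc_chain (smOn_nsq hu) hx hΩ (f := fun t => -Real.log (1 - t)) (f₁ := fun t => (1 - t)⁻¹)
    (f₂ := ((1 - ‖u x‖ ^ 2) ^ 2)⁻¹) ((gt_mem_nhds h).mono fun t ht => hd_lam ht)
    ((((hasDerivAt_id (‖u x‖ ^ 2)).const_sub 1).inv p.ne').congr_deriv
      (by rw [neg_neg, one_div]; rfl)), gmX_eq (smOn_nsq hu) hx hΩ, dv_nsq (hu x hΩ) hx,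
    ddc_nsq (hu x hΩ) hx, rk_smul, smul_smul, ← add_smul, RCLike.norm_conj, ← Complex.ofReal_mul,
    ← Complex.ofReal_add]
  refine congrArg (fun a : ℝ => (a : ℂ) • rk (du u e x)) ?_
  field_simp
  ring

end ana

end Vale.Agent.P277Z.R2.CAL
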