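import Vale.Agent.P277Z.R2.Defs

/-!
# P277Z, block R2: tools for the normalised data
-/

set_option linter.unusedSectionVars false

open scoped Manifold ContDiff Topology ComplexConjugate ComplexOrder ENNReal
open Set Filter MeasureTheory Metric Asymptotics
open Vale.Agent.P272.K
open Vale.Agent.P301.H599 (Fm ddc atChart)
open Vale.Agent.P277Z.Van (SmOn IsVol ev_sym)

noncomputable section

namespace Vale.Agent.P277Z.R2.PreH

variable {n : ℕ} {X : Type} [TopologicalSpace X] [ChartedSpace (Cm n) X] {e : Chart n X} {x : X}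

theorem ev_pt (hx : At e x) {P : Cm n → Prop} (h : ∀ᶠ z in 𝓝 (e x), P z) : ∀ᶠ y in 𝓝 x, P (e y) :=
  (e.continuousAt hx.2).eventually h

theorem ev_at (hx : At e x) : ∀ᶠ y in 𝓝 x, At e y := by
  filter_upwards [e.open_source.mem_nhds hx.2] with y hy using ⟨hx.1, hy⟩

theorem cont_of (hx : At e x) {β : Type} [TopologicalSpace β] {f : X → β}
    (h : ContinuousAt (fun z => f (e.symm z)) (e x)) : ContinuousAt f x :=
  (h.comp (e.continuousAt hx.2)).congr ((ev_at hx).mono fun _ hy => congrArg f hy.left_inv)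

theorem hol_cont {a : X → ℂ} (h : Hol n a x) : ContinuousAt a x :=
  cont_of (atChart x) (h _ (atChart x)).continuousAt

theorem psh_cont {φ : X → ℝ} (h : Spsh n φ x) : ContinuousAt φ x :=
  cont_of (atChart x) (h _ (atChart x)).1.continuousAt

theorem mat_bd {M : Cm n → Matrix (Fin n) (Fin n) ℂ} {z : Cm n}
    (h : ∀ᶠ y in 𝓝 z, (M y).PosDef ∧ ∀ i j, ContinuousAt (fun w => M w i j) y) :
    ∃ c C : ℝ, 0 < c ∧ ∀ᶠ y in 𝓝 z,
      (M y - (c : ℂ) • (1 : Matrix (Fin n) (Fin n) ℂ)).PosSemidef ∧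
      ((C : ℂ) • (1 : Matrix (Fin n) (Fin n) ℂ) - M y).PosSemidef := by
  obtain ⟨r, hr, hb⟩ := Metric.nhds_basis_closedBall.mem_iff.1 h
  have hc : ∀ i j, ContinuousOn (fun w => M w i j) (closedBall z r) := fun i j y hy =>
    ((hb hy).2 i j).continuousWithinAt
  obtain ⟨C, hC, h1⟩ := exists_quad_lower (isCompact_closedBall z r) M (fun _ => 1) hc
    (fun _ _ => continuousOn_const) fun y hy => (hb hy).1
  obtain ⟨D, -, h2⟩ := exists_quad_lower (isCompact_closedBall z r) (fun _ => 1) M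
    (fun _ _ => continuousOn_const) hc fun _ _ => Matrix.PosDef.one
  have q1 : ∀ (A B : Matrix (Fin n) (Fin n) ℂ) ξ, quad (A - B) ξ = quad A ξ - quad B ξ :=
    fun A B ξ => by simp [quad, sub_mul, Finset.sum_sub_distrib]
  have q2 : ∀ (a : ℝ) (B : Matrix (Fin n) (Fin n) ℂ) ξ, quad ((a : ℂ) • B) ξ = a * quad B ξ :=
    fun a B ξ => by simp only [quad, Matrix.smul_apply, smul_eq_mul, Finset.mul_sum, mul_assoc]
  have hm := fun a : ℝ => P285Z.Ch.herm_smul a (Matrix.isHermitian_one (n := Fin n) (α := ℂ))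
  refine ⟨C⁻¹, D, inv_pos.2 hC, ?_⟩
  filter_upwards [closedBall_mem_nhds z hr] with y hy
  refine ⟨posSemidef_of_quad ((hb hy).1.1.sub (hm _)) fun ξ => ?_,
    posSemidef_of_quad ((hm _).sub (hb hy).1.1) fun ξ => ?_⟩
  · rw [q1, q2, Complex.sub_re, Complex.re_ofReal_mul, sub_nonneg, inv_mul_le_iff₀ hC]
    exact h1 y hy ξ
  · rw [q1, q2, Complex.sub_re, Complex.re_ofReal_mul, sub_nonneg]
    exact h2 y hy ξ

theorem dz_log {F : Cm n → ℂ} {z : Cm n} (hF : AnalyticAt ℂ F z) (h0 : F z ≠ 0) (j : Fin n) :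
    dz j (fun y => ((Real.log (‖F y‖ ^ 2) : ℝ) : ℂ)) z = dz j F z / F z := by
  have d : DifferentiableAt ℝ F z := hF.differentiableAt.restrictScalars ℝ
  have e1 : ∀ c : ℂ, ((‖c‖ ^ 2 : ℝ) : ℂ) = c * conj c := fun c => by
    rw [Complex.mul_conj, Complex.normSq_eq_norm_sq]
  rw [C2.dz_comp_real j (u := fun y => ‖F y‖ ^ 2)
    (Real.hasDerivAt_log (pow_ne_zero 2 (norm_ne_zero_iff.2 h0))) (d.norm_sq ℝ)]
  simp only [e1]
  rw [C2.dz_mul j d (C2.differentiableAt_conj d), C2.dz_conj j d, dzb_of_holo hF.differentiableAt,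
    map_zero, mul_zero, add_zero, Complex.ofReal_inv, e1]
  have : conj (F z) ≠ 0 := (map_ne_zero _).2 h0
  field_simp

theorem fderiv_ne {g : Fin n → X → ℂ} (hg : ∀ j, Hol n (g j) x) (hx : At e x) (h : jd g e x ≠ 0)
    (j : Fin n) : fderiv ℂ (fun z => g j (e.symm z)) (e x) ≠ 0 := by
  intro h0
  have hs : Function.Surjective (fderiv ℂ (fun z i => g i (e.symm z)) (e x)) :=
    ((LinearMap.isUnit_iff_isUnit_det _).2 (isUnit_iff_ne_zero.2 h) |>
      (Module.End.isUnit_iff _).1).2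
  obtain ⟨v, hv⟩ := hs (Pi.single j 1)
  rw [fderiv_pi fun i => (hg i e hx).differentiableAt] at hv
  have := congrFun hv j
  simp [h0] at this

theorem prod_le {ι : Type} [Fintype ι] [Nonempty ι] (a : ι → ℝ) (h0 : ∀ i, 0 ≤ a i) :
    ∏ i, a i ≤ ∑ i, a i ^ Fintype.card ι := by
  obtain ⟨j, hj⟩ := Finite.exists_max a
  calc ∏ i, a i ≤ ∏ _i : ι, a j := Finset.prod_le_prod (fun i _ => h0 i) fun i _ => hj i
    _ = a j ^ Fintype.card ι := by simp
    _ ≤ _ := Finset.single_le_sum (f := fun i => a i ^ Fintype.card ι)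
      (fun i _ => pow_nonneg (h0 i) _) (Finset.mem_univ j)

section sq

variable {α : Type} {l : Filter α} {w G : α → ℝ}

theorem sq_add (hw : ∀ y, 0 ≤ w y) {f g : α → ℂ} (hf : (fun y => w y * ‖f y‖ ^ 2) =O[l] G)
    (hg : (fun y => w y * ‖g y‖ ^ 2) =O[l] G) : (fun y => w y * ‖f y + g y‖ ^ 2) =O[l] G := by
  refine (isBigO_of_le' l (c := 2) fun y => ?_).trans (hf.add hg)
  have := hw y
  rw [Real.norm_of_nonneg (by positivity), Real.norm_of_nonneg (by positivity), ← mul_add,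
    mul_left_comm]
  refine mul_le_mul_of_nonneg_left ?_ this
  have h1 := pow_le_pow_left₀ (norm_nonneg _) (norm_add_le (f y) (g y)) 2
  nlinarith [sq_nonneg (‖f y‖ - ‖g y‖)]

theorem sq_sum (hw : ∀ y, 0 ≤ w y) {ι : Type} (s : Finset ι) {f : ι → α → ℂ}
    (hf : ∀ i, (fun y => w y * ‖f i y‖ ^ 2) =O[l] G) :
    (fun y => w y * ‖∑ i ∈ s, f i y‖ ^ 2) =O[l] G := by
  classical
  induction s using Finset.induction_on with
  | empty => simpa using isBigO_zero (E' := ℝ) G l
  | insert a s ha ih =>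
    simp only [Finset.sum_insert ha]
    exact sq_add hw (hf a) ih

end sq

theorem bdd {β : Type} [NormedAddCommGroup β] {f : X → β} (hf : ContinuousAt f x) (s : Set X) :
    f =O[𝓝[s] x] fun _ => (1 : ℝ) :=
  (hf.tendsto.mono_left nhdsWithin_le_nhds).isBigO_one ℝ

variable [MeasurableSpace X] [BorelSpace X] {h : Fm n X} {μ : Measure X}

theorem meas {V : Set X} (hV : MeasurableSet V) {z : X → ℂ} (hz : ContinuousOn z V)
    {G : ℂ → ℝ≥0∞} (hG : Measurable G) : Measurable (V.indicator fun y => G (z y)) := by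
  classical
  have := (hG.comp (hz.measurable_piecewise (continuousOn_const (c := 0)) hV)).indicator hV
  rwa [indicator_congr (g := fun y => G (z y)) fun y hy => by
    rw [Function.comp_apply, piecewise_eq_of_mem _ _ _ hy]] at this

theorem lint (hμ : IsVol h μ) (he : e ∈ atlas (Cm n) X) {S : Set (Cm n)} (hS : IsOpen S)
    (hSt : S ⊆ e.target) {f : X → ℝ≥0∞} (hm : Measurable ((e.source ∩ e ⁻¹' S).indicator f)) :
    ∫⁻ x in e.source ∩ e ⁻¹' S, f x ∂μ =
      ∫⁻ z in S, f (e.symm z) * ENNReal.ofReal (h e z).det.re := by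
  have hO := (e.isOpen_inter_preimage hS).measurableSet
  have hS := hS.measurableSet
  rw [← lintegral_indicator hO, hμ e he _ hm fun x hx => indicator_of_notMem (fun h => hx h.1) _,
    ← inter_eq_self_of_subset_left hSt, ← Measure.restrict_restrict hS, ← lintegral_indicator hS,
    inter_eq_self_of_subset_left hSt]
  refine setLIntegral_congr_fun e.open_target.measurableSet fun z hz => ?_
  by_cases hz' : z ∈ S
  · rw [indicator_of_mem hz', indicator_of_mem]
    exact ⟨e.map_target hz, by rwa [mem_preimage, e.right_inv hz]⟩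
  · rw [indicator_of_notMem hz', indicator_of_notMem, zero_mul]
    exact fun h => hz' (by simpa only [mem_preimage, e.right_inv hz] using h.2)

/-- `g` is integrable near `x` -/
def Fi (μ : Measure X) (x : X) (g : X → ℝ) : Prop :=
  ∃ V ∈ 𝓝 x, AEMeasurable (fun y => ENNReal.ofReal (g y)) (μ.restrict V) ∧
    ∫⁻ y in V, ENNReal.ofReal (g y) ∂μ ≠ ⊤

theorem Fi.add {f g : X → ℝ} (hf : Fi μ x f) (hg : Fi μ x g) (f0 : ∀ y, 0 ≤ f y)
    (g0 : ∀ y, 0 ≤ g y) : Fi μ x fun y => f y + g y := by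
  obtain ⟨U, hU, h1, h2⟩ := hf
  obtain ⟨V, hV, h3, h4⟩ := hg
  have h5 := h1.mono_measure (Measure.restrict_mono (inter_subset_left (t := V)) le_rfl)
  have h6 := h3.mono_measure (Measure.restrict_mono (inter_subset_right (s := U)) le_rfl)
  refine ⟨U ∩ V, inter_mem hU hV, ?_, ?_⟩
  · simp only [ENNReal.ofReal_add (f0 _) (g0 _)]
    exact h5.add h6
  · simp only [ENNReal.ofReal_add (f0 _) (g0 _)]
    rw [lintegral_add_left' h5]
    exact ENNReal.add_ne_top.2 ⟨ne_top_of_le_ne_top h2 (lintegral_mono_set inter_subset_left),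
      ne_top_of_le_ne_top h4 (lintegral_mono_set inter_subset_right)⟩

theorem Fi.sum {ι : Type} (s : Finset ι) {f : ι → X → ℝ} (hf : ∀ i, Fi μ x (f i))
    (f0 : ∀ i y, 0 ≤ f i y) : Fi μ x fun y => ∑ i ∈ s, f i y := by
  classical
  induction s using Finset.induction_on with
  | empty => exact ⟨univ, univ_mem, by simp, by simp⟩
  | insert a s ha ih =>
    simp only [Finset.sum_insert ha]
    exact (hf a).add ih (f0 a) fun y => Finset.sum_nonneg fun i _ => f0 i y

theorem Fi.fin {O E : Set X} (hO : IsOpen (O \ E)) (hx : O ∈ 𝓝 x) {f g : X → ℝ} (hg : Fi μ x g)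
    (g0 : ∀ y, 0 ≤ g y) (hf : f =O[𝓝[Eᶜ] x] g) :
    ∃ V ∈ 𝓝 x, ∫⁻ y in V \ E, ENNReal.ofReal (f y) ∂μ ≠ ⊤ := by
  obtain ⟨V, hV, -, h1⟩ := hg
  obtain ⟨C, hC, h2⟩ := hf.exists_nonneg
  obtain ⟨U, h3, h4, h5⟩ := _root_.eventually_nhds_iff.1
    ((eventually_nhdsWithin_iff.1 h2.bound).and (Eventually.and hV hx))
  have h6 : U \ E = U ∩ (O \ E) := by
    ext y
    exact ⟨fun k => ⟨k.1, (h3 y k.1).2.2, k.2⟩, fun k => ⟨k.1, k.2.2⟩⟩
  refine ⟨U, h4.mem_nhds h5, ne_top_of_le_ne_top (ENNReal.mul_ne_top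
    (ENNReal.ofReal_ne_top (r := C)) h1) ?_⟩
  rw [← lintegral_const_mul' _ _ ENNReal.ofReal_ne_top]
  refine (setLIntegral_mono' (h6 ▸ (h4.inter hO).measurableSet) fun y hy => ?_).trans
    (lintegral_mono_set fun y hy => (h3 y hy.1).2.1)
  rw [← ENNReal.ofReal_mul hC, ← Real.norm_of_nonneg (g0 y)]
  exact ENNReal.ofReal_le_ofReal ((le_abs_self _).trans ((h3 y hy.1).1 hy.2))

theorem key (hI : StInt) (hh : IsHermitian h) (hμ : IsVol h μ) (hx : At e x) {z : X → ℂ}
    (hz : Hol n z x) (hd : fderiv ℂ (fun w => z (e.symm w)) (e x) ≠ 0) {a : ℝ} (ha : a < 1) :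
    (∃ V ∈ 𝓝 x, μ (V ∩ {y | z y = 0}) = 0) ∧ Fi μ x fun y => (‖z y‖ ^ 2) ^ (-a) := by
  obtain ⟨S₀, hS₀, h1, h2⟩ := hI n _ _ (hz e hx) hd a ha
  have c1 : ContinuousAt (fun w => (h e w).det.re) (e x) := Complex.continuous_re.continuousAt.comp
    (contDiffAt_det (hh.smooth e x hx)).continuousAt
  obtain ⟨S, h3, h4, h5⟩ := _root_.eventually_nhds_iff.1 ((Eventually.and hS₀ hx.nhds_target).and
    ((hz e hx).eventually_analyticAt.and (c1.eventually (gt_mem_nhds (lt_add_one _)))))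
  have hO := e.isOpen_inter_preimage h4
  have hV := hO.mem_nhds ⟨hx.2, h5⟩
  have c2 : ContinuousOn z (e.source ∩ e ⁻¹' S) := fun y hy =>
    (cont_of ⟨hx.1, hy.1⟩ (h3 _ hy.2).2.1.continuousAt).continuousWithinAt
  have L := fun (G : ℂ → ℝ≥0∞) (hG : Measurable G) =>
    lint hμ hx.1 h4 (fun w hw => (h3 w hw).1.2) (meas hO.measurableSet c2 hG)
  have m0 : Measurable (({0} : Set ℂ).indicator fun _ => (1 : ℝ≥0∞)) :=
    measurable_const.indicator (measurableSet_singleton 0)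
  have m1 : Measurable fun c : ℂ => ENNReal.ofReal ((‖c‖ ^ 2) ^ (-a)) := by fun_prop
  refine ⟨⟨_, hV, ?_⟩, _, hV, m1.comp_aemeasurable (c2.aemeasurable hO.measurableSet), ?_⟩
  · have h6 := L _ m0
    rw [lintegral_congr_ae (g := fun _ => 0) (μ := volume.restrict S) (by
      filter_upwards [ae_restrict_of_ae (measure_eq_zero_iff_ae_notMem.1 h1),
        ae_restrict_mem h4.measurableSet] with w k1 k2
      rw [indicator_of_notMem (s := {0}) (fun k => k1 ⟨(h3 w k2).1.1, k⟩), zero_mul]),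
      lintegral_zero] at h6
    rw [inter_comm, ← Measure.restrict_apply' hO.measurableSet, measure_eq_zero_iff_ae_notMem]
    refine ((lintegral_eq_zero_iff' (m0.comp_aemeasurable (c2.aemeasurable hO.measurableSet))).1
      h6).mono fun y hy k => ?_
    rw [Function.comp_apply, indicator_of_mem (show z y ∈ ({0} : Set ℂ) from k)] at hy
    exact one_ne_zero hy
  · rw [L _ m1]
    refine ne_top_of_le_ne_top (ENNReal.mul_ne_top h2
      (ENNReal.ofReal_ne_top (r := (h e (e x)).det.re + 1))) ?_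
    rw [← lintegral_mul_const' _ _ ENNReal.ofReal_ne_top]
    exact (setLIntegral_mono' h4.measurableSet fun w hw => mul_le_mul_right
      (ENNReal.ofReal_le_ofReal (h3 w hw).2.2.le) _).trans
      (lintegral_mono_set fun w hw => (h3 w hw).1.1)

end Vale.Agent.P277Z.R2.PreH
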