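import Vale.Agent.P277Z.R2.Defs

/-!
# P277Z, block R2: approximate solutions of `∂_h u = f` and of `S u = f`
-/

open scoped Topology ComplexConjugate ENNReal InnerProductSpace
open Set Filter MeasureTheory UniformSpace
open Vale.Agent.P272.K Vale.Agent.P284.H608.K Vale.Agent.P284.H286.K
open Vale.Agent.P284.H47.K (split exists_seq exists_lim)
open Vale.Agent.P284.H752 (k1Stmt)
open Vale.Agent.P277Z.Ln (Apr)

noncomputable section

namespace Vale.Agent.P277Z.R2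

namespace Sol

/-- a functional which is bounded by `‖T x‖` is a product with `T x` -/
theorem riesz {E H : Type} [AddCommGroup E] [Module ℂ E] [NormedAddCommGroup H]
    [InnerProductSpace ℂ H] [CompleteSpace H] (T : E →ₗ[ℂ] H) (l : E →ₗ[ℂ] ℂ) (C : ℝ)
    (h : ∀ x, ‖l x‖ ≤ C * ‖T x‖) : ∃ ζ : H, ∀ x, ⟪ζ, T x⟫_ℂ = l x := by
  have hk : LinearMap.ker T ≤ LinearMap.ker l := fun x hx => by
    have h1 := h x
    rw [LinearMap.mem_ker.1 hx, norm_zero, mul_zero] at h1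
    exact norm_le_zero_iff.1 h1
  let g : LinearMap.range T →ₗ[ℂ] ℂ :=
    ((LinearMap.ker T).liftQ l hk).comp T.quotKerEquivRange.symm.toLinearMap
  have hg : ∀ x, g ⟨T x, LinearMap.mem_range_self T x⟩ = l x := fun x => by
    have h1 : T.quotKerEquivRange.symm ⟨T x, LinearMap.mem_range_self T x⟩ =
        (LinearMap.ker T).mkQ x := T.quotKerEquivRange_symm_apply_image x _
    change (LinearMap.ker T).liftQ l hk (T.quotKerEquivRange.symm _) = _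
    rw [h1]
    rfl
  have hb : ∀ v, ‖g v‖ ≤ C * ‖v‖ := by
    rintro ⟨_, x, rfl⟩
    exact (congrArg norm (hg x)).trans_le (h x)
  obtain ⟨G, hG, -⟩ := exists_extension_norm_eq (LinearMap.range T) (g.mkContinuous C hb)
  refine ⟨(InnerProductSpace.toDual ℂ H).symm G, fun x => ?_⟩
  rw [InnerProductSpace.toDual_symm_apply]
  exact (hG ⟨T x, LinearMap.mem_range_self T x⟩).trans (hg x)

section abs

variable {E : Type} [SeminormedAddCommGroup E] {q : E → ℝ}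

theorem norm_lim (hq : ∀ x, ‖x‖ ^ 2 = q x) {α : Type} {l : Filter α} {a : α → E} :
    Tendsto (fun k => q (a k)) l (𝓝 0) ↔ Tendsto (fun k => ‖a k‖) l (𝓝 0) := by
  constructor
  · intro h
    have h2 := (Real.continuous_sqrt.tendsto 0).comp h
    rw [Real.sqrt_zero] at h2
    refine h2.congr fun k => ?_
    change Real.sqrt (q (a k)) = _
    rw [← hq, Real.sqrt_sq (norm_nonneg _)]
  · intro h
    have h2 := h.pow 2
    rw [zero_pow two_ne_zero] at h2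
    exact h2.congr fun k => hq _

theorem cau (hq : ∀ x, ‖x‖ ^ 2 = q x) {a : ℕ → E} :
    Tendsto (fun p : ℕ × ℕ => q (a p.1 - a p.2)) atTop (𝓝 0) ↔ CauchySeq a := by
  rw [norm_lim hq, cauchySeq_iff_tendsto_dist_atTop_0]
  simp only [dist_eq_norm]

theorem lim_of (hq : ∀ x, ‖x‖ ^ 2 = q x) {a b : ℕ → E} {u : Completion E}
    (ha : Tendsto (fun k => (a k : Completion E)) atTop (𝓝 u))
    (hb : Tendsto (fun k => q (b k - a k)) atTop (𝓝 0)) :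
    Tendsto (fun k => (b k : Completion E)) atTop (𝓝 u) := by
  refine ha.congr_dist ?_
  refine ((norm_lim hq).1 hb).congr fun k => ?_
  rw [Completion.dist_eq, dist_eq_norm, norm_sub_rev]

theorem cau_of {a : ℕ → E} {u : Completion E}
    (ha : Tendsto (fun k => (a k : Completion E)) atTop (𝓝 u)) : CauchySeq a := by
  have hc := ha.cauchySeq
  rw [cauchySeq_iff_tendsto_dist_atTop_0] at hc ⊢
  exact hc.congr fun p => Completion.dist_eq _ _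

theorem inner_lim [InnerProductSpace ℂ E] {a : ℕ → E} {u : Completion E}
    (ha : Tendsto (fun k => (a k : Completion E)) atTop (𝓝 u)) (z : E) :
    Tendsto (fun k => ⟪a k, z⟫_ℂ) atTop (𝓝 ⟪u, (z : Completion E)⟫_ℂ) :=
  (ha.inner tendsto_const_nhds).congr fun _ => Completion.inner_coe _ _

end abs

/-- The abstract lemma. `q3 x` stands for the square of the norm of `d x`, `x` in `E2`. -/
theorem sol_seq {E0 E1 E2 E3 : Type} [SeminormedAddCommGroup E1] [InnerProductSpace ℂ E1]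
    [SeminormedAddCommGroup E2] [InnerProductSpace ℂ E2] (q1 : E1 → ℝ) (q2 q3 : E2 → ℝ)
    (n1 : ∀ x, ‖x‖ ^ 2 = q1 x) (n2 : ∀ x, ‖x‖ ^ 2 = q2 x) (d0 : E0 → E1) (d1 : E1 → E2)
    (S2 : E2 →ₗ[ℂ] E1) (S3 : E3 → E2) (a1 : ∀ t x, ⟪S2 x, t⟫_ℂ = ⟪x, d1 t⟫_ℂ)
    (c0 : ∀ z x, ⟪d0 z, S2 x⟫_ℂ = 0) (c1 : ∀ t z, ⟪d1 t, S3 z⟫_ℂ = 0) {c : ℝ} (hc : 0 < c)
    (apr : ∀ x, c * q2 x ≤ q3 x + q1 (S2 x))
    (dens2 : ∀ (x : ℕ → E2) (β : E1),
      Tendsto (fun p : ℕ × ℕ => q2 (x p.1 - x p.2)) atTop (𝓝 0) →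
      (∀ z, Tendsto (fun k => ⟪x k, S3 z⟫_ℂ) atTop (𝓝 0)) →
      (∀ t, Tendsto (fun k => ⟪x k, d1 t⟫_ℂ - ⟪β, t⟫_ℂ) atTop (𝓝 0)) →
      ∃ y : ℕ → E2, Tendsto (fun k => q2 (y k - x k)) atTop (𝓝 0) ∧
        Tendsto (fun k => q3 (y k)) atTop (𝓝 0) ∧
        Tendsto (fun k => q1 (S2 (y k) - β)) atTop (𝓝 0))
    (dens1 : ∀ (u : ℕ → E1) (α : ℕ → E2),
      Tendsto (fun p : ℕ × ℕ => q1 (u p.1 - u p.2)) atTop (𝓝 0) →
      Tendsto (fun p : ℕ × ℕ => q2 (α p.1 - α p.2)) atTop (𝓝 0) →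
      (∀ x, Tendsto (fun k => ⟪u k, S2 x⟫_ℂ - ⟪α k, x⟫_ℂ) atTop (𝓝 0)) →
      (∀ z, Tendsto (fun k => ⟪u k, d0 z⟫_ℂ) atTop (𝓝 0)) →
      ∃ v : ℕ → E1, Tendsto (fun k => q1 (v k - u k)) atTop (𝓝 0) ∧
        Tendsto (fun k => q2 (d1 (v k) - α k)) atTop (𝓝 0))
    (y : ℕ → E2) (hy : Tendsto (fun p : ℕ × ℕ => q2 (y p.1 - y p.2)) atTop (𝓝 0))
    (hs : ∀ z, Tendsto (fun k => ⟪y k, S3 z⟫_ℂ) atTop (𝓝 0)) :
    ∃ u : ℕ → E1, Tendsto (fun p : ℕ × ℕ => q1 (u p.1 - u p.2)) atTop (𝓝 0) ∧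
      Tendsto (fun k => q2 (d1 (u k) - y k)) atTop (𝓝 0) := by
  obtain ⟨Y, hY⟩ := exists_lim y ((cau n2).1 hy)
  have hY3 : ∀ z, ⟪Y, (S3 z : Completion E2)⟫_ℂ = 0 := fun z =>
    tendsto_nhds_unique (inner_lim hY _) (hs z)
  have bd : ∀ x : E2, ‖⟪Y, (x : Completion E2)⟫_ℂ‖ ≤
      ‖Y‖ * (Real.sqrt c)⁻¹ * ‖(S2 x : Completion E1)‖ := by
    intro x
    obtain ⟨x1, x2, e, h1, h2⟩ := split (𝕜 := ℂ) (fun z => (S3 z : Completion E2))
      (x : Completion E2)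
    obtain ⟨a, ha, hl⟩ := exists_seq x1
    obtain ⟨b, b1, b2, b3⟩ := dens2 a (S2 x) ((cau n2).2 ha) (fun z => h1 z ▸ inner_lim hl _)
      (fun t => by
        have h3 := (inner_lim hl (d1 t)).sub_const ⟪S2 x, t⟫_ℂ
        have h4 := h2 (d1 t : Completion E2) fun z => by rw [Completion.inner_coe, c1]
        have h5 : ⟪x1, (d1 t : Completion E2)⟫_ℂ = ⟪S2 x, t⟫_ℂ := by
          rw [a1, ← Completion.inner_coe x, e, inner_add_left, h4, add_zero]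
        rwa [h5, sub_self] at h3)
    have l1 : Tendsto (fun k => c * q2 (b k)) atTop (𝓝 (c * ‖x1‖ ^ 2)) :=
      (((lim_of n2 hl b1).norm.pow 2).const_mul c).congr fun k => by
        rw [Completion.norm_coe, n2]
    have l2 : Tendsto (fun k => q3 (b k) + q1 (S2 (b k))) atTop (𝓝 (0 + ‖S2 x‖ ^ 2)) :=
      b2.add (((tendsto_iff_norm_sub_tendsto_zero.2 ((norm_lim n1).1 b3)).norm.pow 2).congr
        fun k => n1 _)
    have h6 : c * ‖x1‖ ^ 2 ≤ 0 + ‖S2 x‖ ^ 2 :=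
      le_of_tendsto_of_tendsto' l1 l2 fun k => apr (b k)
    have h7 : ‖x1‖ ≤ (Real.sqrt c)⁻¹ * ‖S2 x‖ := by
      rw [le_inv_mul_iff₀ (Real.sqrt_pos.2 hc)]
      refine abs_le_of_sq_le_sq' ?_ (norm_nonneg _) |>.2
      rw [mul_pow, Real.sq_sqrt hc.le]
      linarith
    have h8 : ⟪Y, x2⟫_ℂ = 0 := inner_eq_zero_symm.1 (h2 Y hY3)
    rw [e, inner_add_right, h8, add_zero, Completion.norm_coe, mul_assoc]
    exact (norm_inner_le_norm _ _).trans (mul_le_mul_of_nonneg_left h7 (norm_nonneg _))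
  obtain ⟨ζ, hζ⟩ := riesz ((Completion.toComplₗᵢ (𝕜 := ℂ) (E := E1)).toLinearMap.comp S2)
    ((innerₛₗ ℂ Y).comp (Completion.toComplₗᵢ (𝕜 := ℂ) (E := E2)).toLinearMap) _ bd
  have hζ' : ∀ x : E2, ⟪ζ, (S2 x : Completion E1)⟫_ℂ = ⟪Y, (x : Completion E2)⟫_ℂ := hζ
  obtain ⟨u0, u1, e, h0, h1⟩ := split (𝕜 := ℂ) (fun x => (S2 x : Completion E1)) ζ
  obtain ⟨u, hu, hl⟩ := exists_seq u1
  obtain ⟨v, v1, v2⟩ := dens1 u y ((cau n1).2 hu) hy
    (fun x => by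
      have h3 := (inner_lim hl (S2 x)).sub (inner_lim hY x)
      have h4 : ⟪u1, (S2 x : Completion E1)⟫_ℂ = ⟪Y, (x : Completion E2)⟫_ℂ := by
        rw [← hζ', e, inner_add_left, h0, zero_add]
      rwa [h4, sub_self] at h3)
    (fun z => h1 (d0 z : Completion E1) (fun x => by rw [Completion.inner_coe, c0]) ▸
      inner_lim hl _)
  exact ⟨v, (cau n1).2 (cau_of (lim_of n1 hl v1)), v2⟩

/-- density of the test elements in the graph norm -/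
def Dens {A B C : Type} [AddCommGroup A] [Module ℂ A] [AddCommGroup B] [Module ℂ B]
    [AddCommGroup C] [Module ℂ C] (bA : PreInnerProductSpace.Core ℂ A)
    (bB : PreInnerProductSpace.Core ℂ B) (bC : PreInnerProductSpace.Core ℂ C)
    (d' : A → B) (d : B → C) (S : B → A) (S' : C → B) : Prop :=
  ∀ (x : ℕ → B) (α : ℕ → C) (β : ℕ → A), Cau bB x → Cau bC α → Cau bA β →
    (∀ ψ, Tendsto (fun k => bB.inner (x k) (S' ψ) - bC.inner (α k) ψ) atTop (𝓝 0)) →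
    (∀ ψ, Tendsto (fun k => bB.inner (x k) (d' ψ) - bA.inner (β k) ψ) atTop (𝓝 0)) →
    ∃ y : ℕ → B, Tendsto (fun k => qf bB (y k - x k)) atTop (𝓝 0) ∧
      Tendsto (fun k => qf bC (d (y k) - α k)) atTop (𝓝 0) ∧
      Tendsto (fun k => qf bA (S (y k) - β k)) atTop (𝓝 0)

section core

variable {E0 E1 E2 E3 : Type} [AddCommGroup E0] [Module ℂ E0] [AddCommGroup E1]
  [Module ℂ E1] [AddCommGroup E2] [Module ℂ E2] [AddCommGroup E3] [Module ℂ E3]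
  {b0 : PreInnerProductSpace.Core ℂ E0} {b1 : PreInnerProductSpace.Core ℂ E1}
  {b2 : PreInnerProductSpace.Core ℂ E2} {b3 : PreInnerProductSpace.Core ℂ E3}

theorem Dens.symm {d0 : E0 → E1} {d1 : E1 → E2} {S1 : E1 → E0} {S2 : E2 → E1}
    (h : Dens b0 b1 b2 d0 d1 S1 S2) : Dens b2 b1 b0 S2 S1 d1 d0 := by
  intro x α β h1 h2 h3 h4 h5
  obtain ⟨y, y1, y2, y3⟩ := h x β α h1 h3 h2 h5 h4
  exact ⟨y, y1, y3, y2⟩

theorem inner_zero (b : PreInnerProductSpace.Core ℂ E0) (x : E0) : b.inner 0 x = 0 := by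
  have h := b.smul_left 0 x 0
  rwa [zero_smul, map_zero, zero_mul] at h

theorem cau_const (b : PreInnerProductSpace.Core ℂ E0) (x : E0) : Cau b fun _ => x := by
  unfold Cau qf
  simp only [sub_self, inner_zero, Complex.zero_re]
  exact tendsto_const_nhds

theorem sol_core {d0 : E0 → E1} {d1 : E1 → E2} {d2 : E2 → E3} {S1 : E1 → E0}
    (S2 : E2 →ₗ[ℂ] E1) {S3 : E3 → E2} (dens1 : Dens b0 b1 b2 d0 d1 S1 S2)
    (dens2 : Dens b1 b2 b3 d1 d2 S2 S3) (a1 : ∀ t x, b1.inner (S2 x) t = b2.inner x (d1 t))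
    (c0 : ∀ z x, b1.inner (d0 z) (S2 x) = 0) (c1 : ∀ t z, b2.inner (d1 t) (S3 z) = 0)
    {c : ℝ} (hc : 0 < c) (apr : ∀ x, c * qf b2 x ≤ qf b3 (d2 x) + qf b1 (S2 x))
    (y : ℕ → E2) (hy : Cau b2 y)
    (hs : ∀ z, Tendsto (fun k => b2.inner (y k) (S3 z)) atTop (𝓝 0)) :
    ∃ u : ℕ → E1, Cau b1 u ∧ Tendsto (fun k => qf b2 (d1 (u k) - y k)) atTop (𝓝 0) := by
  let i1 := ng b1
  let i2 := ng b2
  let j1 : InnerProductSpace ℂ E1 := InnerProductSpace.ofCore b1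
  let j2 : InnerProductSpace ℂ E2 := InnerProductSpace.ofCore b2
  refine sol_seq (qf b1) (qf b2) (fun x => qf b3 (d2 x)) (sq_norm b1) (sq_norm b2) d0 d1 S2 S3
    a1 c0 c1 hc apr (fun x β h1 h2 h3 => ?_) (fun u α h1 h2 h3 h4 => ?_) y hy hs
  · obtain ⟨v, v1, v2, v3⟩ := dens2 x (fun _ => 0) (fun _ => β) h1 (cau_const _ _) (cau_const _ _)
      (fun ψ => (h2 ψ).congr fun k => by rw [inner_zero, sub_zero]) h3
    exact ⟨v, v1, v2.congr fun k => by rw [sub_zero], v3⟩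
  · obtain ⟨v, v1, v2, -⟩ := dens1 u α (fun _ => 0) h1 h2 (cau_const _ _) h3
      (fun ψ => (h4 ψ).congr fun k => by rw [inner_zero, sub_zero])
    exact ⟨v, v1, v2⟩

/-- the Cauchy-Schwarz inequality -/
theorem cs (b : PreInnerProductSpace.Core ℂ E0) (x y : E0) :
    ‖b.inner x y‖ ^ 2 ≤ qf b x * qf b y := by
  let i := ng b
  let j : InnerProductSpace ℂ E0 := InnerProductSpace.ofCore b
  rw [← sq_norm, ← sq_norm, ← mul_pow]
  exact pow_le_pow_left₀ (norm_nonneg _) (norm_inner_le_norm (𝕜 := ℂ) x y) 2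

end core

section forms

variable {n p : ℕ} {M : Type} [TopologicalSpace M] [T2Space M] [MeasurableSpace M] [BorelSpace M]
  {K : KA n M}

theorem dens (hK : Nonempty K.Cut) (p : ℕ) :
    Dens (tc k1Stmt (k3 n M K) p) (tc k1Stmt (k3 n M K) (p + 1))
      (tc k1Stmt (k3 n M K) (p + 1 + 1)) (dT' (k3 n M K) p) (dT' (k3 n M K) (p + 1))
      (sT (k3 n M K) p) (sT (k3 n M K) (p + 1)) := by
  intro x α β h1 h2 h3 h4 h5
  obtain ⟨y, y0, y1, y2, y3⟩ := Vale.Agent.P284.H419.K.k45_of k1Stmt (k3 n M K) hK p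
    (fun k => (x k).1) (fun k => (α k).1) (fun k => (β k).1) (fun k => (x k).2) (fun k => (α k).2)
    (fun k => (β k).2) h1 h2 h3
    (fun ψ hψ => (tendsto_conj (h4 ⟨ψ, hψ⟩)).congr fun k => by
      change conj (K.ip (K.S ψ) (x k).1 - K.ip ψ (α k).1) = _
      rw [map_sub, ← ip_conj k1Stmt, ← ip_conj k1Stmt])
    (fun ψ hψ => (tendsto_conj (h5 ⟨ψ, hψ⟩)).congr fun k => by
      change conj (K.ip (K.dh ψ) (x k).1 - K.ip ψ (β k).1) = _
      rw [map_sub, ← ip_conj k1Stmt, ← ip_conj k1Stmt])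
  exact ⟨fun k => ⟨y k, y0 k⟩, y1, y2, y3⟩

theorem nl_iff {α : Type} {l : Filter α} {a : α → K.Fm p} (h : ∀ k, K.Test (a k)) :
    Tendsto (fun k => K.nl (a k)) l (𝓝 0) ↔ Tendsto (fun k => K.nq (a k)) l (𝓝 0) := by
  constructor
  · intro h1
    refine ((ENNReal.tendsto_toReal ENNReal.zero_ne_top).comp h1).congr fun k => ?_
    change (K.nl (a k)).toReal = _
    rw [nl_eq k1Stmt (k3 n M K) (h k), ENNReal.toReal_ofReal (nq_nonneg k1Stmt (k3 n M K) (h k))]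
  · intro h1
    have h2 := ENNReal.tendsto_ofReal h1
    rw [ENNReal.ofReal_zero] at h2
    exact h2.congr fun k => (nl_eq k1Stmt (k3 n M K) (h k)).symm

theorem nl_add {α : Type} {l : Filter α} {a b : α → K.Fm p}
    (ha : ∀ k, K.IsForm (a k) ∧ K.Smooth (a k)) (hb : ∀ k, K.IsForm (b k) ∧ K.Smooth (b k))
    (h1 : Tendsto (fun k => K.nl (a k)) l (𝓝 0)) (h2 : Tendsto (fun k => K.nl (b k)) l (𝓝 0)) :
    Tendsto (fun k => K.nl (a k + b k)) l (𝓝 0) := by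
  have h3 := (ENNReal.Tendsto.const_mul h1 (Or.inr (ENNReal.ofReal_ne_top (r := 1 + 1)))).add
    (ENNReal.Tendsto.const_mul h2 (Or.inr (ENNReal.ofReal_ne_top (r := 1 + (1 : ℝ)⁻¹))))
  rw [mul_zero, mul_zero, add_zero] at h3
  exact tendsto_of_tendsto_of_tendsto_of_le_of_le tendsto_const_nhds h3 (fun _ => zero_le)
    fun k => nl_young k1Stmt (k3 n M K) (ha k).1 (ha k).2 (hb k).1 (hb k).2 one_pos

omit [T2Space M] [BorelSpace M] in
theorem nl_cm_le (χ : K.Cut) (s : K.Fm p) (ν : ℕ) : K.nl (cm χ s ν) ≤ K.nl s := by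
  refine lintegral_mono fun x => ENNReal.ofReal_le_ofReal ?_
  rw [dn_cm, dn_conj k1Stmt, dn_cm, map_mul, Complex.conj_ofReal, Complex.re_ofReal_mul,
    Complex.re_ofReal_mul, Complex.conj_re, ← mul_assoc]
  exact mul_le_of_le_one_left (dn_nonneg k1Stmt s x)
    (mul_le_one₀ (χ.le_one ν x) (χ.nonneg ν x) (χ.le_one ν x))

/-- convergence in the norm gives weak convergence -/
theorem ip_lim (χ : K.Cut) {g : ℕ → K.Fm p} (hg : ∀ k, K.IsForm (g k) ∧ K.Smooth (g k))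
    (h : Tendsto (fun k => K.nl (g k)) atTop (𝓝 0)) {ψ : K.Fm p} (hψ : K.Test ψ) :
    Tendsto (fun k => K.ip (g k) ψ) atTop (𝓝 0) := by
  have h1 := ((ENNReal.tendsto_toReal ENNReal.zero_ne_top).comp h).const_mul (K.nq ψ)
  rw [ENNReal.toReal_zero, mul_zero] at h1
  rw [tendsto_zero_iff_norm_tendsto_zero, ← norm_lim (q := fun z : ℂ => ‖z‖ ^ 2) fun _ => rfl]
  refine squeeze_zero' (Eventually.of_forall fun _ => sq_nonneg _) ?_ h1
  filter_upwards [h.eventually (gt_mem_nhds ENNReal.zero_lt_top)] with k hk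
  obtain ⟨ν, hν⟩ := (ip_cm χ (g k) hψ).exists
  have t := test_cm χ (hg k).1 (hg k).2 ν
  have h2 : ‖K.ip (cm χ (g k) ν) ψ‖ ^ 2 ≤ K.nq ψ * K.nq (cm χ (g k) ν) :=
    cs (tc k1Stmt (k3 n M K) p) ⟨ψ, hψ⟩ ⟨_, t⟩
  rw [← hν]
  refine h2.trans (mul_le_mul_of_nonneg_left ?_ (nq_nonneg k1Stmt (k3 n M K) hψ))
  exact (ENNReal.ofReal_le_iff_le_toReal hk.ne).1
    ((nl_eq k1Stmt (k3 n M K) t).symm.trans_le (nl_cm_le χ _ ν))

/-- approximation by test forms -/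
theorem approx (χ : K.Cut) {f : ℕ → K.Fm p}
    (hf : ∀ k, K.IsForm (f k) ∧ K.Smooth (f k) ∧ K.nl (f k) ≠ ⊤)
    (hc : Tendsto (fun q : ℕ × ℕ => K.nl (f q.1 - f q.2)) atTop (𝓝 0)) :
    ∃ y : ℕ → TS K p, Cau (tc k1Stmt (k3 n M K) p) y ∧
      Tendsto (fun k => K.nl ((y k).1 - f k)) atTop (𝓝 0) ∧
      ∀ ψ, K.Test ψ → Tendsto (fun k => K.ip (f k) ψ) atTop (𝓝 0) →
        Tendsto (fun k => K.ip ψ (y k).1) atTop (𝓝 0) := by
  choose ν hν using fun k : ℕ => ((nl_cm k1Stmt (k3 n M K) χ (hf k).1 (hf k).2.1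
    (hf k).2.2.lt_top).eventually (gt_mem_nhds (ENNReal.inv_pos.2 (ENNReal.natCast_ne_top k)))).exists
  have t := fun k => test_cm χ (hf k).1 (hf k).2.1 (ν k)
  have h1 : Tendsto (fun k => K.nl (cm χ (f k) (ν k) - f k)) atTop (𝓝 0) :=
    tendsto_of_tendsto_of_tendsto_of_le_of_le tendsto_const_nhds ENNReal.tendsto_inv_nat_nhds_zero
      (fun _ => zero_le) fun k => (hν k).le
  have g : ∀ k, K.IsForm (cm χ (f k) (ν k) - f k) ∧ K.Smooth (cm χ (f k) (ν k) - f k) := fun k =>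
    ⟨form_sub (t k).form (hf k).1, smooth_sub (t k).smooth (hf k).2.1⟩
  refine ⟨fun k => ⟨_, t k⟩, ?_, h1, fun ψ hψ h2 => ?_⟩
  · have p1 : Tendsto (fun q : ℕ × ℕ => q.1) atTop atTop := by
      rw [← prod_atTop_atTop_eq]
      exact tendsto_fst
    have p2 : Tendsto (fun q : ℕ × ℕ => q.2) atTop atTop := by
      rw [← prod_atTop_atTop_eq]
      exact tendsto_snd
    have g1 : ∀ q : ℕ × ℕ, K.IsForm (f q.1 - f q.2) ∧ K.Smooth (f q.1 - f q.2) := fun q =>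
      ⟨form_sub (hf _).1 (hf _).1, smooth_sub (hf _).2.1 (hf _).2.1⟩
    have h3 := nl_add (fun q => ⟨form_add K (g q.1).1 (g1 q).1, smooth_add K (g q.1).2 (g1 q).2⟩)
      (b := fun q : ℕ × ℕ => f q.2 - cm χ (f q.2) (ν q.2))
      (fun q => ⟨form_sub (hf _).1 (t _).form, smooth_sub (hf _).2.1 (t _).smooth⟩)
      (nl_add (fun q => g q.1) g1 (h1.comp p1) hc) ((h1.comp p2).congr fun q => nl_neg _ _)
    refine (nl_iff (a := fun q : ℕ × ℕ => cm χ (f q.1) (ν q.1) - cm χ (f q.2) (ν q.2))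
      fun q => (TS K p).sub_mem (t _) (t _)).1 (h3.congr fun q => ?_)
    rw [sub_add_sub_cancel, sub_add_sub_cancel]
  · have h3 := (ip_lim χ g h1 hψ).add h2
    rw [add_zero] at h3
    refine (tendsto_conj h3).congr fun k => ?_
    rw [ip_conj k1Stmt ψ]
    congr 1
    unfold KA.ip
    rw [← integral_add ((k3 n M K).int p ψ _ hψ (g k).1 (g k).2).2
      ((k3 n M K).int p ψ _ hψ (hf k).1 (hf k).2.1).2]
    exact integral_congr_ae (Eventually.of_forall fun x =>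
      (congrFun (dn_add_left _ _ ψ) x).symm.trans (by rw [sub_add_cancel]))

/-- back to the given forms -/
theorem fin {r : ℕ} {f : ℕ → K.Fm p}
    (hf : ∀ k, K.IsForm (f k) ∧ K.Smooth (f k) ∧ K.nl (f k) ≠ ⊤) {y : ℕ → TS K p}
    (hy : Tendsto (fun k => K.nl ((y k).1 - f k)) atTop (𝓝 0)) {u : ℕ → TS K r}
    (hu : Cau (tc k1Stmt (k3 n M K) r) u) (v : ℕ → TS K p)
    (hv : Tendsto (fun k => qf (tc k1Stmt (k3 n M K) p) (v k - y k)) atTop (𝓝 0)) :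
    Tendsto (fun q : ℕ × ℕ => K.nl ((u q.1).1 - (u q.2).1)) atTop (𝓝 0) ∧
      Tendsto (fun k => K.nl ((v k).1 - f k)) atTop (𝓝 0) := by
  have t : ∀ k, K.Test ((v k).1 - (y k).1) := fun k => (TS K p).sub_mem (v k).2 (y k).2
  refine ⟨(nl_iff fun q => (TS K r).sub_mem (u _).2 (u _).2).2 hu, ?_⟩
  refine (nl_add (fun k => ⟨(t k).form, (t k).smooth⟩) (fun k => ⟨form_sub (y k).2.form (hf k).1,
    smooth_sub (y k).2.smooth (hf k).2.1⟩) ((nl_iff t).2 hv) hy).congr fun k => ?_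
  rw [sub_add_sub_cancel]

theorem adj (t : TS K p) (x : TS K (p + 1)) : K.ip (K.dh t.1) x.1 = K.ip t.1 (K.S x.1) :=
  (k3 n M K).adj p t.1 x.1 t.2.form t.2.smooth x.2.form x.2.smooth (Or.inl t.2)

theorem adj' (t : TS K p) (x : TS K (p + 1)) : K.ip t.1 (K.S x.1) = K.ip (K.dh t.1) x.1 :=
  (adj t x).symm

theorem adj'' (t : TS K p) (x : TS K (p + 1)) : K.ip x.1 (K.dh t.1) = K.ip (K.S x.1) t.1 := by
  rw [ip_conj k1Stmt, adj, ← ip_conj k1Stmt]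

theorem orth (t : TS K p) (x : TS K (p + 1 + 1)) : K.ip (K.dh t.1) (K.S x.1) = 0 := by
  rw [← adj ⟨_, (k3 n M K).dh_test p t.1 t.2⟩ x]
  change K.ip (K.dh (K.dh t.1)) x.1 = 0
  rw [(k3 n M K).dh_dh p t.1 t.2, ip_zero_left]

theorem orth' (t : TS K p) (x : TS K (p + 1 + 1)) : K.ip (K.S x.1) (K.dh t.1) = 0 := by
  rw [ip_conj k1Stmt, orth, map_zero]

end forms

end Sol

open Sol

/-- **SOLD** -/
theorem solD : StSolD := by
  rintro n M _ _ _ _ K ⟨χ⟩ p ⟨c, hc, apr⟩ f hf h1 h2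
  obtain ⟨y, y1, y2, y3⟩ := approx (p := p + 1 + 1) χ hf h1
  have d1 := dens ⟨χ⟩ p
  have d2 := dens ⟨χ⟩ (p + 1)
  obtain ⟨u, u1, u2⟩ := sol_core _ d1 d2
    (fun t x => adj' t x) (fun z x => orth' z x) (fun t z => orth' t z) hc
    (fun x => apr x.1 x.2) y y1 fun z => y3 _ ((k3 n M K).S_test _ _ z.2)
      ((ip_lim χ (fun k => (k3 n M K).dh_form _ _ (hf k).1 (hf k).2.1) h2 z.2).congr fun k =>
        (k3 n M K).adj _ _ _ (hf k).1 (hf k).2.1 z.2.form z.2.smooth (Or.inr z.2))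
  exact ⟨fun k => (u k).1, fun k => (u k).2,
    Sol.fin (p := p + 1 + 1) hf y2 u1 (fun k => dT' (k3 n M K) (p + 1) (u k)) u2⟩

/-- **SOLS** -/
theorem solS : StSolS := by
  rintro n M _ _ _ _ K ⟨χ⟩ p ⟨c, hc, apr⟩ f hf h1 h2
  obtain ⟨y, y1, y2, y3⟩ := approx χ hf h1
  have d1 := (dens ⟨χ⟩ (p + 1)).symm
  have d2 := (dens ⟨χ⟩ p).symm
  obtain ⟨u, u1, u2⟩ := sol_core _ d1 d2
    (fun t x => adj'' x t) (fun z x => orth x z) (fun t z => orth z t) hc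
    (fun x => (apr x.1 x.2).trans_eq (add_comm _ _)) y y1
    fun z => y3 _ ((k3 n M K).dh_test _ _ z.2)
      ((ip_lim χ (fun k => (k3 n M K).S_form _ _ (hf k).1 (hf k).2.1) h2 z.2).congr fun k => by
        rw [ip_conj k1Stmt, ← (k3 n M K).adj _ _ _ z.2.form z.2.smooth (hf k).1 (hf k).2.1
          (Or.inl z.2), ← ip_conj k1Stmt]
        rfl)
  exact ⟨fun k => (u k).1, fun k => (u k).2,
    Sol.fin hf y2 u1 (fun k => sT (k3 n M K) (p + 1) (u k)) u2⟩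

end Vale.Agent.P277Z.R2
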